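import Mathlib

/-!
# P036, towers: common definitions

Conventions: `L : Type` is a number field, `L ≃ₐ[ℚ] L` acts on `L`, `𝓞 L`, `Lˣ`, on ideals
(pointwise) and on `HeightOneSpectrum (𝓞 L)`.
-/

namespace Vale.Agent.P036.TW

open NumberField IsDedekindDomain
open scoped Pointwise nonZeroDivisors

/-- primes of a number field -/
abbrev Pl (L : Type) [Field L] [NumberField L] := HeightOneSpectrum (𝓞 L)

section Action
variable {L : Type} [Field L] [NumberField L] {G : Type} [Group G] [MulSemiringAction G L]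

/-- action of automorphisms on the primes -/
noncomputable instance : MulAction G (Pl L) where
  smul g P := ⟨g • P.asIdeal, Ideal.map_isPrime_of_equiv (MulSemiringAction.toRingEquiv G (𝓞 L) g), by
    intro h
    apply P.ne_bot
    have := congrArg (fun I => g⁻¹ • I) h
    simpa using this⟩
  one_smul P := by ext1; exact one_smul _ _
  mul_smul g h P := by ext1; exact mul_smul _ _ _

theorem asIdeal_smul (g : G) (P : Pl L) : (g • P).asIdeal = g • P.asIdeal := rfl

end Action

/-- the order of a nonzero element at a prime -/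
noncomputable def ord {L : Type} [Field L] [NumberField L] (P : Pl L) (x : L) : ℤ :=
  FractionalIdeal.count L P (FractionalIdeal.spanSingleton (𝓞 L)⁰ x)

/-- `H` has trivial inertia at all primes of `L`, i.e. `L / L^H` is unramified at all finite
primes. -/
def InertiaTrivial (L : Type) [Field L] [NumberField L] (H : Subgroup (L ≃ₐ[ℚ] L)) : Prop :=
  ∀ P : Ideal (𝓞 L), P.IsMaximal → ∀ g ∈ H, (∀ x : 𝓞 L, g • x - x ∈ P) → g = 1

/-- The Galois group of `L` over `K = ℚ(δ)`. -/
abbrev GK {L : Type} [Field L] [NumberField L] (δ : L) : Subgroup (L ≃ₐ[ℚ] L) :=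
  MulAction.stabilizer (L ≃ₐ[ℚ] L) δ

/-- admissible fields: Galois 2-extensions of `ℚ` containing `K = ℚ(√D)`, unramified over `K`,
in which all `l ∈ P0` split completely. -/
structure Adm (D : ℤ) (P0 : Finset ℕ) (L : Type) [Field L] [NumberField L] : Prop where
  gal : IsGalois ℚ L
  two : IsPGroup 2 (L ≃ₐ[ℚ] L)
  root : ∃ δ : L, δ ^ 2 = (D : L)
  unr : ∀ δ : L, δ ^ 2 = (D : L) → InertiaTrivial L (GK δ)
  split : ∀ l ∈ P0, ∀ P : Ideal (𝓞 L), P.IsMaximal → (l : 𝓞 L) ∈ P →
    ∀ g : L ≃ₐ[ℚ] L, g • P = P → g = 1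

/-- maximal admissible field -/
def IsMaxAdm (D : ℤ) (P0 : Finset ℕ) (L : Type) [Field L] [NumberField L] : Prop :=
  Adm D P0 L ∧ ∀ (L' : Type) [Field L'] [NumberField L'], Adm D P0 L' →
    Module.finrank ℚ L' ≤ Module.finrank ℚ L

/-- the arithmetic data: `D = -∏ p_i`, `t` odd number of primes `p_i ≡ -1 mod 4 ∏ P0` -/
structure Data (P0 : Finset ℕ) (T : Finset ℕ) : Prop where
  prime0 : ∀ l ∈ P0, l.Prime ∧ 2 < l
  prime : ∀ p ∈ T, p.Prime
  cong : ∀ p ∈ T, (4 * ∏ l ∈ P0, l) ∣ p + 1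
  odd : Odd T.card

/-- the discriminant `D = -∏ p` -/
def disc (T : Finset ℕ) : ℤ := -∏ p ∈ T, (p : ℤ)

end Vale.Agent.P036.TW
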