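import Mathlib
import Vale.Agent.P036.TW.Defs

/-!
# P036, towers: elementary facts on the arithmetic data
-/

namespace Vale.Agent.P036.TW

open NumberField IsDedekindDomain
open scoped Pointwise nonZeroDivisors

theorem prod_add_one_of_odd (M : ℕ) (T : Finset ℕ) (h : ∀ p ∈ T, M ∣ p + 1) (hodd : Odd T.card) :
    (M : ℤ) ∣ (∏ p ∈ T, (p : ℤ)) + 1 := by
  have h1 : ((∏ p ∈ T, (p : ℤ) : ℤ) : ZMod M) = ∏ p ∈ T, (-1 : ZMod M) := by
    rw [Int.cast_prod]
    refine Finset.prod_congr rfl fun p hp => ?_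
    have := (ZMod.natCast_eq_zero_iff (p + 1) M).2 (h p hp)
    push_cast at this
    rw [Int.cast_natCast]
    linear_combination this
  rw [Finset.prod_const, hodd.neg_one_pow] at h1
  rw [← ZMod.intCast_zmod_eq_zero_iff_dvd]
  push_cast at h1 ⊢
  rw [h1]; ring

theorem Data.dvd_disc_sub_one {P0 T : Finset ℕ} (h : Data P0 T) :
    ((4 * ∏ l ∈ P0, l : ℕ) : ℤ) ∣ disc T - 1 := by
  have := prod_add_one_of_odd _ T h.cong h.odd
  rw [disc]
  have h2 : (-∏ p ∈ T, (p : ℤ)) - 1 = -((∏ p ∈ T, (p : ℤ)) + 1) := by ring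
  rw [h2]
  exact (dvd_neg).2 this

theorem Data.four_dvd {P0 T : Finset ℕ} (h : Data P0 T) : (4 : ℤ) ∣ disc T - 1 := by
  refine Dvd.dvd.trans ?_ h.dvd_disc_sub_one
  push_cast
  exact Dvd.intro _ rfl

theorem Data.l_dvd {P0 T : Finset ℕ} (h : Data P0 T) {l : ℕ} (hl : l ∈ P0) :
    (l : ℤ) ∣ disc T - 1 := by
  refine Dvd.dvd.trans ?_ h.dvd_disc_sub_one
  push_cast
  refine Dvd.dvd.mul_left ?_ _
  exact Finset.dvd_prod_of_mem (fun l : ℕ => (l : ℤ)) hl

theorem Data.disc_neg {P0 T : Finset ℕ} (h : Data P0 T) : disc T < 0 := by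
  rw [disc]
  have : 0 < ∏ p ∈ T, (p : ℤ) := Finset.prod_pos fun p hp => by
    exact_mod_cast (h.prime p hp).pos
  linarith

/-- each `p ∈ T` is `-1` modulo `4` -/
theorem Data.four_dvd_p {P0 T : Finset ℕ} (h : Data P0 T) {p : ℕ} (hp : p ∈ T) : 4 ∣ p + 1 :=
  Dvd.dvd.trans (Dvd.intro _ rfl) (h.cong p hp)

/-- each `p ∈ T` is `-1` modulo every `l ∈ P0` -/
theorem Data.l_dvd_p {P0 T : Finset ℕ} (h : Data P0 T) {p l : ℕ} (hp : p ∈ T) (hl : l ∈ P0) :
    l ∣ p + 1 :=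
  Dvd.dvd.trans (Dvd.dvd.mul_left (Finset.dvd_prod_of_mem (fun l : ℕ => l) hl) _) (h.cong p hp)

theorem Data.odd_p {P0 T : Finset ℕ} (h : Data P0 T) {p : ℕ} (hp : p ∈ T) : 2 < p := by
  have h1 := h.four_dvd_p hp
  have h2 := (h.prime p hp).two_le
  obtain ⟨k, hk⟩ := h1
  omega

/-- products `∏_{p ∈ S} (-p)` are `1` modulo `4` and modulo every `l ∈ P0` -/
theorem Data.sub_prod_dvd {P0 T S : Finset ℕ} (h : Data P0 T) (hS : S ⊆ T) :
    ((4 * ∏ l ∈ P0, l : ℕ) : ℤ) ∣ (∏ p ∈ S, (-(p : ℤ))) - 1 := by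
  set M := 4 * ∏ l ∈ P0, l
  rw [← ZMod.intCast_zmod_eq_zero_iff_dvd, Int.cast_sub, Int.cast_prod, Int.cast_one, sub_eq_zero]
  refine Finset.prod_eq_one fun p hp => ?_
  have := (ZMod.natCast_eq_zero_iff (p + 1) M).2 (h.cong p (hS hp))
  push_cast at this ⊢
  linear_combination -this

theorem Data.disc_eq_prod {P0 T : Finset ℕ} (h : Data P0 T) :
    disc T = ∏ p ∈ T, (-(p : ℤ)) := by
  rw [disc, Finset.prod_neg, h.odd.neg_one_pow]
  ring

theorem squarefree_prod_primes (S : Finset ℕ) (hS : ∀ p ∈ S, p.Prime) :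
    Squarefree (∏ p ∈ S, p) := by
  induction S using Finset.induction_on with
  | empty => simp
  | insert a s ha ih =>
    rw [Finset.prod_insert ha]
    have hc : Nat.Coprime a (∏ p ∈ s, p) := by
      apply Nat.Coprime.prod_right
      intro i hi
      rw [Nat.coprime_primes (hS a (by simp)) (hS i (by simp [hi]))]
      rintro rfl
      exact ha hi
    rw [Nat.squarefree_mul hc]
    exact ⟨(hS a (by simp)).squarefree, ih fun p hp => hS p (by simp [hp])⟩

theorem Data.squarefree {P0 T : Finset ℕ} (h : Data P0 T) : Squarefree (disc T) := by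
  have h1 : disc T = -((∏ p ∈ T, p : ℕ) : ℤ) := by rw [disc]; push_cast; rfl
  rw [← Int.squarefree_natAbs, h1, Int.natAbs_neg, Int.natAbs_natCast]
  exact squarefree_prod_primes T h.prime

end Vale.Agent.P036.TW
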