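import Mathlib
import Vale.Agent.P036.TW.Defs

/-!
# P036, towers: the block statements (as `Prop`s) and the final assembly
-/

namespace Vale.Agent.P036.TW

open NumberField IsDedekindDomain
open scoped Pointwise nonZeroDivisors

/-- Block T1 (Golod–Shafarevich for finite groups). -/
def T1Stmt : Prop :=
  ∀ (G : Type) [Group G] [Finite G] (d r : ℕ) (π : FreeGroup (Fin d) →* G),
    3 ≤ d → Function.Surjective π →
    (∀ (χ : FreeGroup (Fin d) →* Multiplicative (ZMod 2)) (x : FreeGroup (Fin d)),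
      π x = 1 → χ x = 1) →
    Finite {φ : π.ker →* Multiplicative (ZMod 2) // ∀ (f : FreeGroup (Fin d)) (r s : π.ker),
      (s : FreeGroup (Fin d)) = f * r * f⁻¹ → φ s = φ r} →
    Nat.card {φ : π.ker →* Multiplicative (ZMod 2) // ∀ (f : FreeGroup (Fin d)) (r s : π.ker),
      (s : FreeGroup (Fin d)) = f * r * f⁻¹ → φ s = φ r} ≤ 2 ^ r →
    d ^ 2 < 4 * r

/-- Block T1b (Burnside basis theorem). -/
def T1bStmt : Prop :=
  ∀ (G : Type) [Group G] [Finite G], IsPGroup 2 G → ∀ d : ℕ,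
    Nat.card (G →* Multiplicative (ZMod 2)) = 2 ^ d →
    ∃ π : FreeGroup (Fin d) →* G, Function.Surjective π ∧
      ∀ (χ : FreeGroup (Fin d) →* Multiplicative (ZMod 2)) (x : FreeGroup (Fin d)),
        π x = 1 → χ x = 1

/-- Block T1c: the number of characters of a finite group with values `±1` is a power of two. -/
def T1cStmt : Prop :=
  ∀ (G : Type) [Group G] [Finite G], ∃ d : ℕ, Nat.card (G →* Multiplicative (ZMod 2)) = 2 ^ d

/-- Block T4 (Hasse norm theorem, unramified quadratic extensions). -/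
def T4Stmt : Prop :=
  ∀ (F F' : Type) [Field F] [NumberField F] [Field F'] [NumberField F'] [Algebra F F']
    (σ : F' ≃ₐ[F] F'), Module.finrank F F' = 2 → IsTotallyComplex F → σ ≠ 1 →
    (∀ P : Ideal (𝓞 F'), P.IsMaximal → ∃ x : 𝓞 F', σ • x - x ∉ P) →
    ∀ x : F, x ≠ 0 →
      (∀ w : Pl F', σ • w = w → Even (ord w (algebraMap F F' x))) →
      ∃ z : F', algebraMap F F' x = z * σ z

/-- Block T7 (class partial zeta functions near `s = 1`). -/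
def T7Stmt : Prop :=
  ∀ (F : Type) [Field F] [NumberField F], ∃ κ : ℝ, 0 < κ ∧ ∀ c : ClassGroup (𝓞 F), ∃ C : ℝ,
    ∀ s : ℝ, 1 < s → s ≤ 2 →
      |(∑' I : {I : (Ideal (𝓞 F))⁰ // ClassGroup.mk0 I = c},
        (Ideal.absNorm (I.1 : Ideal (𝓞 F)) : ℝ) ^ (-s)) - κ / (s - 1)| ≤ C

/-- Block T6 (second inequality). -/
def T6Stmt : Prop :=
  ∀ (F F' : Type) [Field F] [NumberField F] [Field F'] [NumberField F'] [Algebra F F']
    (σ : F' ≃ₐ[F] F'), Module.finrank F F' = 2 → σ ≠ 1 →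
    (∀ P : Ideal (𝓞 F'), P.IsMaximal → ∃ x : 𝓞 F', σ • x - x ∉ P) →
    ∀ H : Subgroup (ClassGroup (𝓞 F)),
      (∀ v : Pl F, (∃ w : Pl F', σ • w ≠ w ∧ w.asIdeal.comap (algebraMap (𝓞 F) (𝓞 F')) = v.asIdeal) →
        ClassGroup.mk0 ⟨v.asIdeal, mem_nonZeroDivisors_of_ne_zero v.ne_bot⟩ ∈ H) →
      (∀ c : ClassGroup (𝓞 F), c ^ 2 ∈ H) →
      H.index ≤ 2

/-- Block T3 (embedding theorem for unit-valued equivariant homs; from T2 and T4). -/
def EmbStmt : Prop :=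
  ∀ (L : Type) [Field L] [NumberField L] [IsGalois ℚ L] (D : ℤ) (δ : L),
    δ ^ 2 = (D : L) → D < 0 → IsPGroup 2 (GK δ) → InertiaTrivial L (GK δ) →
    ∀ (Φ : Type) [Group Φ] (π : Φ →* GK δ), Function.Surjective π →
    ∀ φ : π.ker →* Lˣ,
      (∀ (f : Φ) (r s : π.ker), (s : Φ) = f * r * f⁻¹ → φ s = π f • φ r) →
      (∀ (r : π.ker) (P : Pl L), ord P (φ r : L) = 0) →
      ∃ u : Φ → Lˣ, (∀ f g, u (f * g) = u f * π f • u g) ∧ ∀ r : π.ker, u r = φ r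

/-- Block T8 (maximality lemma (M)). -/
def T8Stmt : Prop :=
  ∀ (D : ℤ) (P0 : Finset ℕ), 4 ∣ D - 1 → (∀ l ∈ P0, l.Prime ∧ 2 < l) →
    ∀ (L : Type) [Field L] [NumberField L], IsMaxAdm D P0 L → ∀ δ : L, δ ^ 2 = (D : L) →
    ∀ a : 𝓞 L, a ≠ 0 → (∀ g : L ≃ₐ[ℚ] L, g δ = δ → ∃ z : L, g (a : L) = a * z ^ 2) →
      (∀ P : Pl L, Even (ord P (a : L))) →
      (∀ P : Ideal (𝓞 L), P.IsMaximal → (2 : 𝓞 L) ∈ P → a ∉ P) →
      (∃ s : 𝓞 L, (4 : 𝓞 L) ∣ a - s ^ 2) →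
      (∀ l ∈ P0, ∀ P : Ideal (𝓞 L), P.IsMaximal → (l : 𝓞 L) ∈ P → a ∉ P ∧
        ∃ s : 𝓞 L, a - s ^ 2 ∈ P) →
      ∃ b : L, (a : L) = b ^ 2

/-- Block T8b (1): invariants modulo 2 come from `K`. -/
def T8bStmt : Prop :=
  ∀ (L : Type) [Field L] [NumberField L] [IsGalois ℚ L] (δ : L), InertiaTrivial L (GK δ) →
    ∀ z : 𝓞 L, (∀ g ∈ GK δ, (2 : 𝓞 L) ∣ g • z - z) →
      ∃ k : 𝓞 L, (∀ g ∈ GK δ, g • k = k) ∧ (2 : 𝓞 L) ∣ z - k

/-- Block T8b (2): `2` is unramified in `L`, i.e. `𝓞 L / 2` is reduced. -/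
def T8cStmt : Prop :=
  ∀ (D : ℤ) (P0 : Finset ℕ) (L : Type) [Field L] [NumberField L], 4 ∣ D - 1 → Adm D P0 L →
    ∀ z : 𝓞 L, (2 : 𝓞 L) ∣ z ^ 2 → (2 : 𝓞 L) ∣ z

/-- Block T9 (bound for the number of relations). -/
def T9Stmt : Prop :=
  ∀ (P0 T : Finset ℕ), Data P0 T → ∀ (L : Type) [Field L] [NumberField L],
    IsMaxAdm (disc T) P0 L → ∀ δ : L, δ ^ 2 = (disc T : L) →
    ∀ (Φ : Type) [Group Φ] (π : Φ →* GK δ), Function.Surjective π →
      (∀ (χ : Φ →* Multiplicative (ZMod 2)) (x : Φ), π x = 1 → χ x = 1) →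
      Finite {φ : π.ker →* Multiplicative (ZMod 2) // ∀ (f : Φ) (r s : π.ker),
        (s : Φ) = f * r * f⁻¹ → φ s = φ r} ∧
      Nat.card {φ : π.ker →* Multiplicative (ZMod 2) // ∀ (f : Φ) (r s : π.ker),
        (s : Φ) = f * r * f⁻¹ → φ s = φ r} ≤ 2 ^ (T.card + 2 + 2 * P0.card)

/-- Block T10a (1): arithmetic data exist. -/
def T10aStmt : Prop :=
  ∀ (P0 : Finset ℕ), (∀ l ∈ P0, l.Prime ∧ 2 < l) → ∀ t : ℕ, ∃ T : Finset ℕ, Data P0 T ∧ t ≤ T.card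

/-- Block T10a (2): the base field is admissible. -/
def T10baseStmt : Prop :=
  ∀ (P0 T : Finset ℕ), Data P0 T → ∃ (L : Type) (_ : Field L) (_ : NumberField L),
    Adm (disc T) P0 L

/-- Block T10b: the class group of `K` modulo squares. -/
def T10bStmt : Prop :=
  ∀ (P0 T : Finset ℕ), Data P0 T → ∀ (K : Type) [Field K] [NumberField K],
    Module.finrank ℚ K = 2 → (∃ δ : K, δ ^ 2 = (disc T : K)) →
    Nat.card (ClassGroup (𝓞 K) ⧸ (powMonoidHom 2 : ClassGroup (𝓞 K) →* ClassGroup (𝓞 K)).range)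
      ≤ 2 ^ T.card

/-- Block T10c: lower bound for the number of characters. -/
def T10cStmt : Prop :=
  ∀ (P0 T : Finset ℕ), Data P0 T → ∀ (L : Type) [Field L] [NumberField L],
    IsMaxAdm (disc T) P0 L → ∀ δ : L, δ ^ 2 = (disc T : L) →
    2 ^ (T.card - 1) ≤ Nat.card (GK δ →* Multiplicative (ZMod 2))

/-- Block T11a: the real subfield. -/
def T11aStmt : Prop :=
  ∀ (P0 T : Finset ℕ), Data P0 T → ∀ (L : Type) [Field L] [NumberField L],
    Adm (disc T) P0 L → ∃ (F : Type) (_ : Field F) (_ : NumberField F),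
      2 * Module.finrank ℚ F = Module.finrank ℚ L ∧ Nonempty (F →+* ℝ) ∧
      (discr F).natAbs ^ 2 ≤ (disc T).natAbs ^ Module.finrank ℚ F ∧
      ∀ l ∈ P0, Nat.card {P : Ideal (𝓞 F) // P.IsMaximal ∧ (l : 𝓞 F) ∈ P} = Module.finrank ℚ F ∧
        ∀ P : Ideal (𝓞 F), P.IsMaximal → (l : 𝓞 F) ∈ P → Ideal.absNorm P = l

/-- **Tower theorem.** -/
def TowerStmt : Prop :=
  ∀ (P0 : Finset ℕ), (∀ l ∈ P0, l.Prime ∧ 2 < l) → ∃ B : ℕ, ∀ N : ℕ,
    ∃ (F : Type) (_ : Field F) (_ : NumberField F),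
      N ≤ Module.finrank ℚ F ∧ Nonempty (F →+* ℝ) ∧
      (discr F).natAbs ^ 2 ≤ B ^ Module.finrank ℚ F ∧
      ∀ l ∈ P0, Nat.card {P : Ideal (𝓞 F) // P.IsMaximal ∧ (l : 𝓞 F) ∈ P} = Module.finrank ℚ F ∧
        ∀ P : Ideal (𝓞 F), P.IsMaximal → (l : 𝓞 F) ∈ P → Ideal.absNorm P = l

/-- Assembly: unboundedness of the degrees of admissible fields, and the tower theorem. -/
theorem tower_of_blocks (h1 : T1Stmt) (h1b : T1bStmt) (h1c : T1cStmt) (h9 : T9Stmt)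
    (h10a : T10aStmt) (h10base : T10baseStmt) (h10c : T10cStmt) (h11a : T11aStmt) :
    TowerStmt := by
  intro P0 hP0
  obtain ⟨T, hT, ht⟩ := h10a P0 hP0 (20 + 20 * P0.card)
  refine ⟨(disc T).natAbs, fun N => ?_⟩
  -- the degrees are unbounded
  have key : ∃ (L : Type) (_ : Field L) (_ : NumberField L), Adm (disc T) P0 L ∧
      2 * N ≤ Module.finrank ℚ L := by
    by_contra hcon
    push Not at hcon
    -- choose an admissible field of maximal degree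
    let S : Set ℕ := {n | ∃ (L : Type) (_ : Field L) (_ : NumberField L), Adm (disc T) P0 L ∧
      Module.finrank ℚ L = n}
    have hne : S.Nonempty := by
      obtain ⟨L, i1, i2, h⟩ := h10base P0 T hT
      exact ⟨_, L, i1, i2, h, rfl⟩
    have hbd : BddAbove S := by
      refine ⟨2 * N, ?_⟩
      rintro n ⟨L, i1, i2, h, rfl⟩
      exact (hcon L i1 i2 h).le
    obtain ⟨L, i1, i2, hL, hLn⟩ := Nat.sSup_mem hne hbd
    have hmax : IsMaxAdm (disc T) P0 L := by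
      refine ⟨hL, ?_⟩
      intro L' j1 j2 hL'
      rw [hLn]
      exact le_csSup hbd ⟨L', j1, j2, hL', rfl⟩
    obtain ⟨δ, hδ⟩ := hL.root
    obtain ⟨d, hd⟩ := h1c (GK δ)
    have hd1 := h10c P0 T hT L hmax δ hδ
    rw [hd] at hd1
    have hd2 : T.card - 1 ≤ d := (Nat.pow_le_pow_iff_right (by norm_num)).1 hd1
    have h2G : IsPGroup 2 (GK δ) := hL.two.to_subgroup _
    obtain ⟨π, hπ, hmin⟩ := h1b (GK δ) h2G d hd
    obtain ⟨hfin, hcard⟩ := h9 P0 T hT L hmax δ hδ (FreeGroup (Fin d)) π hπ hmin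
    have := h1 (GK δ) d _ π (by omega) hπ hmin hfin hcard
    have h3 : T.card ≤ d + 1 := by omega
    nlinarith
  obtain ⟨L, i1, i2, hL, hLN⟩ := key
  obtain ⟨F, j1, j2, hF, hreal, hdisc, hsplit⟩ := h11a P0 T hT L hL
  exact ⟨F, j1, j2, by omega, hreal, hdisc, hsplit⟩

end Vale.Agent.P036.TW
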