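import Mathlib

/-!
Abstract embedding theorem by crossed homomorphisms (block T2 of the towers blueprint).
-/

namespace Vale.Agent.P036.TW

section Step

variable {G A I Φ : Type*} [Group G] [CommGroup A] [MulDistribMulAction G A]
  [CommGroup I] [MulDistribMulAction G I] [Group Φ]

/-- `u` is a crossed homomorphism on the preimage of `H`. -/
def CrossedOn (π : Φ →* G) (H : Subgroup G) (u : Φ → A) : Prop :=
  ∀ f g : Φ, π f ∈ H → π g ∈ H → u (f * g) = u f * π f • u g

theorem CrossedOn.one {π : Φ →* G} {H : Subgroup G} {u : Φ → A} (hu : CrossedOn π H u) :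
    u 1 = 1 := by
  have h := hu 1 1 (by simp [H.one_mem]) (by simp [H.one_mem])
  simpa using h

/-- descent of a crossed homomorphism which is trivial on the kernel -/
theorem CrossedOn.descend {π : Φ →* G} (hπ : Function.Surjective π) {N : Subgroup G}
    {w : Φ → A} (hw : CrossedOn π N w) (hk : ∀ r : Φ, π r = 1 → w r = 1)
    (h90 : ∀ c : N → A, (∀ g h : N, c (g * h) = c g * (g : G) • c h) →
      ∃ a : A, ∀ g : N, c g = (g : G) • a / a) :
    ∃ y : A, ∀ f : Φ, π f ∈ N → w f = π f • y / y := by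
  classical
  choose s hs using hπ
  have key : ∀ f g : Φ, π f ∈ N → π f = π g → w f = w g := by
    intro f g hf hfg
    have h1 : π (f⁻¹ * g) = 1 := by simp [hfg]
    have h2 : w (f * (f⁻¹ * g)) = w f * π f • w (f⁻¹ * g) :=
      hw f (f⁻¹ * g) hf (by rw [h1]; exact N.one_mem)
    rw [hk _ h1] at h2
    simpa using h2.symm
  obtain ⟨y, hy⟩ := h90 (fun g => w (s g)) (by
    intro g h
    have h1 : π (s (g * h : G)) = π (s g * s h) := by rw [hs, map_mul, hs, hs]
    have h2 : w (s (g * h : G)) = w (s g * s h) := by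
      apply key _ _ _ h1
      rw [hs]; exact (g * h).2
    have h3 := hw (s g) (s h) (by rw [hs]; exact g.2) (by rw [hs]; exact h.2)
    rw [hs] at h3
    change w (s (g * h : G)) = _
    rw [h2, h3])
  refine ⟨y, fun f hf => ?_⟩
  have h1 := hy ⟨π f, hf⟩
  have h2 : w f = w (s (π f)) := key _ _ hf (by rw [hs])
  rw [h2]
  exact h1

/-- The extension step of the embedding theorem. -/
theorem crossed_step (dv : A →* I) (hdv : ∀ (g : G) (a : A), dv (g • a) = g • dv a)
    {N H : Subgroup G} (hNH : N ≤ H) (h2 : N.relIndex H = 2)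
    (h90 : ∀ c : N → A, (∀ g h : N, c (g * h) = c g * (g : G) • c h) →
      ∃ a : A, ∀ g : N, c g = (g : G) • a / a)
    (h1I : ∀ c : N → I, (∀ g h : N, c (g * h) = c g * (g : G) • c h) →
      ∃ b : I, ∀ g : N, c g = (g : G) • b / b)
    (hnorm : ∀ τ ∈ H, τ ∉ N → ∀ x : A, (∀ h ∈ H, h • x = x) →
      ∀ c : I, (∀ n ∈ N, n • c = c) → dv x = c * τ • c →
      ∃ z : A, (∀ n ∈ N, n • z = z) ∧ x = z * τ • z)
    (π : Φ →* G) (hπ : Function.Surjective π)
    (δ : Φ → I) (hδ : ∀ f g, δ (f * g) = δ f * π f • δ g)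
    (v : Φ → A) (hv : CrossedOn π N v)
    (hvconj : ∀ (f r : Φ), π r = 1 → v (f * r * f⁻¹) = π f • v r)
    (hvδ : ∀ r : Φ, π r = 1 → δ r = dv (v r)) :
    ∃ u : Φ → A, CrossedOn π H u ∧ ∀ r : Φ, π r = 1 → u r = v r := by
  classical
  -- elements of H outside N
  have hmulmem : ∀ a ∈ H, ∀ b ∈ H, (a * b ∈ N ↔ (a ∈ N ↔ b ∈ N)) := by
    intro a ha b hb
    have h := Subgroup.mul_mem_iff_of_index_two (H := N.subgroupOf H) (by simpa [Subgroup.relIndex] using h2)
      (a := ⟨a, ha⟩) (b := ⟨b, hb⟩)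
    simpa [Subgroup.mem_subgroupOf] using h
  have hex : ∃ τ ∈ H, τ ∉ N := by
    by_contra hcon
    push Not at hcon
    have : N.relIndex H = 1 := by
      rw [Subgroup.relIndex_eq_one]; exact hcon
    omega
  obtain ⟨τ, hτH, hτN⟩ := hex
  obtain ⟨t, ht⟩ := hπ τ
  have hτinv : τ⁻¹ ∉ N := fun h => hτN (by simpa using N.inv_mem h)
  have hconj : ∀ n ∈ N, τ * n * τ⁻¹ ∈ N := by
    intro n hn
    have h1 := hmulmem (τ * n) (H.mul_mem hτH (hNH hn)) τ⁻¹ (H.inv_mem hτH)
    have h3 := hmulmem τ hτH n (hNH hn)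
    rw [h1]
    constructor
    · intro h; exact absurd ((h3.1 h).2 hn) hτN
    · intro h; exact absurd h hτinv
  have hconj' : ∀ n ∈ N, τ⁻¹ * n * τ ∈ N := by
    intro n hn
    have h1 := hmulmem (τ⁻¹ * n) (H.mul_mem (H.inv_mem hτH) (hNH hn)) τ hτH
    have h3 := hmulmem τ⁻¹ (H.inv_mem hτH) n (hNH hn)
    rw [h1]
    constructor
    · intro h; exact absurd ((h3.1 h).2 hn) hτinv
    · intro h; exact absurd h hτN
  have hτ2 : τ * τ ∈ N := by
    rw [hmulmem τ hτH τ hτH]
  -- the conjugated crossed homomorphism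
  set vt : Φ → A := fun f => τ • v (t⁻¹ * f * t) with hvt
  have hvt_cr : CrossedOn π N vt := by
    intro f g hf hg
    have h1 : t⁻¹ * (f * g) * t = (t⁻¹ * f * t) * (t⁻¹ * g * t) := by group
    have hf' : π (t⁻¹ * f * t) ∈ N := by simp only [map_mul, map_inv, ht]; exact hconj' _ hf
    have hg' : π (t⁻¹ * g * t) ∈ N := by simp only [map_mul, map_inv, ht]; exact hconj' _ hg
    simp only [hvt]
    rw [h1, hv _ _ hf' hg', smul_mul']
    congr 1
    rw [← mul_smul, ← mul_smul]
    congr 1
    simp only [map_mul, map_inv, ht]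
    group
  have hvt_ker : ∀ r : Φ, π r = 1 → vt r = v r := by
    intro r hr
    simp only [hvt]
    have h1 := hvconj t⁻¹ r hr
    rw [inv_inv] at h1
    rw [h1, map_inv, ht, smul_inv_smul]
  obtain ⟨y, hy⟩ := CrossedOn.descend (A := A) hπ (N := N) (w := fun f => vt f / v f)
    (by
      intro f g hf hg
      simp only [hvt_cr f g hf hg, hv f g hf hg, smul_div']
      rw [mul_div_mul_comm])
    (by intro r hr; simp [hvt_ker r hr]) h90
  have hy' : ∀ f, π f ∈ N → vt f = v f * (π f • y / y) := by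
    intro f hf
    rw [← hy f hf]; simp
  -- correct the ideal part
  obtain ⟨b, hb⟩ := CrossedOn.descend (A := I) hπ (N := N) (w := fun f => dv (v f) / δ f)
    (by
      intro f g hf hg
      simp only [hv f g hf hg, hδ f g, map_mul, hdv, smul_div']
      rw [mul_div_mul_comm])
    (by intro r hr; simp [hvδ r hr]) h1I
  set δ' : Φ → I := fun f => δ f * (π f • b / b) with hδ'
  have hδ'_cr : ∀ f g, δ' (f * g) = δ' f * π f • δ' g := by
    intro f g
    simp only [hδ', hδ f g, map_mul, mul_smul, smul_mul', smul_div']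
    apply Additive.ofMul.injective
    simp only [ofMul_mul, ofMul_div, ofMul_inv, ofMul_one]
    abel
  have hδ'v : ∀ f, π f ∈ N → dv (v f) = δ' f := by
    intro f hf
    simp only [hδ']
    rw [← hb f hf]; simp
  set c : I := δ' t / dv y with hc
  have hcN : ∀ n ∈ N, n • c = c := by
    intro n hn
    obtain ⟨f, hf⟩ := hπ n
    have hfN : π f ∈ N := by rw [hf]; exact hn
    have hf' : π (t⁻¹ * f * t) ∈ N := by simp only [map_mul, map_inv, ht]; exact hconj' _ hfN
    have e1 : δ' (t * (t⁻¹ * f * t)) = δ' t * τ • δ' (t⁻¹ * f * t) := by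
      rw [hδ'_cr, ht]
    have e2 : δ' (f * t) = δ' f * π f • δ' t := hδ'_cr f t
    have e3 : t * (t⁻¹ * f * t) = f * t := by group
    rw [e3, e2] at e1
    -- π f • δ' t / δ' t = τ • δ' (t⁻¹ f t) / δ' f = dv (vt f) / dv (v f)
    have e4 : τ • δ' (t⁻¹ * f * t) = dv (vt f) := by
      rw [← hδ'v _ hf', ← hdv]
    rw [e4, ← hδ'v f hfN, hy' f hfN] at e1
    simp only [map_mul, map_div, hdv] at e1
    -- dv (v f) * π f • δ' t = δ' t * (dv (v f) * (π f • dv y / dv y))
    have e5 : π f • δ' t = δ' t * (π f • dv y / dv y) := by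
      have : dv (v f) * π f • δ' t = dv (v f) * (δ' t * (π f • dv y / dv y)) := by
        rw [e1]; exact mul_left_comm _ _ _
      exact mul_left_cancel this
    rw [hc, ← hf, smul_div', e5]
    apply Additive.ofMul.injective
    simp only [ofMul_mul, ofMul_div, ofMul_inv, ofMul_one]
    abel
  -- the element x
  have htt : π (t * t) ∈ N := by rw [map_mul, ht]; exact hτ2
  set x : A := v (t * t) / (y * τ • y) with hx
  have hvtt : v (t * t) = x * (y * τ • y) := by rw [hx]; simp
  have hxN : ∀ n ∈ N, n • x = x := by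
    intro n hn
    obtain ⟨f, hf⟩ := hπ n
    have hfN : π f ∈ N := by rw [hf]; exact hn
    have hs : π (t⁻¹ * f * t) ∈ N := by simp only [map_mul, map_inv, ht]; exact hconj' _ hfN
    have hs2 : π (t⁻¹ * (t⁻¹ * f * t) * t) ∈ N := by
      have := hconj' _ hs
      simpa only [map_mul, map_inv, ht] using this
    have e1 : v (f * (t * t)) = v f * π f • v (t * t) := hv _ _ hfN htt
    have e2 : v ((t * t) * (t⁻¹ * (t⁻¹ * f * t) * t)) =
        v (t * t) * π (t * t) • v (t⁻¹ * (t⁻¹ * f * t) * t) := hv _ _ htt hs2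
    have e3 : (t * t) * (t⁻¹ * (t⁻¹ * f * t) * t) = f * (t * t) := by group
    rw [e3, e1] at e2
    have e4 : π (t * t) • v (t⁻¹ * (t⁻¹ * f * t) * t) = τ • vt (t⁻¹ * f * t) := by
      simp only [hvt, map_mul, ht, mul_smul]
    have e5 : τ • vt (t⁻¹ * f * t) = vt f * (π f • τ • y / τ • y) := by
      rw [hy' _ hs, smul_mul', smul_div']
      congr 1
      rw [← mul_smul, ← mul_smul]
      congr 2
      simp only [map_mul, map_inv, ht]
      group
    rw [e4, e5, hy' f hfN] at e2
    -- v f * πf•v(tt) = v(tt) * (v f * (πf•y/y) * (πf•τ•y/τ•y))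
    have e6 : π f • v (t * t) = v (t * t) * ((π f • y / y) * (π f • τ • y / τ • y)) := by
      have : v f * π f • v (t * t) =
          v f * (v (t * t) * ((π f • y / y) * (π f • τ • y / τ • y))) := by
        rw [e2]
        rw [mul_assoc (v f)]
        exact mul_left_comm _ _ _
      exact mul_left_cancel this
    rw [hx, ← hf, smul_div', e6, smul_mul']
    apply Additive.ofMul.injective
    simp only [ofMul_mul, ofMul_div, ofMul_inv, ofMul_one]
    abel
  have hxτ : τ • x = x := by
    have e1 : vt (t * t) = v (t * t) * (π (t * t) • y / y) := hy' _ htt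
    have e2 : vt (t * t) = τ • v (t * t) := by
      simp only [hvt]; congr 2; group
    rw [e2] at e1
    rw [hx, smul_div', e1, smul_mul']
    rw [map_mul, ht, mul_smul]
    apply Additive.ofMul.injective
    simp only [ofMul_mul, ofMul_div, ofMul_inv, ofMul_one]
    abel
  have hxH : ∀ h ∈ H, h • x = x := by
    intro h hh
    by_cases hN : h ∈ N
    · exact hxN h hN
    · have h1 : h * τ⁻¹ ∈ N := by
        rw [hmulmem h hh τ⁻¹ (H.inv_mem hτH)]
        exact ⟨fun h' => absurd h' hN, fun h' => absurd h' hτinv⟩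
      have h3 : h = (h * τ⁻¹) * τ := by group
      rw [h3, mul_smul, hxτ, hxN _ h1]
  have hdx : dv x = c * τ • c := by
    rw [hx, map_div, map_mul, hdv, hδ'v _ htt, hδ'_cr, ht, hc, smul_div', div_mul_div_comm]
  obtain ⟨z, hzN, hxz⟩ := hnorm τ hτH hτN x hxH c hcN hdx
  -- the extension
  set Y : A := y * z with hY
  set u : Φ → A := fun g => if π g ∈ N then v g else v (g * t⁻¹) * π (g * t⁻¹) • Y with hu
  have u_in : ∀ g, π g ∈ N → u g = v g := fun g hg => by simp only [hu, if_pos hg]
  have u_out : ∀ f, π f ∈ N → u (f * t) = v f * π f • Y := by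
    intro f hf
    have hft : π (f * t) ∉ N := by
      rw [map_mul, ht, hmulmem _ (hNH hf) _ hτH]
      intro h; exact hτN (h.1 hf)
    simp only [hu, if_neg hft]
    congr 2 <;> group
  have decomp : ∀ g, π g ∈ H → π g ∉ N → ∃ f, π f ∈ N ∧ g = f * t := by
    intro g hg hgN
    refine ⟨g * t⁻¹, ?_, by group⟩
    rw [map_mul, map_inv, ht, hmulmem _ hg _ (H.inv_mem hτH)]
    exact ⟨fun h' => absurd h' hgN, fun h' => absurd h' hτinv⟩
  refine ⟨u, ?_, fun r hr => u_in r (by rw [hr]; exact N.one_mem)⟩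
  intro g h hg hh
  by_cases hgN : π g ∈ N
  · by_cases hhN : π h ∈ N
    · have : π (g * h) ∈ N := by rw [map_mul]; exact N.mul_mem hgN hhN
      rw [u_in _ this, u_in _ hgN, u_in _ hhN, hv _ _ hgN hhN]
    · obtain ⟨f', hf', rfl⟩ := decomp h hh hhN
      have : π (g * f') ∈ N := by rw [map_mul]; exact N.mul_mem hgN hf'
      rw [← mul_assoc, u_out _ this, u_in _ hgN, u_out _ hf', hv _ _ hgN hf', map_mul,
        smul_mul' (π g) (v f'), mul_smul, mul_assoc]
  · obtain ⟨f, hf, rfl⟩ := decomp g hg hgN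
    by_cases hhN : π h ∈ N
    · -- f t * h = f (t h t⁻¹) t
      have hs : π (t * h * t⁻¹) ∈ N := by
        simp only [map_mul, map_inv, ht]; exact hconj _ hhN
      have hfs : π (f * (t * h * t⁻¹)) ∈ N := by rw [map_mul]; exact N.mul_mem hf hs
      have e0 : f * t * h = f * (t * h * t⁻¹) * t := by group
      have e1 : τ • v h = v (t * h * t⁻¹) * (π (t * h * t⁻¹) • y / y) := by
        rw [← hy' _ hs]
        simp only [hvt]
        congr 2; group
      have e2 : π (t * h * t⁻¹) • z = z := hzN _ hs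
      rw [e0, u_out _ hfs, u_out _ hf, u_in _ hhN, hv _ _ hf hs]
      have e3 : π (f * t) • v h = π f • (τ • v h) := by rw [map_mul, ht, mul_smul]
      rw [e3, e1]
      have e4 : π (f * (t * h * t⁻¹)) • Y = π f • (π (t * h * t⁻¹) • Y) := by
        rw [map_mul, mul_smul]
      have e5 : v (t * h * t⁻¹) * (π (t * h * t⁻¹) • Y) =
          Y * (v (t * h * t⁻¹) * (π (t * h * t⁻¹) • y / y)) := by
        rw [hY, smul_mul', e2]
        apply Additive.ofMul.injective
        simp only [ofMul_mul, ofMul_div, ofMul_inv, ofMul_one]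
        abel
      have e6 : π f • v (t * h * t⁻¹) * π f • (π (t * h * t⁻¹) • Y) =
          π f • Y * π f • (v (t * h * t⁻¹) * (π (t * h * t⁻¹) • y / y)) := by
        rw [← smul_mul', ← smul_mul', e5]
      rw [e4, mul_assoc (v f), mul_assoc (v f), e6]
    · obtain ⟨f', hf', rfl⟩ := decomp h hh hhN
      have hs : π (t * f' * t⁻¹) ∈ N := by
        simp only [map_mul, map_inv, ht]; exact hconj _ hf'
      have hstt : π (t * f' * t⁻¹ * (t * t)) ∈ N := by
        rw [map_mul]; exact N.mul_mem hs htt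
      have e0 : f * t * (f' * t) = f * (t * f' * t⁻¹ * (t * t)) := by group
      have hall : π (f * (t * f' * t⁻¹ * (t * t))) ∈ N := by
        rw [map_mul]; exact N.mul_mem hf hstt
      have e1 : τ • v f' = v (t * f' * t⁻¹) * (π (t * f' * t⁻¹) • y / y) := by
        rw [← hy' _ hs]
        simp only [hvt]
        congr 2; group
      have e2 : π (t * f' * t⁻¹) • z = z := hzN _ hs
      rw [e0, u_in _ hall, u_out _ hf, u_out _ hf', hv _ _ hf hstt, hv _ _ hs htt]
      have e30 : τ • (π f' • Y) = π (t * f' * t⁻¹) • (τ • Y) := by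
        rw [← mul_smul, ← mul_smul]
        congr 1
        simp only [map_mul, map_inv, ht]
        group
      have e3 : π (f * t) • (v f' * π f' • Y) =
          π f • (τ • v f' * π (t * f' * t⁻¹) • (τ • Y)) := by
        rw [map_mul, ht, mul_smul, smul_mul' τ, e30]
      have e4 : v (t * f' * t⁻¹) * π (t * f' * t⁻¹) • v (t * t) =
          Y * (τ • v f' * π (t * f' * t⁻¹) • (τ • Y)) := by
        rw [hvtt, hxz, e1, hY]
        simp only [smul_mul', e2]
        apply Additive.ofMul.injective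
        simp only [ofMul_mul, ofMul_div, ofMul_inv, ofMul_one]
        abel
      rw [e3, mul_assoc (v f), ← smul_mul', e4]

/-- A nontrivial subgroup of a finite 2-group has a subgroup of relative index 2. -/
theorem exists_relIndex_two [Finite G] (hG : IsPGroup 2 G) (H : Subgroup G) (hH : H ≠ ⊥) :
    ∃ N : Subgroup G, N ≤ H ∧ N.relIndex H = 2 := by
  have : Fact (Nat.Prime 2) := ⟨Nat.prime_two⟩
  have hHp : IsPGroup 2 H := hG.to_subgroup H
  obtain ⟨m, hm⟩ := (IsPGroup.iff_card.1 hHp)
  have hm0 : m ≠ 0 := by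
    rintro rfl
    apply hH
    rw [← Subgroup.card_eq_one]
    simpa using hm
  obtain ⟨k, rfl⟩ := Nat.exists_eq_succ_of_ne_zero hm0
  obtain ⟨K, hK⟩ := Sylow.exists_subgroup_card_pow_prime (G := H) 2 (n := k)
    (by rw [hm]; exact pow_dvd_pow 2 (Nat.le_succ k))
  refine ⟨K.map H.subtype, ?_, ?_⟩
  · rintro _ ⟨x, _, rfl⟩
    exact x.2
  · have h1 : (K.map H.subtype).relIndex H = K.index := by
      unfold Subgroup.relIndex
      congr 1
      exact Subgroup.comap_map_eq_self_of_injective H.subtype_injective K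
    rw [h1]
    have h2 := K.card_mul_index
    rw [hK, hm, pow_succ] at h2
    exact Nat.eq_of_mul_eq_mul_left (by positivity) h2

end Step

/-- **Abstract embedding theorem** (block T2 of the towers blueprint). -/
theorem crossed_embedding {G A I Φ : Type*} [Group G] [Finite G] [CommGroup A]
    [MulDistribMulAction G A] [CommGroup I] [MulDistribMulAction G I] [Group Φ]
    (hG : IsPGroup 2 G) (dv : A →* I) (hdv : ∀ (g : G) (a : A), dv (g • a) = g • dv a)
    (h90 : ∀ (H : Subgroup G) (c : H → A), (∀ g h : H, c (g * h) = c g * (g : G) • c h) →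
      ∃ a : A, ∀ g : H, c g = (g : G) • a / a)
    (h1I : ∀ (H : Subgroup G) (c : H → I), (∀ g h : H, c (g * h) = c g * (g : G) • c h) →
      ∃ b : I, ∀ g : H, c g = (g : G) • b / b)
    (hnorm : ∀ (N H : Subgroup G), N ≤ H → N.relIndex H = 2 → ∀ τ ∈ H, τ ∉ N → ∀ x : A,
      (∀ h ∈ H, h • x = x) → ∀ c : I, (∀ n ∈ N, n • c = c) → dv x = c * τ • c →
      ∃ z : A, (∀ n ∈ N, n • z = z) ∧ x = z * τ • z)
    (π : Φ →* G) (hπ : Function.Surjective π)
    (φ : π.ker →* A)
    (hφ : ∀ (f : Φ) (r s : π.ker), (s : Φ) = f * r * f⁻¹ → φ s = π f • φ r)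
    (δ : Φ → I) (hδ : ∀ f g, δ (f * g) = δ f * π f • δ g)
    (hδφ : ∀ r : π.ker, δ r = dv (φ r)) :
    ∃ u : Φ → A, (∀ f g, u (f * g) = u f * π f • u g) ∧ ∀ r : π.ker, u r = φ r := by
  classical
  have main : ∀ (n : ℕ) (H : Subgroup G), Nat.card H = n →
      ∃ u : Φ → A, CrossedOn π H u ∧ ∀ r : π.ker, u r = φ r := by
    intro n
    induction n using Nat.strong_induction_on with
    | _ n ih =>
      intro H hn
      by_cases hH : H = ⊥
      · subst hH
        refine ⟨fun f => if hf : f ∈ π.ker then φ ⟨f, hf⟩ else 1, ?_, ?_⟩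
        · intro f g hf hg
          rw [Subgroup.mem_bot] at hf hg
          have hf' : f ∈ π.ker := hf
          have hg' : g ∈ π.ker := hg
          have hfg : f * g ∈ π.ker := π.ker.mul_mem hf' hg'
          simp only [dif_pos hf', dif_pos hg', dif_pos hfg, hf, one_smul]
          rw [← map_mul]
          rfl
        · intro r
          simp only [dif_pos r.2]
      · obtain ⟨N, hNH, hrel⟩ := exists_relIndex_two hG H hH
        have hlt : Nat.card N < n := by
          rw [← hn]
          have h1 : Nat.card N * N.relIndex H = Nat.card H := by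
            have h2 := Subgroup.relIndex_mul_relIndex ⊥ N H bot_le hNH
            rwa [Subgroup.relIndex_bot_left, Subgroup.relIndex_bot_left] at h2
          rw [hrel] at h1
          have h3 : 0 < Nat.card N := Nat.card_pos
          omega
        obtain ⟨v, hv, hvφ⟩ := ih _ hlt N rfl
        have hvφ' : ∀ (r : Φ) (hr : π r = 1), v r = φ ⟨r, hr⟩ := fun r hr => hvφ ⟨r, hr⟩
        obtain ⟨u, hu, huv⟩ := crossed_step dv hdv hNH hrel (h90 N) (h1I N)
          (hnorm N H hNH hrel) π hπ δ hδ v hv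
          (by
            intro f r hr
            have hk : π (f * r * f⁻¹) = 1 := by simp [hr]
            rw [hvφ' r hr, hvφ' _ hk]
            exact hφ f ⟨r, hr⟩ ⟨_, hk⟩ rfl)
          (by
            intro r hr
            rw [hvφ' r hr]
            exact hδφ ⟨r, hr⟩)
        refine ⟨u, hu, fun r => ?_⟩
        rw [huv r r.2, hvφ]
  obtain ⟨u, hu, huφ⟩ := main _ ⊤ rfl
  exact ⟨u, fun f g => hu f g (Subgroup.mem_top _) (Subgroup.mem_top _), huφ⟩

end Vale.Agent.P036.TW
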