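import Mathlib
import Vale.Agent.P036.TW.Defs

/-! # Towers, block T3a: divisor functions as a Galois module, vanishing of H^1 -/

open NumberField IsDedekindDomain
open scoped Pointwise nonZeroDivisors

namespace Vale.Agent.P036.TW

/-- Divisor functions: all functions from the primes of the ring of integers to the integers
(no finiteness of the support is needed). -/
def IdM (L : Type) [Field L] [NumberField L] : Type := Pl L → Multiplicative ℤ

noncomputable instance (L : Type) [Field L] [NumberField L] : CommGroup (IdM L) :=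
  inferInstanceAs (CommGroup (Pl L → Multiplicative ℤ))

section ordsmul

variable {L : Type} [Field L] [NumberField L] {G : Type} [Group G] [MulSemiringAction G L]

theorem intValuation_smul (g : G) (P : Pl L) (r : 𝓞 L) :
    (g • P).intValuation (g • r) = P.intValuation r := by
  by_cases hr : r = 0
  · subst hr; simp
  have hgr : g • r ≠ 0 := by
    intro h; apply hr
    have := congrArg (g⁻¹ • ·) h
    simpa using this
  have key : ∀ n : ℕ, (g • P).intValuation (g • r) ≤ WithZero.exp (-(n : ℤ)) ↔
      P.intValuation r ≤ WithZero.exp (-(n : ℤ)) := by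
    intro n
    rw [HeightOneSpectrum.intValuation_le_pow_iff_mem, HeightOneSpectrum.intValuation_le_pow_iff_mem,
      asIdeal_smul]
    have : (g • P.asIdeal) ^ n = g • (P.asIdeal ^ n) := by
      rw [smul_pow']
    rw [this, Ideal.smul_mem_pointwise_smul_iff]
  rw [(g • P).intValuation_eq_exp_neg_multiplicity hgr,
    P.intValuation_eq_exp_neg_multiplicity hr] at *
  simp only [WithZero.exp_le_exp, neg_le_neg_iff, Nat.cast_le] at key
  congr 2
  apply le_antisymm
  · exact_mod_cast (key _).mp le_rfl
  · exact_mod_cast (key _).mpr le_rfl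

theorem valuation_smul (g : G) (P : Pl L) (x : L) :
    (g • P).valuation L (g • x) = P.valuation L x := by
  obtain ⟨a, b, hb, rfl⟩ := IsFractionRing.div_surjective (A := 𝓞 L) x
  have h1 : g • (algebraMap (𝓞 L) L a / algebraMap (𝓞 L) L b) =
      algebraMap (𝓞 L) L (g • a) / algebraMap (𝓞 L) L (g • b) := by
    rw [smul_div₀']
    rfl
  rw [h1, map_div₀, map_div₀, HeightOneSpectrum.valuation_of_algebraMap,
    HeightOneSpectrum.valuation_of_algebraMap, HeightOneSpectrum.valuation_of_algebraMap,
    HeightOneSpectrum.valuation_of_algebraMap, intValuation_smul, intValuation_smul]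

end ordsmul

section ordval

variable {L : Type} [Field L] [NumberField L]

theorem ord_mul (P : Pl L) {x y : L} (hx : x ≠ 0) (hy : y ≠ 0) :
    ord P (x * y) = ord P x + ord P y := by
  unfold ord
  rw [← FractionalIdeal.spanSingleton_mul_spanSingleton, FractionalIdeal.count_mul]
  · exact FractionalIdeal.spanSingleton_ne_zero_iff.mpr hx
  · exact FractionalIdeal.spanSingleton_ne_zero_iff.mpr hy

theorem ord_one (P : Pl L) : ord P (1 : L) = 0 := by
  unfold ord
  rw [FractionalIdeal.spanSingleton_one, FractionalIdeal.count_one]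

theorem intValuation_eq_exp_neg_ord (P : Pl L) {r : 𝓞 L} (hr : r ≠ 0) :
    P.intValuation r = WithZero.exp (-(ord P (algebraMap (𝓞 L) L r))) := by
  classical
  unfold ord
  rw [← FractionalIdeal.coeIdeal_span_singleton, FractionalIdeal.count_coe, HeightOneSpectrum.intValuation_if_neg _ hr]
  intro h
  exact hr (Ideal.span_singleton_eq_bot.mp h)

/-- The order is minus the exponent of the valuation. -/
theorem valuation_eq_exp_neg_ord (P : Pl L) {x : L} (hx : x ≠ 0) :
    P.valuation L x = WithZero.exp (-(ord P x)) := by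
  obtain ⟨a, b, hb, rfl⟩ := IsFractionRing.div_surjective (A := 𝓞 L) x
  have hb0 : b ≠ 0 := nonZeroDivisors.ne_zero hb
  have ha0 : a ≠ 0 := by
    rintro rfl
    simp at hx
  have hb' : algebraMap (𝓞 L) L b ≠ 0 := by simpa using hb0
  have ha' : algebraMap (𝓞 L) L a ≠ 0 := by simpa using ha0
  have h1 : ord P (algebraMap (𝓞 L) L a / algebraMap (𝓞 L) L b) =
      ord P (algebraMap (𝓞 L) L a) - ord P (algebraMap (𝓞 L) L b) := by
    have h2 := ord_mul P (div_ne_zero ha' hb') hb'
    rw [div_mul_cancel₀ _ hb'] at h2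
    omega
  rw [map_div₀, HeightOneSpectrum.valuation_of_algebraMap, HeightOneSpectrum.valuation_of_algebraMap,
    intValuation_eq_exp_neg_ord P ha0, intValuation_eq_exp_neg_ord P hb0, h1, ← WithZero.exp_sub]
  congr 1
  ring

theorem ord_smul {G : Type} [Group G] [MulSemiringAction G L] (g : G) (P : Pl L) (x : L) :
    ord (g • P) (g • x) = ord P x := by
  by_cases hx : x = 0
  · subst hx
    rw [smul_zero]
    unfold ord
    rw [FractionalIdeal.spanSingleton_zero, FractionalIdeal.count_zero, FractionalIdeal.count_zero]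
  have hgx : g • x ≠ 0 := by
    intro h; apply hx
    have := congrArg (g⁻¹ • ·) h
    simpa using this
  have h := valuation_smul g P x
  rw [valuation_eq_exp_neg_ord _ hx, valuation_eq_exp_neg_ord _ hgx, WithZero.exp_inj] at h
  omega

/-- `ord` and Mathlib's `valuationOfNeZero`. -/
theorem valuationOfNeZero_eq_ofAdd (P : Pl L) (x : Lˣ) :
    P.valuationOfNeZero x = Multiplicative.ofAdd (-(ord P (x : L))) := by
  rw [← WithZero.coe_inj, HeightOneSpectrum.valuationOfNeZero_eq,
    valuation_eq_exp_neg_ord P x.ne_zero]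
  rfl

end ordval

section div

variable {L : Type} [Field L] [NumberField L] {G : Type} [Group G] [MulSemiringAction G L]

@[simp] theorem IdM.mul_apply (c d : IdM L) (P : Pl L) : (c * d) P = c P * d P := rfl

@[simp] theorem IdM.one_apply (P : Pl L) : (1 : IdM L) P = 1 := rfl

@[simp] theorem IdM.inv_apply (c : IdM L) (P : Pl L) : (c⁻¹) P = (c P)⁻¹ := rfl

@[simp] theorem IdM.div_apply (c d : IdM L) (P : Pl L) : (c / d) P = c P / d P := rfl

@[ext] theorem IdM.ext {c d : IdM L} (h : ∀ P, c P = d P) : c = d := funext h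

noncomputable instance idmAction : MulDistribMulAction G (IdM L) where
  smul g c := fun P => c (g⁻¹ • P)
  one_smul c := by
    funext P
    show c ((1 : G)⁻¹ • P) = c P
    rw [inv_one, one_smul]
  mul_smul g h c := by
    funext P
    show c ((g * h)⁻¹ • P) = c (h⁻¹ • (g⁻¹ • P))
    rw [mul_inv_rev, mul_smul]
  smul_mul g c d := rfl
  smul_one g := rfl

theorem IdM.smul_apply (g : G) (c : IdM L) (P : Pl L) : (g • c) P = c (g⁻¹ • P) := rfl

/-- The divisor of a nonzero element, as a function on primes. -/
noncomputable def dv : Lˣ →* IdM L where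
  toFun x := fun P => Multiplicative.ofAdd (ord P (x : L))
  map_one' := by
    funext P
    show Multiplicative.ofAdd (ord P (((1 : Lˣ)) : L)) = 1
    rw [Units.val_one, ord_one]; rfl
  map_mul' x y := by
    funext P
    show Multiplicative.ofAdd (ord P ((x * y : Lˣ) : L)) = _
    rw [Units.val_mul, ord_mul P x.ne_zero y.ne_zero]; rfl

theorem dv_apply (x : Lˣ) (P : Pl L) : dv x P = Multiplicative.ofAdd (ord P (x : L)) := rfl

theorem dv_eq_one_iff (x : Lˣ) : dv x = 1 ↔ ∀ P : Pl L, ord P (x : L) = 0 := by
  constructor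
  · intro h P
    have := congrFun h P
    exact Multiplicative.ofAdd.injective this
  · intro h
    funext P
    show Multiplicative.ofAdd (ord P (x : L)) = 1
    rw [h P]; rfl

theorem dv_of_eq (g : G) (x y : Lˣ) (h : (y : L) = g • (x : L)) : dv y = g • dv x := by
  funext P
  show Multiplicative.ofAdd (ord P (y : L)) = Multiplicative.ofAdd (ord (g⁻¹ • P) (x : L))
  rw [h, ← ord_smul g (g⁻¹ • P) (x : L), smul_inv_smul]

theorem dv_smul {k : Type} [Field k] [Algebra k L] (g : L ≃ₐ[k] L) (x : Lˣ) :
    dv (g • x) = g • dv x := dv_of_eq g x _ rfl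

/-- Subgroup version of the equivariance of `dv`. -/
theorem dv_smul_subgroup {k : Type} [Field k] [Algebra k L] (H : Subgroup (L ≃ₐ[k] L))
    (g : H) (x : Lˣ) : dv (g • x) = g • dv x := dv_of_eq g x _ rfl

/-- H^1 of the module of divisor functions vanishes. -/
theorem idM_h1 [Finite G] (c : G → IdM L) (hc : ∀ g h, c (g * h) = c g * g • c h) :
    ∃ b : IdM L, ∀ g, c g = g • b / b := by
  classical
  have := Fintype.ofFinite G
  set n : ℤ := (Fintype.card G : ℤ) with hn
  have hn0 : n ≠ 0 := by
    rw [hn]; exact_mod_cast Fintype.card_ne_zero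
  set S : Pl L → ℤ := fun x => ∑ h, (c h x).toAdd with hS
  have hc' : ∀ g h x, (c (g * h) x).toAdd = (c g x).toAdd + (c h (g⁻¹ • x)).toAdd := by
    intro g h x
    rw [hc]; rfl
  have hSg : ∀ g x, S (g⁻¹ • x) = S x - n * (c g x).toAdd := by
    intro g x
    have h1 : S x = ∑ h, (c (g * h) x).toAdd := by
      simp only [hS]
      exact (Equiv.sum_comp (Equiv.mulLeft g) (fun h => (c h x).toAdd)).symm
    rw [h1]
    simp only [hc', Finset.sum_add_distrib, Finset.sum_const, Finset.card_univ, nsmul_eq_mul]
    simp only [hS, hn]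
    ring
  refine ⟨fun x => Multiplicative.ofAdd ((-S x) / n), ?_⟩
  intro g
  funext x
  show c g x = Multiplicative.ofAdd ((-S (g⁻¹ • x)) / n) / Multiplicative.ofAdd ((-S x) / n)
  rw [hSg]
  have : -(S x - n * (c g x).toAdd) = -S x + n * (c g x).toAdd := by ring
  rw [this, Int.add_mul_ediv_left _ _ hn0, ← ofAdd_sub, add_sub_cancel_left]
  rfl

theorem coe_smul_idM (H : Subgroup G) (g : H) (c : IdM L) : g • c = (g : G) • c := rfl

omit [NumberField L] in
theorem coe_smul_pl [NumberField L] (H : Subgroup G) (g : H) (P : Pl L) :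
    g • P = (g : G) • P := rfl

/-- Subgroup version, in the exact form used by the embedding theorem (T2). -/
theorem idM_h1_subgroup [Finite G] (H : Subgroup G) (c : H → IdM L)
    (hc : ∀ g h : H, c (g * h) = c g * (g : G) • c h) :
    ∃ b : IdM L, ∀ g : H, c g = (g : G) • b / b :=
  idM_h1 (G := H) c hc

end div

end Vale.Agent.P036.TW
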