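import Mathlib
import Vale.Agent.P036.TW.Defs
import Vale.Agent.P036.TW.Spec
import Vale.Agent.P036.TW.T2
import Vale.Agent.P036.TW.T3a

/-!
# P036, towers: block T3b, the embedding theorem `EmbStmt` from `T4Stmt`
-/

namespace Vale.Agent.P036.TW

open NumberField IsDedekindDomain
open scoped Pointwise nonZeroDivisors

/-- Hilbert 90 for subgroups of a finite group acting faithfully on a field. -/
theorem hilbert90_sub {L : Type*} [Field L] {G : Type*} [Group G] [Finite G]
    [MulSemiringAction G L] [FaithfulSMul G L] [MulDistribMulAction G Lˣ]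
    (hcoe : ∀ (g : G) (u : Lˣ), ((g • u : Lˣ) : L) = g • (u : L))
    (H : Subgroup G) (c : H → Lˣ)
    (hc : ∀ g h : H, c (g * h) = c g * (g : G) • c h) :
    ∃ a : Lˣ, ∀ g : H, c g = (g : G) • a / a := by
  classical
  have := Fintype.ofFinite H
  let χ : H → (L →* L) := fun h => (MulSemiringAction.toRingHom G L (h : G) : L →+* L)
  have hχ : Function.Injective χ := by
    intro g h hgh
    apply Subtype.ext
    apply FaithfulSMul.eq_of_smul_eq_smul (α := L)
    intro a
    exact DFunLike.congr_fun hgh a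
  have hli : LinearIndependent L (fun h : H => (χ h : L → L)) :=
    (linearIndependent_monoidHom L L).comp χ hχ
  have hne : ∃ y : L, ∑ h : H, (c h : L) * ((h : G) • y) ≠ 0 := by
    by_contra hcon
    push Not at hcon
    have h1 := Fintype.linearIndependent_iff.1 hli (fun h => (c h : L)) (by
      funext y
      simp only [Finset.sum_apply, Pi.smul_apply, smul_eq_mul, Pi.zero_apply]
      exact hcon y) 1
    exact (c 1).ne_zero h1
  obtain ⟨y, hy⟩ := hne
  set b : L := ∑ h : H, (c h : L) * ((h : G) • y) with hb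
  have hgb : ∀ g : H, (c g : L) * ((g : G) • b) = b := by
    intro g
    rw [hb, Finset.smul_sum, Finset.mul_sum]
    have h1 : ∀ h : H, (c g : L) * ((g : G) • ((c h : L) * ((h : G) • y))) =
        (c (g * h) : L) * (((g * h : H) : G) • y) := by
      intro h
      rw [hc, smul_mul', Units.val_mul, Subgroup.coe_mul, mul_smul, hcoe, mul_assoc]
    simp only [h1]
    exact Equiv.sum_comp (Equiv.mulLeft g) (fun h : H => (c h : L) * ((h : G) • y))
  refine ⟨(Units.mk0 b hy)⁻¹, fun g => ?_⟩
  rw [smul_inv', inv_div_inv, eq_div_iff_mul_eq']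
  ext
  rw [Units.val_mul, hcoe, Units.val_mk0]
  exact hgb g

/-- Interface with T3b1: trivial inertia descends. -/
def BridgeInertia : Prop :=
  ∀ (L F E : Type) [Field L] [NumberField L] [Field F] [NumberField F] [Field E]
    [NumberField E] [Algebra F E] [Algebra F L] [Algebra E L] [IsScalarTower F E L]
    (H N : Subgroup (L ≃ₐ[ℚ] L)), N ≤ H → IsGaloisGroup H F L → IsGaloisGroup N E L →
    InertiaTrivial L H → ∀ τ : L ≃ₐ[ℚ] L, τ ∈ H → τ ∉ N →
    ∀ σ : E ≃ₐ[F] E, (∀ y : E, algebraMap E L (σ y) = τ (algebraMap E L y)) →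
    ∀ P : Ideal (𝓞 E), P.IsMaximal → ∃ x : 𝓞 E, σ • x - x ∉ P

/-- Interface with T3b1: parity. -/
def BridgeParity : Prop :=
  ∀ (L F E : Type) [Field L] [NumberField L] [Field F] [NumberField F] [Field E]
    [NumberField E] [Algebra F E] [Algebra F L] [Algebra E L] [IsScalarTower F E L]
    (H N : Subgroup (L ≃ₐ[ℚ] L)), N ≤ H → IsGaloisGroup H F L → IsGaloisGroup N E L →
    InertiaTrivial L H → ∀ τ : L ≃ₐ[ℚ] L, τ ∈ H → τ ∉ N → N.relIndex H = 2 →
    ∀ σ : E ≃ₐ[F] E, (∀ y : E, algebraMap E L (σ y) = τ (algebraMap E L y)) →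
    ∀ x : E, x ≠ 0 → ∀ c : Pl L → ℤ, (∀ n ∈ N, ∀ P, c (n • P) = c P) →
    (∀ P : Pl L, ord P (algebraMap E L x) = c P + c (τ⁻¹ • P)) →
    ∀ w : Pl E, σ • w = w → Even (ord w x)

/-- Fields containing the square root of a negative integer are totally complex. -/
theorem isTotallyComplex_of_sq {F : Type*} [Field F] [NumberField F] {D : ℤ} (hD : D < 0)
    (d : F) (hd : d ^ 2 = (D : F)) : IsTotallyComplex F := by
  constructor
  intro v
  rw [← InfinitePlace.not_isReal_iff_isComplex]
  rintro ⟨φ, hφ, -⟩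
  have h1 : (φ d) ^ 2 = (D : ℂ) := by rw [← map_pow, hd, map_intCast]
  have h2 : (starRingEnd ℂ) (φ d) = φ d := by
    have := DFunLike.congr_fun (ComplexEmbedding.isReal_iff.1 hφ) d
    simpa [ComplexEmbedding.conjugate_coe_eq] using this
  obtain ⟨r, hr⟩ := Complex.conj_eq_iff_real.1 h2
  rw [hr] at h1
  have h3 : r ^ 2 = (D : ℝ) := by exact_mod_cast h1
  have h4 : (D : ℝ) < 0 := by exact_mod_cast hD
  nlinarith [sq_nonneg r]

/-- The key step: the norm hypothesis of the abstract embedding theorem follows from `T4Stmt`,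
stated for subgroups of the full Galois group. -/
theorem norm_step (h4 : T4Stmt) (hBI : BridgeInertia) (hBP : BridgeParity)
    (L : Type) [Field L] [NumberField L] [IsGalois ℚ L] (D : ℤ) (δ : L) (hδ : δ ^ 2 = (D : L))
    (hD : D < 0) (N H : Subgroup (L ≃ₐ[ℚ] L)) (hHδ : H ≤ GK δ) (hI : InertiaTrivial L H)
    (hNH : N ≤ H) (hrel : N.relIndex H = 2) (τ : L ≃ₐ[ℚ] L) (hτ : τ ∈ H) (hτN : τ ∉ N)
    (x : L) (hx0 : x ≠ 0) (hx : ∀ h ∈ H, h x = x) (c : Pl L → ℤ)
    (hc : ∀ n ∈ N, ∀ P, c (n • P) = c P)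
    (hcx : ∀ P : Pl L, ord P x = c P + c (τ⁻¹ • P)) :
    ∃ z : L, (∀ n ∈ N, n z = z) ∧ x = z * τ z := by
  classical
  let F : IntermediateField ℚ L := FixedPoints.intermediateField H
  let E : IntermediateField ℚ L := FixedPoints.intermediateField N
  have hFE : F ≤ E := IsGaloisGroup.fixedPoints_le_of_le (G := L ≃ₐ[ℚ] L) ℚ L N H hNH
  let algFE : Algebra F E := (IntermediateField.inclusion hFE).toRingHom.toAlgebra
  have tow : IsScalarTower F E L := IsScalarTower.of_algebraMap_eq (fun _ => rfl)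
  have hGH : IsGaloisGroup H F L := IsGaloisGroup.subgroup (L ≃ₐ[ℚ] L) ℚ L H
  have hGN : IsGaloisGroup N E L := IsGaloisGroup.subgroup (L ≃ₐ[ℚ] L) ℚ L N
  have memE : ∀ y : L, y ∈ E ↔ ∀ n ∈ N, n y = y := by
    intro y
    constructor
    · intro hy n hn
      exact hy ⟨n, hn⟩
    · intro hy n
      exact hy n n.2
  have memF : ∀ y : L, y ∈ F ↔ ∀ n ∈ H, n y = y := by
    intro y
    constructor
    · intro hy n hn
      exact hy ⟨n, hn⟩
    · intro hy n
      exact hy n n.2
  -- conjugation
  have hmulmem : ∀ a ∈ H, ∀ b ∈ H, (a * b ∈ N ↔ (a ∈ N ↔ b ∈ N)) := by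
    intro a ha b hb
    have h := Subgroup.mul_mem_iff_of_index_two (H := N.subgroupOf H)
      (by simpa [Subgroup.relIndex] using hrel) (a := ⟨a, ha⟩) (b := ⟨b, hb⟩)
    simpa [Subgroup.mem_subgroupOf] using h
  have hconj : ∀ g ∈ H, g ∉ N → ∀ n ∈ N, g⁻¹ * n * g ∈ N := by
    intro g hg hgN n hn
    have hginv : g⁻¹ ∉ N := fun h => hgN (by simpa using N.inv_mem h)
    have h1 := hmulmem (g⁻¹ * n) (H.mul_mem (H.inv_mem hg) (hNH hn)) g hg
    have h3 := hmulmem g⁻¹ (H.inv_mem hg) n (hNH hn)
    rw [h1]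
    constructor
    · intro h; exact absurd ((h3.1 h).2 hn) hginv
    · intro h; exact absurd h hgN
  have hmap : ∀ g ∈ H, g ∉ N → ∀ y ∈ E, g y ∈ E := by
    intro g hg hgN y hy
    rw [memE] at hy ⊢
    intro n hn
    have h1 := hy _ (hconj g hg hgN n hn)
    have h2 : g ((g⁻¹ * n * g) y) = n (g y) := by
      rw [← AlgEquiv.mul_apply, ← AlgEquiv.mul_apply]
      congr 1
      group
    rw [← h2, h1]
  have hτinv : τ⁻¹ ∉ N := fun h => hτN (by simpa using N.inv_mem h)
  let σ : E ≃ₐ[F] E :=
    { toFun := fun y => ⟨τ y, hmap τ hτ hτN y y.2⟩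
      invFun := fun y => ⟨τ⁻¹ y, hmap τ⁻¹ (H.inv_mem hτ) hτinv y y.2⟩
      left_inv := by
        intro y
        apply Subtype.ext
        change (τ⁻¹ * τ) (y : L) = y
        simp
      right_inv := by
        intro y
        apply Subtype.ext
        change (τ * τ⁻¹) (y : L) = y
        simp
      map_mul' := by
        intro y z
        apply Subtype.ext
        exact map_mul τ _ _
      map_add' := by
        intro y z
        apply Subtype.ext
        exact map_add τ _ _
      commutes' := by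
        intro r
        apply Subtype.ext
        exact (memF r).1 r.2 τ hτ }
  have hσ : ∀ y : E, algebraMap E L (σ y) = τ (algebraMap E L y) := fun y => rfl
  have hcardH : Nat.card H = Module.finrank F L := IsGaloisGroup.card_eq_finrank H F L
  have hcardN : Nat.card N = Module.finrank E L := IsGaloisGroup.card_eq_finrank N E L
  have hcard : Nat.card N * N.relIndex H = Nat.card H := by
    have h2 := Subgroup.relIndex_mul_relIndex ⊥ N H bot_le hNH
    rwa [Subgroup.relIndex_bot_left, Subgroup.relIndex_bot_left] at h2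
  have hfin : Module.finrank F E = 2 := by
    have h1 : Module.finrank F E * Module.finrank E L = Module.finrank F L :=
      Module.finrank_mul_finrank F E L
    have h2 : 0 < Nat.card N := Nat.card_pos
    rw [← hcardH, ← hcardN, ← hcard, hrel, mul_comm] at h1
    exact Nat.eq_of_mul_eq_mul_left h2 h1
  have hδF : δ ∈ F := by
    rw [memF]
    intro n hn
    exact hHδ hn
  have hTC : IsTotallyComplex F := by
    refine isTotallyComplex_of_sq hD ⟨δ, hδF⟩ ?_
    apply Subtype.ext
    simpa using hδ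
  have hin := hBI L F E H N hNH hGH hGN hI τ hτ hτN σ hσ
  have hσ1 : σ ≠ 1 := by
    intro h1
    obtain ⟨P, hP⟩ := Ideal.exists_maximal (𝓞 E)
    obtain ⟨y, hy⟩ := hin P hP
    apply hy
    rw [h1, one_smul, sub_self]
    exact P.zero_mem
  have hxF : x ∈ F := (memF x).2 hx
  obtain ⟨z, hz⟩ := h4 F E σ hfin hTC hσ1 hin ⟨x, hxF⟩ (by
      intro h
      exact hx0 (congrArg Subtype.val h))
    (hBP L F E H N hNH hGH hGN hI τ hτ hτN hrel σ hσ _ (by
      intro h
      exact hx0 (congrArg Subtype.val h)) c hc hcx)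
  refine ⟨z, (memE z).1 z.2, ?_⟩
  exact congrArg Subtype.val hz

/-- **Block T3b**: the embedding theorem from the norm theorem and the two bridge lemmas. -/
theorem EmbStmt_of_bridge (h4 : T4Stmt) (hBI : BridgeInertia) (hBP : BridgeParity) : EmbStmt := by
  intro L _ _ _ D δ hδ hD h2 hI Φ _ π hπ φ hφ hφord
  classical
  refine crossed_embedding (G := GK δ) (A := Lˣ) (I := IdM L) h2 dv
    (fun g a => dv_smul_subgroup (GK δ) g a) (fun H c hc => hilbert90_sub (fun _ _ => rfl) H c hc)
    (fun H c hc => idM_h1_subgroup H c hc) ?_ π hπ φ hφ (fun _ => 1)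
    (fun f g => by rw [smul_one, mul_one]) ?_
  · intro N H hNH hrel τ hτ hτN x hx c hc hdx
    have hrel' : (N.map (GK δ).subtype).relIndex (H.map (GK δ).subtype) = 2 := by
      rw [Subgroup.relIndex_map_map_of_injective _ _ (GK δ).subtype_injective, hrel]
    obtain ⟨z, hz, hxz⟩ := norm_step h4 hBI hBP L D δ hδ hD (N.map (GK δ).subtype)
      (H.map (GK δ).subtype)
      (by rintro _ ⟨g, _, rfl⟩; exact g.2)
      (by
        rintro P hP _ ⟨g, _, rfl⟩ hg
        exact hI P hP _ g.2 hg)
      (Subgroup.map_mono hNH) hrel' (τ : L ≃ₐ[ℚ] L) ⟨τ, hτ, rfl⟩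
      (by
        rintro ⟨g, hg, hgτ⟩
        apply hτN
        have : g = τ := Subtype.ext hgτ
        rwa [← this])
      (x : L) x.ne_zero
      (by
        rintro _ ⟨h, hh, rfl⟩
        have := congrArg Units.val (hx h hh)
        exact this)
      (fun P => (c P).toAdd)
      (by
        rintro _ ⟨n, hn, rfl⟩ P
        have h1 : (c : Pl L → Multiplicative ℤ) (n⁻¹ • (n • P)) = c (n • P) :=
          congrFun (hc n hn) (n • P)
        rw [inv_smul_smul] at h1
        exact congrArg Multiplicative.toAdd h1.symm)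
      (by
        intro P
        have h1 : Multiplicative.ofAdd (ord P (x : L)) =
            (c : Pl L → Multiplicative ℤ) P * (c : Pl L → Multiplicative ℤ) (τ⁻¹ • P) :=
          congrFun hdx P
        exact congrArg Multiplicative.toAdd h1)
    have hz0 : z ≠ 0 := by
      rintro rfl
      apply x.ne_zero
      rw [hxz, zero_mul]
    refine ⟨Units.mk0 z hz0, ?_, ?_⟩
    · intro n hn
      ext
      exact hz _ ⟨n, hn, rfl⟩
    · ext
      exact hxz
  · intro r
    exact ((dv_eq_one_iff (φ r)).2 (hφord r)).symm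

end Vale.Agent.P036.TW
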