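import Mathlib
import Vale.Agent.P036.TW.T3a

/-! # Towers, block T3b1: local lemmas of the bridge -/

open NumberField IsDedekindDomain
open scoped Pointwise nonZeroDivisors

namespace Vale.Agent.P036.TW

variable {E L : Type} [Field E] [NumberField E] [Field L] [NumberField L] [Algebra E L]
  {G : Type} [Group G] [Finite G] [MulSemiringAction G L] (N : Subgroup G) [IsGaloisGroup N E L]

omit [NumberField E] [NumberField L] [Finite G] in
theorem algebraMap_smul_eq (σ : E → E) (τ : G)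
    (hσ : ∀ y : E, algebraMap E L (σ y) = τ • algebraMap E L y)
    (s : 𝓞 E → 𝓞 E) (hs : ∀ y : 𝓞 E, (s y : E) = σ y) (y : 𝓞 E) :
    algebraMap (𝓞 E) (𝓞 L) (s y) = τ • algebraMap (𝓞 E) (𝓞 L) y := by
  apply RingOfIntegers.ext
  show algebraMap E L (s y : E) = τ • algebraMap E L (y : E)
  rw [hs, hσ]

/-- The group acts by ring automorphisms on the residue ring of a stable prime. -/
theorem exists_residue_equiv {A B : Type} [CommRing A] [CommRing B] [Algebra A B]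
    (w : Ideal A) (P : Ideal B) [hPw : P.LiesOver w] (g : B ≃+* B)
    (hg : ∀ x : B, x ∈ P ↔ g x ∈ P) (hA : ∀ a : A, g (algebraMap A B a) - algebraMap A B a ∈ P) :
    ∃ f : (B ⧸ P) ≃ₐ[A ⧸ w] (B ⧸ P), ∀ x : B, f (Ideal.Quotient.mk P x) =
      Ideal.Quotient.mk P (g x) := by
  have hmap : P = P.map (g : B →+* B) := by
    ext x
    constructor
    · intro hx
      have : g.symm x ∈ P := by rw [hg]; simpa using hx
      have h2 := Ideal.mem_map_of_mem (g : B →+* B) this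
      simpa using h2
    · intro hx
      have h3 : P.map (g : B →+* B) ≤ P := by
        rw [Ideal.map_le_iff_le_comap]
        intro y hy
        exact (hg y).mp hy
      exact h3 hx
  refine ⟨AlgEquiv.ofRingEquiv (f := Ideal.quotientEquiv P P g hmap) ?_, ?_⟩
  · intro a
    obtain ⟨a, rfl⟩ := Ideal.Quotient.mk_surjective a
    have h1 : algebraMap (A ⧸ w) (B ⧸ P) (Ideal.Quotient.mk w a) =
        Ideal.Quotient.mk P (algebraMap A B a) := rfl
    rw [h1, Ideal.quotientEquiv_mk]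
    exact Ideal.Quotient.eq.mpr (hA a)
  · intro x
    exact Ideal.quotientEquiv_mk P P g hmap x

/-- Triviality of inertia passes to quotients. -/
theorem inertia_quotient (H : Subgroup G) (hNH : N ≤ H)
    (hin : ∀ P : Ideal (𝓞 L), P.IsMaximal → ∀ g ∈ H, (∀ x : 𝓞 L, g • x - x ∈ P) → g = 1)
    (τ : G) (hτH : τ ∈ H) (hτ : τ ∉ N) (s : 𝓞 E → 𝓞 E)
    (hs : ∀ y : 𝓞 E, algebraMap (𝓞 E) (𝓞 L) (s y) = τ • algebraMap (𝓞 E) (𝓞 L) y)
    (w : Ideal (𝓞 E)) (hw : w.IsMaximal) :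
    ∃ y : 𝓞 E, s y - y ∉ w := by
  have hGal : IsGaloisGroup N (𝓞 E) (𝓞 L) := IsGaloisGroup.of_isFractionRing N (𝓞 E) (𝓞 L) E L
  have hinv : Algebra.IsInvariant (𝓞 E) (𝓞 L) N := hGal.isInvariant
  have hcomm : SMulCommClass N (𝓞 E) (𝓞 L) := hGal.commutes
  by_contra hcon
  push Not at hcon
  obtain ⟨P, hPmax, hPw⟩ := Ideal.exists_maximal_ideal_liesOver_of_isIntegral (S := 𝓞 L) w
  have hPw' : ∀ y : 𝓞 E, algebraMap (𝓞 E) (𝓞 L) y ∈ P ↔ y ∈ w := by
    intro y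
    rw [hPw.over]
    rfl
  have hunder : (τ⁻¹ • P).under (𝓞 E) = P.under (𝓞 E) := by
    ext y
    show algebraMap (𝓞 E) (𝓞 L) y ∈ τ⁻¹ • P ↔ algebraMap (𝓞 E) (𝓞 L) y ∈ P
    rw [Ideal.mem_inv_pointwise_smul_iff, ← hs, hPw', hPw']
    constructor
    · intro hy
      have := w.sub_mem hy (hcon y)
      simpa using this
    · intro hy
      have := w.add_mem (hcon y) hy
      simpa using this
  have : (τ⁻¹ • P).IsPrime := Ideal.IsPrime.smul τ⁻¹
  obtain ⟨n, hn⟩ := Algebra.IsInvariant.exists_smul_of_under_eq (𝓞 E) (𝓞 L) N P (τ⁻¹ • P) hunder.symm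
  -- `τ⁻¹ P = n P`, so `g = τ n` stabilises `P`
  set g : G := τ * n with hg
  have hgP : g • P = P := by
    have h1 : (n : G) • P = τ⁻¹ • P := hn.symm
    rw [hg, mul_smul, h1, smul_inv_smul]
  have hgmem : ∀ x : 𝓞 L, x ∈ P ↔ g • x ∈ P := by
    intro x
    conv_rhs => rw [← hgP]
    rw [Ideal.smul_mem_pointwise_smul_iff]
  have hgA : ∀ a : 𝓞 E, g • algebraMap (𝓞 E) (𝓞 L) a - algebraMap (𝓞 E) (𝓞 L) a ∈ P := by
    intro a
    have h1 : (n : G) • algebraMap (𝓞 E) (𝓞 L) a = algebraMap (𝓞 E) (𝓞 L) a := by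
      exact smul_algebraMap n a
    rw [hg, mul_smul, h1, ← hs, ← map_sub, hPw']
    exact hcon a
  obtain ⟨f, hf⟩ := exists_residue_equiv w P (MulSemiringAction.toRingEquiv G (𝓞 L) g) hgmem hgA
  obtain ⟨n', hn'⟩ := Ideal.Quotient.stabilizerHom_surjective N w P f
  have hn'2 : ∀ x : 𝓞 L, (n' : N) • x - g • x ∈ P := by
    intro x
    have h1 := hf x
    rw [← hn', Ideal.Quotient.stabilizerHom_apply] at h1
    exact Ideal.Quotient.eq.mp h1
  have hstab : (n' : N) • P = P := n'.2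
  have hone : ((n' : N) : G)⁻¹ * g = 1 := by
    apply hin P hPmax _ (H.mul_mem (H.inv_mem (hNH (n' : N).2)) (H.mul_mem hτH (hNH n.2)))
    intro x
    have h1 := hn'2 x
    have h2 : ((n' : N) : G)⁻¹ • ((n' : N) • x - g • x) ∈ ((n' : N) : G)⁻¹ • P :=
      Ideal.smul_mem_pointwise_smul _ _ _ h1
    have h3 : ((n' : N) : G)⁻¹ • P = P := by
      have : ((n' : N) : G) • P = P := hstab
      exact inv_smul_eq_iff.mpr this.symm
    rw [h3, smul_sub] at h2
    have h4 : ((n' : N) : G)⁻¹ • ((n' : N) • x) = x := inv_smul_smul ((n' : N) : G) x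
    rw [h4] at h2
    rw [mul_smul, ← neg_sub]
    exact P.neg_mem h2
  have h5 : g = ((n' : N) : G) := by
    rw [inv_mul_eq_one] at hone
    exact hone.symm
  apply hτ
  have h6 : τ = ((n' : N) : G) * (n : G)⁻¹ := by
    rw [← h5, hg, mul_inv_cancel_right]
  rw [h6]
  exact N.mul_mem (n' : N).2 (N.inv_mem n.2)

theorem ramificationIdx_eq_one
    (hin : ∀ P : Ideal (𝓞 L), P.IsMaximal → ∀ g ∈ N, (∀ x : 𝓞 L, g • x - x ∈ P) → g = 1)
    (w : Pl E) (P : Pl L) [hPw : P.asIdeal.LiesOver w.asIdeal] :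
    w.asIdeal.ramificationIdx' P.asIdeal = 1 := by
  have hGal : IsGaloisGroup N (𝓞 E) (𝓞 L) := IsGaloisGroup.of_isFractionRing N (𝓞 E) (𝓞 L) E L
  rw [Ideal.ramificationIdx'_eq_ramificationIdx _ _ w.ne_bot,
    ← Ideal.ramificationIdxIn_eq_ramificationIdx w.asIdeal P.asIdeal N]
  rw [← Ideal.card_inertia_eq_ramificationIdxIn (G := N) w.asIdeal P.asIdeal]
  have : P.asIdeal.inertia N = ⊥ := by
    rw [eq_bot_iff]
    intro g hg
    have h1 := hin P.asIdeal P.isMaximal (g : G) g.2 (fun x => hg x)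
    rw [Subgroup.mem_bot]
    exact Subtype.ext h1
  rw [this]
  simp

theorem ord_liesOver
    (hin : ∀ P : Ideal (𝓞 L), P.IsMaximal → ∀ g ∈ N, (∀ x : 𝓞 L, g • x - x ∈ P) → g = 1)
    (w : Pl E) (P : Pl L) [hPw : P.asIdeal.LiesOver w.asIdeal] (x : E) :
    ord P (algebraMap E L x) = ord w x := by
  by_cases hx : x = 0
  · subst hx
    rw [map_zero]
    unfold ord
    rw [FractionalIdeal.spanSingleton_zero, FractionalIdeal.count_zero, FractionalIdeal.spanSingleton_zero, FractionalIdeal.count_zero]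
  have h := HeightOneSpectrum.valuation_liesOver L w P x
  rw [ramificationIdx_eq_one N hin w P, pow_one, valuation_eq_exp_neg_ord _ hx,
    valuation_eq_exp_neg_ord _ (by simpa using hx), WithZero.exp_inj] at h
  omega

section bridge

variable {L F E : Type} [Field L] [NumberField L] [Field F] [NumberField F] [Field E]
  [NumberField E] [Algebra F E] [Algebra E L]
  (H N : Subgroup (L ≃ₐ[ℚ] L)) (hNH : N ≤ H) [IsGaloisGroup N E L]
  (hI : InertiaTrivial L H) (τ : L ≃ₐ[ℚ] L) (hτ : τ ∈ H) (hτN : τ ∉ N) (σ : E ≃ₐ[F] E)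
  (hσ : ∀ y : E, algebraMap E L (σ y) = τ (algebraMap E L y))

include hNH hI hτ hτN hσ in
omit [NumberField F] in
theorem bridge_inertia (P : Ideal (𝓞 E)) (hP : P.IsMaximal) : ∃ x : 𝓞 E, σ • x - x ∉ P := by
  refine inertia_quotient N H hNH hI τ hτ hτN (fun y => σ • y) ?_ P hP
  exact algebraMap_smul_eq σ τ hσ _ (fun y => rfl)

include hNH hI hσ in
omit [NumberField F] in
theorem bridge_parity (x : E) (c : Pl L → ℤ)
    (hc : ∀ n ∈ N, ∀ P, c (n • P) = c P)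
    (hcx : ∀ P : Pl L, ord P (algebraMap E L x) = c P + c (τ⁻¹ • P)) (w : Pl E)
    (hw : σ • w = w) : Even (ord w x) := by
  have hGal : IsGaloisGroup N (𝓞 E) (𝓞 L) := IsGaloisGroup.of_isFractionRing N (𝓞 E) (𝓞 L) E L
  have hinv : Algebra.IsInvariant (𝓞 E) (𝓞 L) N := hGal.isInvariant
  have hcomm : SMulCommClass N (𝓞 E) (𝓞 L) := hGal.commutes
  obtain ⟨P0, hPmax, hPw⟩ := Ideal.exists_maximal_ideal_liesOver_of_isIntegral (S := 𝓞 L) w.asIdeal
  have hP0 : P0 ≠ ⊥ := by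
    rintro rfl
    apply w.ne_bot
    rw [hPw.over]
    exact Ideal.under_bot _ _
  let P : Pl L := ⟨P0, hPmax.isPrime, hP0⟩
  have hPw' : ∀ y : 𝓞 E, algebraMap (𝓞 E) (𝓞 L) y ∈ P0 ↔ y ∈ w.asIdeal := by
    intro y
    rw [hPw.over]
    rfl
  have hs : ∀ y : 𝓞 E, algebraMap (𝓞 E) (𝓞 L) (σ • y) = τ • algebraMap (𝓞 E) (𝓞 L) y :=
    algebraMap_smul_eq σ τ hσ _ (fun y => rfl)
  have hw' : ∀ y : 𝓞 E, σ • y ∈ w.asIdeal ↔ y ∈ w.asIdeal := by
    intro y
    conv_lhs => rw [← hw]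
    rw [asIdeal_smul, Ideal.smul_mem_pointwise_smul_iff]
  have hunder : (τ⁻¹ • P0).under (𝓞 E) = P0.under (𝓞 E) := by
    ext y
    show algebraMap (𝓞 E) (𝓞 L) y ∈ τ⁻¹ • P0 ↔ algebraMap (𝓞 E) (𝓞 L) y ∈ P0
    rw [Ideal.mem_inv_pointwise_smul_iff, ← hs, hPw', hPw', hw']
  have : (τ⁻¹ • P0).IsPrime := Ideal.IsPrime.smul τ⁻¹
  obtain ⟨n, hn⟩ := Algebra.IsInvariant.exists_smul_of_under_eq (𝓞 E) (𝓞 L) N P0 (τ⁻¹ • P0)
    hunder.symm
  have hn' : τ⁻¹ • P = (n : L ≃ₐ[ℚ] L) • P := by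
    apply HeightOneSpectrum.ext
    exact hn
  have hlo : P.asIdeal.LiesOver w.asIdeal := hPw
  have h1 := ord_liesOver N (fun P hP g hg => hI P hP g (hNH hg)) w P x
  rw [← h1, hcx P, hn', hc n n.2]
  exact ⟨c P, rfl⟩

end bridge

end Vale.Agent.P036.TW
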