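import Mathlib
import Vale.Agent.P036.TW.T3b
import Vale.Agent.P036.TW.T3b1

/-!
# P036, towers: block T3b, final form: `EmbStmt` from `T4Stmt`
-/

namespace Vale.Agent.P036.TW

open NumberField IsDedekindDomain

theorem bridgeInertia : BridgeInertia := by
  intro L F E _ _ _ _ _ _ _ _ _ _ H N hNH hGH hGN hI τ hτ hτN σ hσ P hP
  exact bridge_inertia H N hNH hI τ hτ hτN σ hσ P hP

theorem bridgeParity : BridgeParity := by
  intro L F E _ _ _ _ _ _ _ _ _ _ H N hNH hGH hGN hI τ hτ hτN hrel σ hσ x hx c hc hcx w hw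
  exact bridge_parity H N hNH hI τ σ hσ x c hc hcx w hw

/-- **Block T3b**: the embedding theorem from the norm theorem. -/
theorem EmbStmt_of (h4 : T4Stmt) : EmbStmt :=
  EmbStmt_of_bridge h4 bridgeInertia bridgeParity

end Vale.Agent.P036.TW
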