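import Mathlib

/-!
# Golod-Shafarevich inequality (block T1 of the towers blueprint)

`G` a finite group, `π : FreeGroup (Fin d) →* G` surjective such that every homomorphism
from the free group to `ZMod 2` kills `ker π`, and the number of conjugation-invariant
homomorphisms `ker π → ZMod 2` is at most `2 ^ r`.  Then `d ^ 2 < 4 * r`.
-/

namespace Vale.Agent.P036.TW.GS

open Module

section Action

variable {G : Type*} [Group G]

/-- Right translation action on functions. -/
def act (g : G) : (G → ZMod 2) →ₗ[ZMod 2] (G → ZMod 2) :=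
  LinearMap.funLeft (ZMod 2) (ZMod 2) (fun x => x * g)

theorem act_apply (g : G) (a : G → ZMod 2) (x : G) : act g a x = a (x * g) := rfl

theorem act_mul (g h : G) (a : G → ZMod 2) : act (g * h) a = act g (act h a) := by
  ext x; simp [act_apply, mul_assoc]

theorem act_one (a : G → ZMod 2) : act (1 : G) a = a := by
  ext x; simp [act_apply]

variable (G) in
/-- The socle filtration of the regular module. -/
def An : ℕ → Submodule (ZMod 2) (G → ZMod 2)
  | 0 => ⊥
  | n + 1 => ⨅ g : G, (An n).comap (act g - LinearMap.id)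

theorem mem_An_succ {n : ℕ} {a : G → ZMod 2} :
    a ∈ An G (n + 1) ↔ ∀ g : G, act g a - a ∈ An G n := by
  simp [An, Submodule.mem_iInf]

theorem mem_An_zero {a : G → ZMod 2} : a ∈ An G 0 ↔ a = 0 := by
  simp [An]

theorem An_le_succ (n : ℕ) : An G n ≤ An G (n + 1) := by
  induction n with
  | zero => intro a ha; rw [mem_An_zero] at ha; subst ha; exact Submodule.zero_mem _
  | succ n ih =>
    intro a ha
    rw [mem_An_succ] at ha ⊢
    exact fun g => ih (ha g)

theorem act_mem_An {n : ℕ} {a : G → ZMod 2} (ha : a ∈ An G n) (g : G) : act g a ∈ An G n := by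
  cases n with
  | zero => rw [mem_An_zero] at ha ⊢; subst ha; simp
  | succ n =>
    have h : act g a = a + (act g a - a) := by abel
    rw [h]
    exact Submodule.add_mem _ ha (An_le_succ n (mem_An_succ.1 ha g))

theorem one_mem_An_one : (fun _ => 1 : G → ZMod 2) ∈ An G 1 := by
  rw [mem_An_succ]
  intro g
  rw [mem_An_zero]
  ext x; simp [act_apply]

end Action

section Main

variable {Φ G : Type*} [Group Φ] [Group G] (π : Φ →* G)

/-- Crossed homomorphisms with values in the `n`-th step of the filtration. -/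
def Z (n : ℕ) : Submodule (ZMod 2) (Φ → (G → ZMod 2)) where
  carrier := {c | (∀ f g, c (f * g) = c f + act (π f) (c g)) ∧ ∀ f, c f ∈ An G n}
  add_mem' := by
    rintro a b ⟨ha, ha'⟩ ⟨hb, hb'⟩
    refine ⟨fun f g => ?_, fun f => Submodule.add_mem _ (ha' f) (hb' f)⟩
    simp only [Pi.add_apply, ha, hb, map_add]
    abel
  zero_mem' := ⟨fun f g => by simp, fun f => by simp⟩
  smul_mem' := by
    rintro t a ⟨ha, ha'⟩
    refine ⟨fun f g => ?_, fun f => Submodule.smul_mem _ _ (ha' f)⟩
    simp only [Pi.smul_apply, ha, map_smul, smul_add]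

/-- Equivariant homomorphisms from the kernel to the `n`-th step of the filtration. -/
def H (n : ℕ) : Submodule (ZMod 2) (π.ker → (G → ZMod 2)) where
  carrier := {h | (∀ x y, h (x * y) = h x + h y) ∧
    (∀ (f : Φ) (x : π.ker), h (MulAut.conjNormal f x) = act (π f) (h x)) ∧ ∀ x, h x ∈ An G n}
  add_mem' := by
    rintro a b ⟨ha, ha', ha''⟩ ⟨hb, hb', hb''⟩
    refine ⟨fun f g => ?_, fun f x => ?_, fun f => Submodule.add_mem _ (ha'' f) (hb'' f)⟩
    · simp only [Pi.add_apply, ha, hb]
      abel
    · simp only [Pi.add_apply, ha', hb', map_add]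
  zero_mem' := ⟨fun f g => by simp, fun f x => by simp, fun f => by simp⟩
  smul_mem' := by
    rintro t a ⟨ha, ha', ha''⟩
    refine ⟨fun f g => ?_, fun f x => ?_, fun f => Submodule.smul_mem _ _ (ha'' f)⟩
    · simp only [Pi.smul_apply, ha, smul_add]
    · simp only [Pi.smul_apply, ha', map_smul]

/-- Invariant homomorphisms from the kernel to `ZMod 2`. -/
def X0 : Submodule (ZMod 2) (π.ker → ZMod 2) where
  carrier := {h | (∀ x y, h (x * y) = h x + h y) ∧
    (∀ (f : Φ) (x : π.ker), h (MulAut.conjNormal f x) = h x)}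
  add_mem' := by
    rintro a b ⟨ha, ha'⟩ ⟨hb, hb'⟩
    refine ⟨fun f g => ?_, fun f x => ?_⟩
    · simp only [Pi.add_apply, ha, hb]
      abel
    · simp only [Pi.add_apply, ha', hb']
  zero_mem' := ⟨fun f g => by simp, fun f x => by simp⟩
  smul_mem' := by
    rintro t a ⟨ha, ha'⟩
    refine ⟨fun f g => ?_, fun f x => ?_⟩
    · simp only [Pi.smul_apply, ha, smul_add]
    · simp only [Pi.smul_apply, ha']

variable {π}

theorem Z_map_one {n : ℕ} {c : Φ → (G → ZMod 2)} (hc : c ∈ Z π n) : c 1 = 0 := by
  have h := hc.1 1 1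
  rw [mul_one, map_one, act_one] at h
  exact left_eq_add.1 h

/-- Vanishing of the first cohomology of the regular module. -/
theorem exists_coboundary (hπ : Function.Surjective π) {n : ℕ} {c : Φ → (G → ZMod 2)}
    (hc : c ∈ Z π n) (h0 : ∀ x ∈ π.ker, c x = 0) :
    ∃ u ∈ An G (n + 1), ∀ f, c f = act (π f) u - u := by
  have hdep : ∀ f f' : Φ, π f = π f' → c f' = c f := by
    intro f f' hff
    have h1 : f' = f * (f⁻¹ * f') := by group
    rw [h1, hc.1, h0 (f⁻¹ * f')]
    · simp
    · rw [MonoidHom.mem_ker, map_mul, map_inv, hff]; group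
  set s := Function.surjInv hπ with hs
  have hs' : ∀ x, π (s x) = x := Function.surjInv_eq hπ
  let u : G → ZMod 2 := fun x => c (s x) 1
  have key : ∀ f, c f = act (π f) u - u := by
    intro f
    ext x
    have h1 : c (s (x * π f)) = c (s x * f) := hdep _ _ (by rw [map_mul, hs', hs'])
    have h2 : c (s x * f) 1 = c (s x) 1 + c f x := by
      rw [hc.1, Pi.add_apply, hs', act_apply, one_mul]
    simp only [Pi.sub_apply, act_apply, u]
    rw [h1, h2]
    ring
  refine ⟨u, ?_, key⟩
  rw [mem_An_succ]
  intro g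
  obtain ⟨f, rfl⟩ := hπ g
  rw [← key f]
  exact hc.2 f

/-- The image of the kernel under a crossed homomorphism drops one step. -/
theorem mem_An_of_ker (hmin : ∀ (χ : Φ →* Multiplicative (ZMod 2)) (x : Φ), π x = 1 → χ x = 1)
    {n : ℕ} {c : Φ → (G → ZMod 2)} (hc : c ∈ Z π (n + 1)) {x : Φ} (hx : π x = 1) :
    c x ∈ An G n := by
  by_contra hcx
  obtain ⟨ℓ, hℓ, hle⟩ := Submodule.exists_le_ker_of_notMem hcx
  have hmul : ∀ f g : Φ, ℓ (c (f * g)) = ℓ (c f) + ℓ (c g) := by
    intro f g
    have h1 : act (π f) (c g) - c g ∈ An G n := mem_An_succ.1 (hc.2 g) (π f)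
    have h2 : ℓ (act (π f) (c g) - c g) = 0 := hle h1
    rw [map_sub, sub_eq_zero] at h2
    rw [hc.1, map_add, h2]
  let χ : Φ →* Multiplicative (ZMod 2) :=
    { toFun := fun f => Multiplicative.ofAdd (ℓ (c f))
      map_one' := by rw [Z_map_one hc, map_zero]; rfl
      map_mul' := fun f g => by rw [hmul]; rfl }
  have h3 : χ x = 1 := hmin χ x hx
  apply hℓ
  exact h3

/-- The restriction map. -/
def res (hmin : ∀ (χ : Φ →* Multiplicative (ZMod 2)) (x : Φ), π x = 1 → χ x = 1) (n : ℕ) :
    Z π (n + 1) →ₗ[ZMod 2] H π n where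
  toFun c := ⟨fun x => c.1 x.1, by
    refine ⟨fun x y => ?_, fun f x => ?_, fun x => mem_An_of_ker hmin c.2 x.2⟩
    · have hx : π x.1 = 1 := x.2
      beta_reduce
      rw [Subgroup.coe_mul, c.2.1, hx, act_one]
    · have hx : π x.1 = 1 := x.2
      have h1 : c.1 (f * f⁻¹) = 0 := by rw [mul_inv_cancel]; exact Z_map_one c.2
      rw [c.2.1] at h1
      beta_reduce
      rw [MulAut.conjNormal_apply, c.2.1, c.2.1, map_mul, hx, mul_one]
      rw [add_right_comm, h1, zero_add]⟩
  map_add' _ _ := rfl
  map_smul' _ _ := rfl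

/-- The coboundary map. -/
def del (π : Φ →* G) (n : ℕ) : An G (n + 1) →ₗ[ZMod 2] Z π n where
  toFun u := ⟨fun f => act (π f) u.1 - u.1, by
    refine ⟨fun f g => ?_, fun f => mem_An_succ.1 u.2 (π f)⟩
    beta_reduce
    rw [map_mul, act_mul, map_sub]
    abel⟩
  map_add' a b := by
    ext f x
    simp [act_apply]
    ring
  map_smul' t a := by
    ext f x
    simp [act_apply]
    ring

theorem ker_res_le (hπ : Function.Surjective π)
    (hmin : ∀ (χ : Φ →* Multiplicative (ZMod 2)) (x : Φ), π x = 1 → χ x = 1) (n : ℕ) :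
    LinearMap.ker (res hmin n) ≤ LinearMap.range (del π (n + 1)) := by
  intro c hc
  rw [LinearMap.mem_ker] at hc
  have h0 : ∀ x ∈ π.ker, c.1 x = 0 := by
    intro x hx
    have := congrFun (congrArg Subtype.val hc) ⟨x, hx⟩
    exact this
  obtain ⟨u, hu, hcu⟩ := exists_coboundary hπ c.2 h0
  refine ⟨⟨u, hu⟩, ?_⟩
  apply Subtype.ext
  funext f
  exact (hcu f).symm

end Main

section Free

variable {G : Type*} [Group G] {d : ℕ} {π : FreeGroup (Fin d) →* G}

/-- Affine permutation attached to a group element and a translation vector. -/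
def aff (g : G) (a : G → ZMod 2) : Equiv.Perm (G → ZMod 2) where
  toFun v := act g v + a
  invFun v := act g⁻¹ (v - a)
  left_inv v := by
    beta_reduce
    rw [add_sub_cancel_right, ← act_mul, inv_mul_cancel, act_one]
  right_inv v := by
    beta_reduce
    rw [← act_mul, mul_inv_cancel, act_one, sub_add_cancel]

theorem exists_crossed (π : FreeGroup (Fin d) →* G) (n : ℕ) (a : Fin d → An G n) :
    ∃ c ∈ Z π n, ∀ i, c (FreeGroup.of i) = (a i).1 := by
  let T : FreeGroup (Fin d) →* Equiv.Perm (G → ZMod 2) :=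
    FreeGroup.lift (fun i => aff (π (FreeGroup.of i)) (a i).1)
  have hT : ∀ f v, T f v = act (π f) v + T f 0 := by
    intro f
    induction f using FreeGroup.induction_on with
    | C1 => intro v; simp [act_one]
    | of i =>
      intro v
      have h : T (FreeGroup.of i) = aff (π (FreeGroup.of i)) (a i).1 := by
        simp [T]
      rw [h]
      change act _ v + _ = act _ v + (act _ 0 + _)
      rw [map_zero, zero_add]
    | inv_of i ih =>
      intro v
      rw [map_inv, map_inv]
      have e1 : (T (FreeGroup.of i))⁻¹ v = act (π (FreeGroup.of i))⁻¹ (v - T (FreeGroup.of i) 0) := by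
        rw [Equiv.Perm.inv_eq_iff_eq, ih, ← act_mul, mul_inv_cancel, act_one, sub_add_cancel]
      have e2 : (T (FreeGroup.of i))⁻¹ 0 = act (π (FreeGroup.of i))⁻¹ (0 - T (FreeGroup.of i) 0) := by
        rw [Equiv.Perm.inv_eq_iff_eq, ih, ← act_mul, mul_inv_cancel, act_one, sub_add_cancel]
      rw [e1, e2, ← map_add]
      congr 1
      abel
    | mul x y hx hy =>
      intro v
      rw [map_mul, map_mul, Equiv.Perm.mul_apply, Equiv.Perm.mul_apply, hy, hx, hx (T y 0),
        act_mul, map_add]
      abel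
  have hcr : ∀ f g, T (f * g) 0 = T f 0 + act (π f) (T g 0) := by
    intro f g
    rw [map_mul, Equiv.Perm.mul_apply, hT, add_comm]
  have hof : ∀ i, T (FreeGroup.of i) 0 = (a i).1 := by
    intro i
    simp only [T, FreeGroup.lift_apply_of]
    change act _ 0 + _ = _
    rw [map_zero, zero_add]
  refine ⟨fun f => T f 0, ⟨hcr, ?_⟩, hof⟩
  intro f
  beta_reduce
  induction f using FreeGroup.induction_on with
  | C1 => simp
  | of i => rw [hof]; exact (a i).2
  | inv_of i ih =>
    have h1 : T ((FreeGroup.of i)⁻¹ * FreeGroup.of i) 0 = 0 := by rw [inv_mul_cancel]; simp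
    rw [hcr] at h1
    rw [eq_neg_of_add_eq_zero_left h1]
    exact Submodule.neg_mem _ (act_mem_An ih _)
  | mul x y hx hy =>
    rw [hcr]
    exact Submodule.add_mem _ hx (act_mem_An hy _)

theorem crossed_ext {n : ℕ} {c c' : FreeGroup (Fin d) → (G → ZMod 2)} (hc : c ∈ Z π n)
    (hc' : c' ∈ Z π n) (h : ∀ i, c (FreeGroup.of i) = c' (FreeGroup.of i)) : c = c' := by
  funext f
  induction f using FreeGroup.induction_on with
  | C1 => rw [Z_map_one hc, Z_map_one hc']
  | of i => exact h i
  | inv_of i ih =>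
    have h1 : c ((FreeGroup.of i)⁻¹ * FreeGroup.of i) = 0 := by rw [inv_mul_cancel]; exact Z_map_one hc
    have h2 : c' ((FreeGroup.of i)⁻¹ * FreeGroup.of i) = 0 := by rw [inv_mul_cancel]; exact Z_map_one hc'
    rw [hc.1] at h1
    rw [hc'.1] at h2
    rw [eq_neg_of_add_eq_zero_left h1, eq_neg_of_add_eq_zero_left h2, ih]
  | mul x y hx hy => rw [hc.1, hc'.1, hx, hy]

/-- Crossed homomorphisms on a free group are given by their values on the generators. -/
noncomputable def evEquiv (π : FreeGroup (Fin d) →* G) (n : ℕ) :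
    Z π n ≃ₗ[ZMod 2] (Fin d → An G n) :=
  LinearEquiv.ofBijective
    { toFun := fun c i => ⟨c.1 (FreeGroup.of i), c.2.2 _⟩
      map_add' := fun _ _ => rfl
      map_smul' := fun _ _ => rfl }
    ⟨fun c c' h => Subtype.ext (crossed_ext c.2 c'.2 fun i =>
        congrArg Subtype.val (congrFun h i)),
      fun a => by
        obtain ⟨c, hc, hca⟩ := exists_crossed π n a
        exact ⟨⟨c, hc⟩, funext fun i => Subtype.ext (hca i)⟩⟩

theorem finrank_Z [Finite G] (π : FreeGroup (Fin d) →* G) (n : ℕ) :
    finrank (ZMod 2) (Z π n) = d * finrank (ZMod 2) (An G n) := by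
  rw [(evEquiv π n).finrank_eq, Module.finrank_pi_fintype]
  simp

end Free

section Bound

variable {Φ G : Type*} [Group Φ] [Group G] {π : Φ →* G}

instance finite_A [Finite G] : Module.Finite (ZMod 2) (G → ZMod 2) :=
  Module.Finite.pi

/-- Quotient of consecutive steps, as a subspace quotient. -/
abbrev Qn (G : Type*) [Group G] (n : ℕ) : Type _ :=
  An G (n + 1) ⧸ (An G n).submoduleOf (An G (n + 1))

theorem finrank_Qn [Finite G] (n : ℕ) :
    finrank (ZMod 2) (Qn G n) + finrank (ZMod 2) (An G n) = finrank (ZMod 2) (An G (n + 1)) := by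
  have h := Submodule.finrank_quotient_add_finrank ((An G n).submoduleOf (An G (n + 1)))
  have h2 : finrank (ZMod 2) ((An G n).submoduleOf (An G (n + 1))) = finrank (ZMod 2) (An G n) :=
    (Submodule.submoduleOfEquivOfLe (An_le_succ n)).finrank_eq
  rw [h2] at h
  exact h

/-- Coordinates modulo the previous step. -/
noncomputable def coord [Finite G] (π : Φ →* G) (n : ℕ) :
    H π (n + 1) →ₗ[ZMod 2] (Fin (finrank (ZMod 2) (Qn G n)) → X0 π) where
  toFun h i := ⟨fun x => (Module.finBasis (ZMod 2) (Qn G n)).repr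
      (Submodule.Quotient.mk ⟨h.1 x, h.2.2.2 x⟩) i, by
    refine ⟨fun x y => ?_, fun f x => ?_⟩
    · beta_reduce
      have e : (⟨h.1 (x * y), h.2.2.2 (x * y)⟩ : An G (n + 1)) =
          ⟨h.1 x, h.2.2.2 x⟩ + ⟨h.1 y, h.2.2.2 y⟩ := Subtype.ext (h.2.1 x y)
      rw [e, Submodule.Quotient.mk_add, map_add, Finsupp.add_apply]
    · beta_reduce
      congr 2
      rw [Submodule.Quotient.eq]
      change h.1 (MulAut.conjNormal f x) - h.1 x ∈ An G n
      rw [h.2.2.1]
      exact mem_An_succ.1 (h.2.2.2 x) (π f)⟩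
  map_add' a b := by
    funext i
    apply Subtype.ext
    funext x
    change (Module.finBasis (ZMod 2) (Qn G n)).repr _ i =
      (Module.finBasis (ZMod 2) (Qn G n)).repr _ i + (Module.finBasis (ZMod 2) (Qn G n)).repr _ i
    rw [← Finsupp.add_apply, ← map_add, ← Submodule.Quotient.mk_add]
    rfl
  map_smul' t a := by
    funext i
    apply Subtype.ext
    funext x
    change (Module.finBasis (ZMod 2) (Qn G n)).repr _ i =
      t • (Module.finBasis (ZMod 2) (Qn G n)).repr _ i
    rw [← Finsupp.smul_apply, ← map_smul, ← Submodule.Quotient.mk_smul]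
    rfl

theorem ker_coord [Finite G] {n : ℕ} {h : H π (n + 1)} (hh : h ∈ LinearMap.ker (coord π n)) :
    h.1 ∈ H π n := by
  refine ⟨h.2.1, h.2.2.1, fun x => ?_⟩
  rw [LinearMap.mem_ker] at hh
  have h1 : (Submodule.Quotient.mk ⟨h.1 x, h.2.2.2 x⟩ : Qn G n) = 0 := by
    apply (Module.finBasis (ZMod 2) (Qn G n)).repr.injective
    ext i
    have := congrFun (congrArg Subtype.val (congrFun hh i)) x
    rw [map_zero]
    exact this
  rw [Submodule.Quotient.mk_eq_zero] at h1
  exact h1

/-- The kernel of the coordinate map embeds into the previous step. -/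
def kerMap [Finite G] (π : Φ →* G) (n : ℕ) :
    LinearMap.ker (coord π n) →ₗ[ZMod 2] H π n where
  toFun h := ⟨h.1.1, ker_coord h.2⟩
  map_add' _ _ := rfl
  map_smul' _ _ := rfl

theorem kerMap_injective [Finite G] (n : ℕ) : Function.Injective (kerMap π n) := by
  intro a b h
  apply Subtype.ext
  apply Subtype.ext
  have h1 := congrArg (fun z : H π n => z.1) h
  exact h1

theorem finite_finrank_H [Finite G] [Module.Finite (ZMod 2) (X0 π)] (n : ℕ) :
    Module.Finite (ZMod 2) (H π n) ∧
      finrank (ZMod 2) (H π n) ≤ finrank (ZMod 2) (X0 π) * finrank (ZMod 2) (An G n) := by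
  induction n with
  | zero =>
    have h0 : ∀ h : H π 0, h = 0 := by
      intro h
      apply Subtype.ext
      funext x
      exact mem_An_zero.1 (h.2.2.2 x)
    have : Subsingleton (H π 0) := ⟨fun a b => by rw [h0 a, h0 b]⟩
    refine ⟨inferInstance, ?_⟩
    rw [Module.finrank_zero_of_subsingleton]
    exact Nat.zero_le _
  | succ n ih =>
    obtain ⟨ih1, ih2⟩ := ih
    have := ih1
    have h1 : Module.Finite (ZMod 2) (LinearMap.ker (coord π n)) :=
      Module.Finite.of_injective (kerMap π n) (kerMap_injective n)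
    have h2 : Module.Finite (ZMod 2) (LinearMap.range (coord π n)) := inferInstance
    have h3 : Module.Finite (ZMod 2) (H π (n + 1) ⧸ LinearMap.ker (coord π n)) :=
      Module.Finite.equiv (coord π n).quotKerEquivRange.symm
    have h4 : Module.Finite (ZMod 2) (H π (n + 1)) :=
      Module.Finite.of_submodule_quotient (LinearMap.ker (coord π n))
    refine ⟨h4, ?_⟩
    have h5 := LinearMap.finrank_range_add_finrank_ker (coord π n)
    have h6 : finrank (ZMod 2) (LinearMap.ker (coord π n)) ≤ finrank (ZMod 2) (H π n) :=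
      LinearMap.finrank_le_finrank_of_injective (kerMap_injective n)
    have h7 : finrank (ZMod 2) (LinearMap.range (coord π n)) ≤
        finrank (ZMod 2) (Qn G n) * finrank (ZMod 2) (X0 π) := by
      refine (Submodule.finrank_le _).trans ?_
      rw [Module.finrank_pi_fintype]
      simp
    have h8 := finrank_Qn (G := G) n
    rw [← h5, ← h8, mul_add]
    refine Nat.add_le_add (h7.trans (le_of_eq (mul_comm _ _))) (h6.trans ih2)

end Bound

section Final

variable {G : Type*} [Group G] [Finite G] {d : ℕ} {π : FreeGroup (Fin d) →* G}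

theorem recursion (hπ : Function.Surjective π)
    (hmin : ∀ (χ : FreeGroup (Fin d) →* Multiplicative (ZMod 2)) (x), π x = 1 → χ x = 1)
    [Module.Finite (ZMod 2) (X0 π)] (n : ℕ) :
    d * finrank (ZMod 2) (An G (n + 1)) + 1 ≤
      finrank (ZMod 2) (An G (n + 1 + 1)) +
        finrank (ZMod 2) (X0 π) * finrank (ZMod 2) (An G n) := by
  obtain ⟨h1, h2⟩ := finite_finrank_H (π := π) n
  have := h1
  have hZ : Module.Finite (ZMod 2) (Z π (n + 1)) := Module.Finite.equiv (evEquiv π (n + 1)).symm
  have h3 := LinearMap.finrank_range_add_finrank_ker (res hmin n)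
  rw [finrank_Z] at h3
  have h4 : finrank (ZMod 2) (LinearMap.range (res hmin n)) ≤ finrank (ZMod 2) (H π n) :=
    Submodule.finrank_le _
  have h5 : finrank (ZMod 2) (LinearMap.ker (res hmin n)) ≤
      finrank (ZMod 2) (LinearMap.range (del π (n + 1))) :=
    Submodule.finrank_mono (ker_res_le hπ hmin n)
  have h6 := LinearMap.finrank_range_add_finrank_ker (del π (n + 1))
  have h7 : 0 < finrank (ZMod 2) (LinearMap.ker (del π (n + 1))) := by
    have hone : ∀ m, (fun _ => 1 : G → ZMod 2) ∈ An G (m + 1) := by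
      intro m
      induction m with
      | zero => exact one_mem_An_one
      | succ m ih => exact An_le_succ _ ih
    rw [Module.finrank_pos_iff_exists_ne_zero]
    refine ⟨⟨⟨_, hone (n + 1)⟩, ?_⟩, ?_⟩
    · rw [LinearMap.mem_ker]
      apply Subtype.ext
      funext f x
      simp [del, act_apply]
    · intro h
      have h8 := congrFun (congrArg Subtype.val (congrArg Subtype.val h)) 1
      exact one_ne_zero h8
  omega

theorem one_le_finrank_one : 1 ≤ finrank (ZMod 2) (An G 1) := by
  rw [Nat.one_le_iff_ne_zero, ← Nat.pos_iff_ne_zero, Module.finrank_pos_iff_exists_ne_zero]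
  refine ⟨⟨_, one_mem_An_one⟩, ?_⟩
  intro h
  exact one_ne_zero (congrFun (congrArg Subtype.val h) 1)

/-- Golod-Shafarevich, dimension form. -/
theorem golod_shafarevich_finrank (hd : 2 ≤ d) (hπ : Function.Surjective π)
    (hmin : ∀ (χ : FreeGroup (Fin d) →* Multiplicative (ZMod 2)) (x), π x = 1 → χ x = 1)
    [Module.Finite (ZMod 2) (X0 π)] : d ^ 2 < 4 * finrank (ZMod 2) (X0 π) := by
  by_contra hcon
  rw [not_lt] at hcon
  set r := finrank (ZMod 2) (X0 π) with hr
  let a : ℕ → ℕ := fun n => finrank (ZMod 2) (An G n)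
  have hrec : ∀ n, d * a (n + 1) + 1 ≤ a (n + 1 + 1) + r * a n := fun n => recursion hπ hmin n
  have ha1 : 1 ≤ a 1 := one_le_finrank_one
  have ha0 : a 0 = 0 := by
    change finrank (ZMod 2) (An G 0) = 0
    change finrank (ZMod 2) (⊥ : Submodule (ZMod 2) (G → ZMod 2)) = 0
    exact finrank_bot _ _
  have hgrow : ∀ n, d * a n + 2 ≤ 2 * a (n + 1) := by
    intro n
    induction n with
    | zero => rw [ha0, mul_zero, zero_add, zero_add]; omega
    | succ n ih =>
      have h1 := hrec n
      have h2 : 4 * (r * a n) ≤ d * (d * a n) := by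
        calc 4 * (r * a n) = (4 * r) * a n := by ring
          _ ≤ d ^ 2 * a n := Nat.mul_le_mul_right _ hcon
          _ = d * (d * a n) := by ring
      have h3 : d * (d * a n) + d * 2 ≤ d * (2 * a (n + 1)) := by
        rw [← mul_add]; exact Nat.mul_le_mul_left _ ih
      have h4 : d * (2 * a (n + 1)) = 2 * (d * a (n + 1)) := by ring
      rw [h4] at h3
      omega
  have hge : ∀ n, n ≤ a n := by
    intro n
    induction n with
    | zero => omega
    | succ n ih =>
      have h1 := hgrow n
      have h2 : 2 * a n ≤ d * a n := Nat.mul_le_mul_right _ hd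
      omega
  have hbd := Submodule.finrank_le (An G (finrank (ZMod 2) (G → ZMod 2) + 1))
  have := hge (finrank (ZMod 2) (G → ZMod 2) + 1)
  simp only [a] at this
  omega

/-- Golod-Shafarevich, counting form: `X0 π` is the set of invariant additive maps. -/
theorem golod_shafarevich_card {r : ℕ} (hd : 2 ≤ d) (hπ : Function.Surjective π)
    (hmin : ∀ (χ : FreeGroup (Fin d) →* Multiplicative (ZMod 2)) (x), π x = 1 → χ x = 1)
    [Finite (X0 π)] (hX : Nat.card (X0 π) ≤ 2 ^ r) : d ^ 2 < 4 * r := by
  have : Module.Finite (ZMod 2) (X0 π) := Module.Finite.of_finite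
  have h := golod_shafarevich_finrank hd hπ hmin
  have h1 : Nat.card (X0 π) = 2 ^ finrank (ZMod 2) (X0 π) := by
    rw [Module.natCard_eq_pow_finrank (K := ZMod 2)]
    simp
  rw [h1] at hX
  have h2 : finrank (ZMod 2) (X0 π) ≤ r := (Nat.pow_le_pow_iff_right (by norm_num)).1 hX
  omega

end Final

section Units

/-- The sign group is `ZMod 2` written multiplicatively. -/
def signEquiv : ℤˣ ≃* Multiplicative (ZMod 2) where
  toFun u := if u = 1 then Multiplicative.ofAdd 0 else Multiplicative.ofAdd 1
  invFun z := if z = Multiplicative.ofAdd 0 then 1 else -1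
  left_inv := by decide
  right_inv := by decide
  map_mul' := by decide

variable {Φ G : Type*} [Group Φ] [Group G]

/-- Invariant sign characters of the kernel. -/
abbrev XU (π : Φ →* G) : Type _ :=
  {φ : π.ker →* ℤˣ // ∀ (f : Φ) (x : π.ker), φ (MulAut.conjNormal f x) = φ x}

/-- Invariant sign characters are the same thing as `X0`. -/
def equivX0 (π : Φ →* G) : XU π ≃ X0 π where
  toFun φ := ⟨fun x => Multiplicative.toAdd (signEquiv (φ.1 x)), by
    refine ⟨fun x y => ?_, fun f x => ?_⟩
    · beta_reduce; rw [map_mul, map_mul, toAdd_mul]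
    · beta_reduce; rw [φ.2]⟩
  invFun h := ⟨MonoidHom.mk' (fun x => signEquiv.symm (Multiplicative.ofAdd (h.1 x)))
      (fun x y => by rw [h.2.1, ofAdd_add, map_mul]), fun f x => by
        change signEquiv.symm (Multiplicative.ofAdd (h.1 _)) = _
        rw [h.2.2]; rfl⟩
  left_inv φ := by
    apply Subtype.ext
    ext x
    simp [MonoidHom.mk']
  right_inv h := by
    apply Subtype.ext
    funext x
    simp [MonoidHom.mk']

theorem finite_X0 {d : ℕ} {G : Type*} [Group G] [Finite G] (π : FreeGroup (Fin d) →* G) :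
    Finite (X0 π) := by
  have hfi : π.ker.FiniteIndex := by
    have : Finite π.range := inferInstance
    exact Subgroup.finiteIndex_ker π
  have hfg : Group.FG π.ker := inferInstance
  obtain ⟨S, hS⟩ := (Group.fg_def.1 hfg)
  let ev : X0 π → (S → ZMod 2) := fun h s => h.1 s.1
  apply Finite.of_injective ev
  intro a b hab
  apply Subtype.ext
  have ha1 : ∀ h : X0 π, h.1 1 = 0 := by
    intro h
    have := h.2.1 1 1
    rw [mul_one] at this
    exact left_eq_add.1 this
  have hinv : ∀ (h : X0 π) x, h.1 x⁻¹ = - h.1 x := by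
    intro h x
    have := h.2.1 x⁻¹ x
    rw [inv_mul_cancel, ha1] at this
    exact eq_neg_of_add_eq_zero_left this.symm
  let K : Subgroup π.ker :=
    { carrier := {x | a.1 x = b.1 x}
      mul_mem' := by
        intro x y hx hy
        simp only [Set.mem_ofPred_eq] at hx hy ⊢
        rw [a.2.1, b.2.1, hx, hy]
      one_mem' := by simp only [Set.mem_ofPred_eq]; rw [ha1, ha1]
      inv_mem' := by
        intro x hx
        simp only [Set.mem_ofPred_eq] at hx ⊢
        rw [hinv, hinv, hx] }
  have hK : Subgroup.closure (S : Set π.ker) ≤ K := by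
    rw [Subgroup.closure_le]
    intro s hs
    exact congrFun hab ⟨s, hs⟩
  funext x
  exact hK (by rw [hS]; exact Subgroup.mem_top x)

theorem golod_shafarevich {G : Type*} [Group G] [Finite G] {d r : ℕ}
    {π : FreeGroup (Fin d) →* G} (hd : 2 ≤ d) (hπ : Function.Surjective π)
    (hmin : ∀ (χ : FreeGroup (Fin d) →* ℤˣ) (x), π x = 1 → χ x = 1)
    (hX : Nat.card (XU π) ≤ 2 ^ r) : d ^ 2 < 4 * r := by
  have := finite_X0 π
  refine golod_shafarevich_card hd hπ ?_ (r := r) ?_
  · intro χ x hx
    have h := hmin (signEquiv.symm.toMonoidHom.comp χ) x hx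
    have h2 : signEquiv.symm (χ x) = 1 := h
    rw [← map_one signEquiv.symm] at h2
    exact signEquiv.symm.injective h2
  · rw [← Nat.card_congr (equivX0 π)]
    exact hX

end Units

end Vale.Agent.P036.TW.GS
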