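import Mathlib
import Vale.Agent.P036.TW.Spec

/-!
# P036, towers, block T10a: arithmetic data exist
-/

namespace Vale.Agent.P036.TW

open NumberField IsDedekindDomain
open scoped Pointwise nonZeroDivisors

theorem T10aStmt_holds : T10aStmt := by
  intro P0 hP0 t
  set M : ℕ := 4 * ∏ l ∈ P0, l with hM
  have hMpos : M ≠ 0 := by
    rw [hM]
    refine mul_ne_zero (by norm_num) (Finset.prod_ne_zero_iff.2 fun l hl => ?_)
    exact (hP0 l hl).1.ne_zero
  have : NeZero M := ⟨hMpos⟩
  have hinf : {p : ℕ | p.Prime ∧ (p : ZMod M) = -1}.Infinite := by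
    apply Nat.infinite_setOfPred_prime_and_eq_mod
    exact isUnit_one.neg
  obtain ⟨T, hT, hcard⟩ := hinf.exists_subset_card_eq (2 * t + 1)
  refine ⟨T, ⟨hP0, ?_, ?_, ?_⟩, by omega⟩
  · intro p hp
    exact (hT hp).1
  · intro p hp
    have h := (hT hp).2
    have h2 : ((p + 1 : ℕ) : ZMod M) = 0 := by
      push_cast
      rw [h]; ring
    exact (ZMod.natCast_eq_zero_iff _ _).1 h2
  · rw [hcard]
    exact ⟨t, rfl⟩

end Vale.Agent.P036.TW
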