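import Vale.Agent.P036.TW.T10a

/-!
# T10b: the 2-torsion of the class group of an imaginary quadratic field
-/

namespace Vale.Agent.P036.TW.T10

open NumberField Ideal

variable {K : Type*} [Field K] [NumberField K]

open Classical in
/-- class of an ideal (junk value `1` at the zero ideal) -/
noncomputable def cl (I : Ideal (𝓞 K)) : ClassGroup (𝓞 K) :=
  if h : I ≠ ⊥ then ClassGroup.mk0 ⟨I, mem_nonZeroDivisors_iff_ne_zero.2 h⟩ else 1

theorem cl_eq {I : Ideal (𝓞 K)} (h : I ≠ ⊥) :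
    cl I = ClassGroup.mk0 ⟨I, mem_nonZeroDivisors_iff_ne_zero.2 h⟩ := by
  rw [cl, dif_pos h]

theorem cl_mul {I J : Ideal (𝓞 K)} (hI : I ≠ ⊥) (hJ : J ≠ ⊥) : cl (I * J) = cl I * cl J := by
  have hIJ : I * J ≠ ⊥ := mul_ne_zero hI hJ
  rw [cl_eq hI, cl_eq hJ, cl_eq hIJ, ← map_mul]
  rfl

theorem cl_span (x : 𝓞 K) : cl (span {x}) = 1 := by
  by_cases hx : span {x} = (⊥ : Ideal (𝓞 K))
  · rw [cl, dif_neg (not_not.2 hx)]
  · rw [cl_eq hx, ClassGroup.mk0_eq_one_iff]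
    exact ⟨x, rfl⟩

theorem exists_cl (c : ClassGroup (𝓞 K)) : ∃ I : Ideal (𝓞 K), I ≠ ⊥ ∧ cl I = c := by
  obtain ⟨I, rfl⟩ := ClassGroup.mk0_surjective c
  have h : (I : Ideal (𝓞 K)) ≠ ⊥ := mem_nonZeroDivisors_iff_ne_zero.1 I.2
  exact ⟨I, h, cl_eq h⟩

theorem cl_eq_one {I : Ideal (𝓞 K)} (hI : I ≠ ⊥) (h : cl I = 1) : ∃ x : 𝓞 K, I = span {x} := by
  rw [cl_eq hI, ClassGroup.mk0_eq_one_iff] at h
  obtain ⟨x, hx⟩ := h
  exact ⟨x, hx⟩

theorem mul_left_cancel_ideal {I A B : Ideal (𝓞 K)} (hI : I ≠ ⊥) (h : I * A = I * B) : A = B :=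
  mul_left_cancel₀ hI h

theorem map_s_ne_bot (S : Inv K) {I : Ideal (𝓞 K)} (hI : I ≠ ⊥) : I.map S.s ≠ ⊥ := by
  intro h
  apply hI
  rw [Ideal.map_eq_bot_iff_of_injective S.s.injective] at h
  exact h

theorem map_s_s (S : Inv K) (I : Ideal (𝓞 K)) : (I.map S.s).map S.s = I := by
  have h : (I.map (S.s : 𝓞 K →+* 𝓞 K)).map (S.s : 𝓞 K →+* 𝓞 K) = I := by
    rw [Ideal.map_map]
    have : ((S.s : 𝓞 K →+* 𝓞 K).comp (S.s : 𝓞 K →+* 𝓞 K)) = RingHom.id _ := by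
      ext x
      simp
    rw [this, Ideal.map_id]
  exact h

theorem map_s_max (S : Inv K) {P : Ideal (𝓞 K)} (hP : P.IsMaximal) : (P.map S.s).IsMaximal :=
  Ideal.map_isMaximal_of_equiv S.s

theorem exists_prime_mem {P : Ideal (𝓞 K)} (hP : P.IsPrime) (n : ℕ) (hn : 0 < n)
    (h : (n : 𝓞 K) ∈ P) : ∃ p : ℕ, p.Prime ∧ (p : 𝓞 K) ∈ P := by
  induction n using Nat.recOnMul with
  | zero => omega
  | one => exact absurd ((Ideal.eq_top_iff_one P).2 (by simpa using h)) hP.ne_top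
  | prime q hq => exact ⟨q, hq, h⟩
  | mul a b iha ihb =>
    have ha : 0 < a := Nat.pos_of_mul_pos_right hn |> fun h => by
      rcases Nat.eq_zero_or_pos a with rfl | h'
      · simp at hn
      · exact h'
    have hb : 0 < b := by
      rcases Nat.eq_zero_or_pos b with rfl | h'
      · simp at hn
      · exact h'
    rw [Nat.cast_mul] at h
    rcases hP.mem_or_mem h with h | h
    · exact iha ha h
    · exact ihb hb h

theorem dvd_of_int_mem {P : Ideal (𝓞 K)} (hP : P.IsPrime) {p : ℕ} (hp : p.Prime)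
    (hpP : (p : 𝓞 K) ∈ P) (z : ℤ) (hz : (z : 𝓞 K) ∈ P) : (p : ℤ) ∣ z := by
  by_contra hnd
  have hpz : Prime (p : ℤ) := Nat.prime_iff_prime_int.1 hp
  have hcop : IsCoprime (p : ℤ) z := (Prime.coprime_iff_not_dvd hpz).2 hnd
  obtain ⟨a, b, hab⟩ := hcop
  apply hP.ne_top
  rw [Ideal.eq_top_iff_one]
  have : (1 : 𝓞 K) = (a : 𝓞 K) * (p : 𝓞 K) + (b : 𝓞 K) * (z : 𝓞 K) := by
    have := congrArg (fun z : ℤ => (z : 𝓞 K)) hab
    simp only [Int.cast_add, Int.cast_mul, Int.cast_natCast, Int.cast_one] at this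
    exact this.symm
  rw [this]
  exact add_mem (P.mul_mem_left _ hpP) (P.mul_mem_left _ hz)

/-- invariant primes: principal, or `P ^ 2 = (p)` with `p` dividing `D` -/
theorem inv_prime (S : Inv K) (hrank : Module.finrank ℚ K = 2) (D : ℤ) (δ θ : 𝓞 K)
    (hδ : δ ^ 2 = (D : 𝓞 K)) (hθ : θ - S.s θ = δ)
    {P : Ideal (𝓞 K)} (hP : P.IsMaximal) (hP0 : P ≠ ⊥) (hinv : P.map S.s = P) :
    cl P = 1 ∨ ∃ p : ℕ, p.Prime ∧ (p : ℤ) ∣ D ∧ P ^ 2 = span {(p : 𝓞 K)} := by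
  obtain ⟨g, hg, hPg⟩ := S.exists_norm_ideal P hP0
  rw [hinv, ← pow_two] at hPg
  have hgP : (g : 𝓞 K) ∈ P := by
    have : (g : 𝓞 K) ∈ P ^ 2 := by rw [hPg]; exact mem_span_singleton_self _
    exact Ideal.pow_le_self two_ne_zero this
  obtain ⟨p, hp, hpP⟩ := exists_prime_mem hP.isPrime g hg hgP
  have hpg : (p : ℤ) ∣ (g : ℤ) := dvd_of_int_mem hP.isPrime hp hpP g (by simpa using hgP)
  have hpg' : p ∣ g := by exact_mod_cast hpg
  obtain ⟨Q, hQ⟩ : P ∣ span {(p : 𝓞 K)} := by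
    rw [Ideal.dvd_iff_le, span_singleton_le_iff_mem]; exact hpP
  have hdvd : P * Q ∣ P * P := by
    rw [← hQ, ← pow_two, hPg, Ideal.dvd_span_singleton, mem_span_singleton]
    exact_mod_cast Nat.cast_dvd_cast hpg'
  have hQP : Q ∣ P := (mul_dvd_mul_iff_left hP0).1 hdvd
  rw [Ideal.dvd_iff_le] at hQP
  rcases eq_or_ne Q ⊤ with hQt | hQt
  · left
    rw [hQt, Ideal.mul_top] at hQ
    rw [← hQ, cl_span]
  · right
    have hPQ : P = Q := hP.eq_of_le hQt hQP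
    rw [← hPQ, ← pow_two] at hQ
    refine ⟨p, hp, ?_, hQ.symm⟩
    -- residue degree one
    have hN : absNorm P = p := by
      have h1 : absNorm P ^ 2 = p ^ 2 := by
        rw [← map_pow, ← hQ, absNorm_span_natCast, RingOfIntegers.rank, hrank]
      exact Nat.pow_left_injective (n := 2) (by norm_num) h1
    have hcard : Nat.card (𝓞 K ⧸ P) = p := by
      rw [← hN, absNorm_apply, Submodule.cardQuot_apply]
    haveI : Fact p.Prime := ⟨hp⟩
    have h10 : (1 : 𝓞 K ⧸ P) ≠ 0 := by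
      haveI := Ideal.Quotient.nontrivial_iff.2 hP.ne_top
      exact one_ne_zero
    have hmem : Ideal.Quotient.mk P θ ∈ AddSubgroup.zmultiples (1 : 𝓞 K ⧸ P) :=
      mem_zmultiples_of_prime_card hcard h10
    obtain ⟨m, hm⟩ := AddSubgroup.mem_zmultiples_iff.1 hmem
    have hm' : θ - (m : 𝓞 K) ∈ P := by
      rw [← Ideal.Quotient.eq, ← hm]
      simp
    have hm'' : S.s θ - (m : 𝓞 K) ∈ P := by
      rw [← hinv]
      have := Ideal.mem_map_of_mem S.s hm'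
      simpa using this
    have hδP : δ ∈ P := by
      have : δ = (θ - (m : 𝓞 K)) - (S.s θ - (m : 𝓞 K)) := by rw [← hθ]; ring
      rw [this]
      exact sub_mem hm' hm''
    apply dvd_of_int_mem hP.isPrime hp hpP
    rw [← hδ]
    exact Ideal.pow_mem_of_mem P hδP 2 (by norm_num)

end Vale.Agent.P036.TW.T10
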