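import Vale.Agent.P036.TW.T10c

/-!
# T10d: the class group of `ℚ(√D)`, `D < 0`, `D ≡ 1 mod 4`: at most `2 ^ t` classes of order
dividing two, `t` the number of prime divisors of `D`.
-/

namespace Vale.Agent.P036.TW.T10

open NumberField Ideal

variable {K : Type*} [Field K] [NumberField K]

/-- A field of degree two over `ℚ` has an involution with rational fixed elements. -/
theorem exists_inv (hrank : Module.finrank ℚ K = 2) :
    ∃ S : Inv K, ∃ x : K, S.σ x ≠ x := by
  have : Algebra.IsQuadraticExtension ℚ K := ⟨hrank⟩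
  have : IsGalois ℚ K := inferInstance
  have hcard : Nat.card (K ≃ₐ[ℚ] K) = 2 := by
    rw [IsGalois.card_aut_eq_finrank, hrank]
  obtain ⟨σ, hσ, huniq⟩ := (Nat.card_eq_two_iff' (1 : K ≃ₐ[ℚ] K)).1 hcard
  simp only at huniq hσ
  have hall : ∀ τ : K ≃ₐ[ℚ] K, τ = 1 ∨ τ = σ := by
    intro τ
    by_cases h : τ = 1
    · exact Or.inl h
    · exact Or.inr (huniq τ h)
  have hsq : σ * σ = 1 := by
    rcases hall (σ * σ) with h | h
    · exact h
    · exact absurd (mul_eq_right.1 h) hσ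
  refine ⟨⟨σ.toRingEquiv, fun x => ?_, fun x hx => ?_⟩, ?_⟩
  · exact congrArg (fun τ : K ≃ₐ[ℚ] K => τ x) hsq
  · have h1 : x ∈ Set.range (algebraMap ℚ K) := by
      rw [IsGalois.mem_range_algebraMap_iff_fixed]
      intro τ
      rcases hall τ with rfl | rfl
      · rfl
      · exact hx
    obtain ⟨q, hq⟩ := h1
    exact ⟨q, by rw [← hq]; simp⟩
  · by_contra hcon
    push Not at hcon
    exact hσ (AlgEquiv.ext hcon)

/-- **2-torsion of the class group of an imaginary quadratic field.** -/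
theorem card_two_torsion_le (hrank : Module.finrank ℚ K = 2) (D : ℤ) (hD : D < 0)
    (hD4 : D % 4 = 1) (δ : K) (hδ : δ ^ 2 = (D : K)) (T : Finset ℕ)
    (hT : ∀ p : ℕ, p.Prime → (p : ℤ) ∣ D → p ∈ T) :
    {c : ClassGroup (𝓞 K) | c ^ 2 = 1}.ncard ≤ 2 ^ T.card := by
  obtain ⟨S, x, hx⟩ := exists_inv (K := K) hrank
  have hδ0 : δ ≠ 0 := by
    rintro rfl
    have : (D : K) = 0 := by rw [← hδ]; ring
    have : D = 0 := by exact_mod_cast this
    omega
  -- `δ` is not fixed
  have hσδ : S.σ δ = -δ := by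
    have h1 : S.σ δ ^ 2 = δ ^ 2 := by rw [← map_pow, hδ, map_intCast]
    rcases sq_eq_sq_iff_eq_or_eq_neg.1 h1 with h | h
    · exfalso
      obtain ⟨q, hq⟩ := S.fix δ h
      have h2 : (q : K) ^ 2 = ((D : ℚ) : K) := by rw [← hq, hδ]; simp
      have h3 : q ^ 2 = (D : ℚ) := by exact_mod_cast h2
      have h4 : (D : ℚ) < 0 := by exact_mod_cast hD
      nlinarith [sq_nonneg q]
    · exact h
  -- representation of elements
  have hrep : ∀ z : K, ∃ a b : ℚ, z = a + b * δ := by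
    intro z
    obtain ⟨a, ha⟩ := S.fix (z + S.σ z) (by rw [map_add, S.invol, add_comm])
    obtain ⟨b, hb⟩ := S.fix ((z - S.σ z) / δ) (by
      rw [map_div₀, map_sub, S.invol, hσδ, div_neg, ← neg_div, neg_sub])
    refine ⟨a / 2, b / 2, ?_⟩
    have h2 : z - S.σ z = b * δ := by
      rw [← hb]; field_simp
    push_cast
    linear_combination (ha + h2) / 2
  have hpos : ∀ z : 𝓞 K, ∀ n : ℤ, z * S.s z = (n : 𝓞 K) → 0 ≤ n := by
    intro z n hn
    obtain ⟨a, b, hab⟩ := hrep (z : K)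
    have h1 : (z : K) * S.σ (z : K) = (n : K) := by
      have := congrArg (algebraMap (𝓞 K) K) hn
      simpa using this
    rw [hab, map_add, map_mul, hσδ, map_ratCast, map_ratCast] at h1
    have h2 : (((a ^ 2 - D * b ^ 2 : ℚ)) : K) = ((n : ℚ) : K) := by
      push_cast
      rw [← h1]
      linear_combination (-(b : K) ^ 2) * hδ * (-1)
    have h3 : a ^ 2 - D * b ^ 2 = (n : ℚ) := by exact_mod_cast h2
    have h4 : (D : ℚ) < 0 := by exact_mod_cast hD
    have h5 : (0 : ℚ) ≤ n := by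
      rw [← h3]
      nlinarith [sq_nonneg a, sq_nonneg b]
    exact_mod_cast h5
  -- integrality of `θ = (1 + δ) / 2`
  obtain ⟨k, hk⟩ : ∃ k : ℤ, D = 1 + 4 * k := ⟨D / 4, by omega⟩
  have hθint : IsIntegral ℤ ((1 + δ) / 2) := by
    refine ⟨Polynomial.X ^ 2 - Polynomial.X - Polynomial.C k, ?_, ?_⟩
    · monicity!
    · rw [Polynomial.eval₂_sub, Polynomial.eval₂_sub,
        Polynomial.eval₂_pow, Polynomial.eval₂_X, Polynomial.eval₂_C, eq_intCast]
      have : (D : K) = 1 + 4 * (k : K) := by rw [hk]; push_cast; ring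
      rw [this] at hδ
      linear_combination hδ / 4
  obtain ⟨θ, hθ⟩ : ∃ y : 𝓞 K, (y : K) = (1 + δ) / 2 := ⟨⟨_, hθint⟩, rfl⟩
  have hδint : IsIntegral ℤ δ := by
    refine ⟨Polynomial.X ^ 2 - Polynomial.C D, ?_, ?_⟩
    · monicity!
    · rw [Polynomial.eval₂_sub, Polynomial.eval₂_pow, Polynomial.eval₂_X, Polynomial.eval₂_C,
        eq_intCast, hδ, sub_self]
  obtain ⟨δ', hδ'⟩ : ∃ y : 𝓞 K, (y : K) = δ := ⟨⟨_, hδint⟩, rfl⟩
  refine card_two_torsion_le_aux S hrank D δ' θ ?_ ?_ hpos T hT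
  · apply RingOfIntegers.ext
    have : ((δ' ^ 2 : 𝓞 K) : K) = (δ' : K) ^ 2 := by simp
    rw [this, hδ', hδ]
    simp
  · apply RingOfIntegers.ext
    have : ((θ - S.s θ : 𝓞 K) : K) = (θ : K) - S.σ (θ : K) := by simp
    rw [this, hδ', hθ, map_div₀, map_add, map_one, hσδ, map_ofNat]
    ring

/-- For a finite commutative group, the index of the squares is the number of elements of order
dividing two. -/
theorem card_sq_quotient {A : Type*} [CommGroup A] [Finite A] :
    (powMonoidHom 2 : A →* A).range.index = {c : A | c ^ 2 = 1}.ncard := by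
  have h1 : (powMonoidHom 2 : A →* A).range.index * Nat.card (powMonoidHom 2 : A →* A).range
      = Nat.card A := Subgroup.index_mul_card _
  have h2 : (powMonoidHom 2 : A →* A).ker.index * Nat.card (powMonoidHom 2 : A →* A).ker
      = Nat.card A := Subgroup.index_mul_card _
  have h3 : (powMonoidHom 2 : A →* A).ker.index = Nat.card (powMonoidHom 2 : A →* A).range :=
    Subgroup.index_ker _
  have h4 : Nat.card (powMonoidHom 2 : A →* A).ker = {c : A | c ^ 2 = 1}.ncard := by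
    rw [← Nat.card_coe_set_eq]
    exact Nat.card_congr (Equiv.subtypeEquivRight fun c => by
      rw [MonoidHom.mem_ker]; rfl)
  have h5 : 0 < Nat.card (powMonoidHom 2 : A →* A).range := Nat.card_pos
  rw [← h4]
  rw [h3, ← h1, mul_comm] at h2
  exact (Nat.eq_of_mul_eq_mul_right h5 h2).symm

/-- **T10b**: `|Cl_K / Cl_K ^ 2| ≤ 2 ^ t`. -/
theorem index_squares_le (hrank : Module.finrank ℚ K = 2) (D : ℤ) (hD : D < 0)
    (hD4 : D % 4 = 1) (δ : K) (hδ : δ ^ 2 = (D : K)) (T : Finset ℕ)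
    (hT : ∀ p : ℕ, p.Prime → (p : ℤ) ∣ D → p ∈ T) :
    (powMonoidHom 2 : ClassGroup (𝓞 K) →* ClassGroup (𝓞 K)).range.index ≤ 2 ^ T.card := by
  rw [card_sq_quotient]
  exact card_two_torsion_le hrank D hD hD4 δ hδ T hT

end Vale.Agent.P036.TW.T10
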