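import Vale.Agent.P036.TW.Spec
import Vale.Agent.P036.TW.T10d

/-!
# T10b: `T10bStmt` holds
-/

namespace Vale.Agent.P036.TW

open NumberField

theorem disc_neg {P0 T : Finset ℕ} (h : Data P0 T) : disc T < 0 := by
  rw [disc, neg_lt_zero]
  exact Finset.prod_pos fun p hp => by exact_mod_cast (h.prime p hp).pos

theorem disc_mod_four {P0 T : Finset ℕ} (h : Data P0 T) : disc T % 4 = 1 := by
  have h1 : ∀ A : Finset ℕ, A ⊆ T → (∏ p ∈ A, (p : ZMod 4)) = (-1) ^ A.card := by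
    intro A hA
    rw [← Finset.prod_const]
    refine Finset.prod_congr rfl fun p hp => ?_
    obtain ⟨k, hk⟩ := (Dvd.intro _ rfl : 4 ∣ 4 * ∏ l ∈ P0, l).trans (h.cong p (hA hp))
    have : ((p + 1 : ℕ) : ZMod 4) = ((4 * k : ℕ) : ZMod 4) := by rw [hk]
    push_cast at this
    have h4 : (4 : ZMod 4) = 0 := rfl
    rw [h4, zero_mul] at this
    exact eq_neg_of_add_eq_zero_left this
  have h2 : ((disc T : ℤ) : ZMod 4) = 1 := by
    rw [disc]
    push_cast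
    rw [h1 T (Finset.Subset.refl T), h.odd.neg_one_pow, neg_neg]
  have h3 : ((disc T : ℤ) : ZMod 4) = ((1 : ℤ) : ZMod 4) := by rw [h2]; simp
  have h4 := (ZMod.intCast_eq_intCast_iff (disc T) 1 4).1 h3
  exact h4

theorem mem_of_dvd_disc {P0 T : Finset ℕ} (h : Data P0 T) (p : ℕ) (hp : p.Prime)
    (hd : (p : ℤ) ∣ disc T) : p ∈ T := by
  rw [disc, dvd_neg] at hd
  have hd1 : (p : ℤ) ∣ ((∏ q ∈ T, q : ℕ) : ℤ) := by push_cast; exact hd
  have hd' : p ∣ ∏ q ∈ T, q := Int.natCast_dvd_natCast.1 hd1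
  obtain ⟨q, hq, hpq⟩ := (Prime.dvd_finsetProd_iff hp.prime _).1 hd'
  rwa [(Nat.prime_dvd_prime_iff_eq hp (h.prime q hq)).1 hpq]

theorem T10bStmt_holds : T10bStmt := by
  intro P0 T hT K _ _ hrank hδ
  obtain ⟨δ, hδ⟩ := hδ
  exact T10.index_squares_le hrank (disc T) (disc_neg hT) (disc_mod_four hT) δ hδ T
    (mem_of_dvd_disc hT)

end Vale.Agent.P036.TW
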