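import Vale.Agent.P036.TW.T10b

/-!
# T10c: the 2-torsion of the class group of an imaginary quadratic field (end)
-/

namespace Vale.Agent.P036.TW.T10

open NumberField Ideal

variable {K : Type*} [Field K] [NumberField K]

open Classical in
/-- class of the ramified prime above `p` -/
noncomputable def rc (K : Type*) [Field K] [NumberField K] (p : ℕ) : ClassGroup (𝓞 K) :=
  if h : ∃ P : Ideal (𝓞 K), P.IsMaximal ∧ P ≠ ⊥ ∧ P ^ 2 = span {(p : 𝓞 K)} then cl h.choose else 1

theorem rc_sq (p : ℕ) : rc K p ^ 2 = 1 := by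
  rw [rc]
  split_ifs with h
  · rw [pow_two, ← cl_mul h.choose_spec.2.1 h.choose_spec.2.1, ← pow_two, h.choose_spec.2.2,
      cl_span]
  · simp

theorem cl_eq_rc {P : Ideal (𝓞 K)} (hP : P.IsMaximal) (hP0 : P ≠ ⊥) (p : ℕ)
    (h : P ^ 2 = span {(p : 𝓞 K)}) : cl P = rc K p := by
  have hex : ∃ P : Ideal (𝓞 K), P.IsMaximal ∧ P ≠ ⊥ ∧ P ^ 2 = span {(p : 𝓞 K)} := ⟨P, hP, hP0, h⟩
  rw [rc, dif_pos hex]
  obtain ⟨h1, h2, h3⟩ := hex.choose_spec
  set Q := hex.choose with hQ
  have : P ∣ Q ^ 2 := by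
    rw [h3, ← h]; exact dvd_pow_self P two_ne_zero
  have hPQ : P ∣ Q := by
    have hPp : Prime P := Ideal.prime_of_isPrime hP0 hP.isPrime
    exact hPp.dvd_of_dvd_pow this
  rw [Ideal.dvd_iff_le] at hPQ
  rw [h1.eq_of_le hP.ne_top hPQ]

open Classical in
/-- products of classes of ramified primes -/
def RSet (K : Type*) [Field K] [NumberField K] (T : Finset ℕ) : Set (ClassGroup (𝓞 K)) :=
  {x | ∃ A ⊆ T, x = ∏ p ∈ A, rc K p}

theorem one_mem_RSet (T : Finset ℕ) : 1 ∈ RSet K T := ⟨∅, by simp, by simp⟩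

theorem mul_mem_RSet (T : Finset ℕ) (q : ℕ) (hq : q ∈ T) {x : ClassGroup (𝓞 K)}
    (hx : x ∈ RSet K T) : rc K q * x ∈ RSet K T := by
  classical
  obtain ⟨A, hA, rfl⟩ := hx
  by_cases hqA : q ∈ A
  · refine ⟨A.erase q, (Finset.erase_subset _ _).trans hA, ?_⟩
    rw [← Finset.mul_prod_erase A _ hqA, ← mul_assoc, ← pow_two, rc_sq, one_mul]
  · refine ⟨insert q A, Finset.insert_subset hq hA, ?_⟩
    rw [Finset.prod_insert hqA]

theorem card_RSet (T : Finset ℕ) : (RSet K T).ncard ≤ 2 ^ T.card := by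
  classical
  have : RSet K T ⊆ ((T.powerset.image fun A => ∏ p ∈ A, rc K p : Finset _) : Set _) := by
    rintro x ⟨A, hA, rfl⟩
    rw [Finset.coe_image]
    exact ⟨A, by simpa using hA, rfl⟩
  calc (RSet K T).ncard ≤ ((T.powerset.image fun A => ∏ p ∈ A, rc K p : Finset _) : Set _).ncard :=
        Set.ncard_le_ncard this (Finset.finite_toSet _)
    _ = (T.powerset.image fun A => ∏ p ∈ A, rc K p : Finset _).card := Set.ncard_coe_finset _
    _ ≤ T.powerset.card := Finset.card_image_le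
    _ = 2 ^ T.card := Finset.card_powerset _

theorem finite_RSet (T : Finset ℕ) : (RSet K T).Finite := Set.toFinite _

/-- invariant ideals are products of rational numbers and ramified primes, in the class group -/
theorem inv_ideal (S : Inv K) (hrank : Module.finrank ℚ K = 2) (D : ℤ) (δ θ : 𝓞 K)
    (hδ : δ ^ 2 = (D : 𝓞 K)) (hθ : θ - S.s θ = δ) (T : Finset ℕ)
    (hT : ∀ p : ℕ, p.Prime → (p : ℤ) ∣ D → p ∈ T) (n : ℕ) :
    ∀ J : Ideal (𝓞 K), J ≠ ⊥ → absNorm J ≤ n → J.map S.s = J → cl J ∈ RSet K T := by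
  induction n with
  | zero =>
    intro J hJ hn
    exact absurd (absNorm_eq_zero_iff.1 (Nat.le_zero.1 hn)) hJ
  | succ n ih =>
    intro J hJ hn hinv
    by_cases hJt : J = ⊤
    · have : cl J = 1 := by
        rw [hJt, ← Ideal.span_singleton_one]; exact cl_span 1
      rw [this]; exact one_mem_RSet T
    obtain ⟨P, hP, hJP⟩ := Ideal.exists_le_maximal J hJt
    have hP0 : P ≠ ⊥ := fun h => hJ (le_bot_iff.1 (h ▸ hJP))
    obtain ⟨J1, hJ1⟩ : P ∣ J := Ideal.dvd_iff_le.2 hJP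
    have hJ10 : J1 ≠ ⊥ := by
      rintro rfl
      exact hJ (by rw [hJ1]; simp)
    have hPge : ∀ Q : Ideal (𝓞 K), Q.IsMaximal → Q ≠ ⊥ → 2 ≤ absNorm Q := by
      intro Q hQ hQ0
      have h0 : absNorm Q ≠ 0 := absNorm_eq_zero_iff.not.2 hQ0
      have h1 : absNorm Q ≠ 1 := absNorm_eq_one_iff.not.2 hQ.ne_top
      omega
    by_cases hPi : P.map S.s = P
    · have hJ1i : J1.map S.s = J1 := by
        have := hinv
        rw [hJ1, Ideal.map_mul, hPi] at this
        exact mul_left_cancel_ideal hP0 this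
      have hJ1n : absNorm J1 ≤ n := by
        have h2 : absNorm J = absNorm P * absNorm J1 := by rw [hJ1, map_mul]
        have h3 := hPge P hP hP0
        have h4 : 0 < absNorm J1 := Nat.pos_of_ne_zero (absNorm_eq_zero_iff.not.2 hJ10)
        nlinarith
      have h5 := ih J1 hJ10 hJ1n hJ1i
      rw [hJ1, cl_mul hP0 hJ10]
      rcases inv_prime S hrank D δ θ hδ hθ hP hP0 hPi with h | ⟨p, hp, hpD, hpP⟩
      · rw [h, one_mul]; exact h5
      · rw [cl_eq_rc hP hP0 p hpP]
        exact mul_mem_RSet T p (hT p hp hpD) h5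
    · set P' := P.map S.s with hP'
      have hP'm : P'.IsMaximal := map_s_max S hP
      have hP'0 : P' ≠ ⊥ := map_s_ne_bot S hP0
      have hP'J1 : P' ∣ J1 := by
        have h1 : P' ∣ P * J1 := by
          rw [← hJ1, ← hinv, hJ1, Ideal.map_mul]
          exact dvd_mul_right _ _
        have hprime : Prime P' := Ideal.prime_of_isPrime hP'0 hP'm.isPrime
        rcases hprime.dvd_or_dvd h1 with h | h
        · exfalso
          rw [Ideal.dvd_iff_le] at h
          exact hPi (hP.eq_of_le hP'm.ne_top h).symm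
        · exact h
      obtain ⟨J2, hJ2⟩ := hP'J1
      have hJ20 : J2 ≠ ⊥ := by
        rintro rfl
        exact hJ10 (by rw [hJ2]; simp)
      obtain ⟨g, hg, hPg⟩ := S.exists_norm_ideal P hP0
      have hJeq : J = span {(g : 𝓞 K)} * J2 := by
        rw [hJ1, hJ2, ← mul_assoc, hPg]
      have hg0 : span {(g : 𝓞 K)} ≠ ⊥ := by
        rw [← hPg]; exact mul_ne_zero hP0 hP'0
      have hJ2i : J2.map S.s = J2 := by
        have := hinv
        rw [hJeq, Ideal.map_mul, Ideal.map_span, Set.image_singleton, map_natCast] at this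
        exact mul_left_cancel_ideal hg0 this
      have hJ2n : absNorm J2 ≤ n := by
        have h2 : absNorm J = absNorm P * (absNorm P' * absNorm J2) := by
          rw [hJ1, hJ2, map_mul, map_mul]
        have h3 := hPge P hP hP0
        have h3' := hPge P' hP'm hP'0
        have h4 : 0 < absNorm J2 := Nat.pos_of_ne_zero (absNorm_eq_zero_iff.not.2 hJ20)
        have h6 : 2 * absNorm J2 ≤ absNorm P' * absNorm J2 := Nat.mul_le_mul_right _ h3'
        have h7 : 2 * (2 * absNorm J2) ≤ absNorm P * (absNorm P' * absNorm J2) :=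
          Nat.mul_le_mul h3 h6
        omega
      have h5 := ih J2 hJ20 hJ2n hJ2i
      rw [hJeq, cl_mul hg0 hJ20, cl_span, one_mul]
      exact h5

/-- every class of order two is represented by an invariant ideal -/
theorem exists_inv_rep (S : Inv K)
    (hpos : ∀ z : 𝓞 K, ∀ n : ℤ, z * S.s z = (n : 𝓞 K) → 0 ≤ n)
    (c : ClassGroup (𝓞 K)) (hc : c ^ 2 = 1) :
    ∃ J : Ideal (𝓞 K), J ≠ ⊥ ∧ cl J = c ∧ J.map S.s = J := by
  obtain ⟨J0, hJ0, rfl⟩ := exists_cl c
  rw [pow_two, ← cl_mul hJ0 hJ0] at hc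
  obtain ⟨z, hz⟩ := cl_eq_one (mul_ne_zero hJ0 hJ0) hc
  obtain ⟨g, hg, hJg⟩ := S.exists_norm_ideal J0 hJ0
  have hg0 : (g : 𝓞 K) ≠ 0 := by exact_mod_cast hg.ne'
  have hz0 : z ≠ 0 := by
    rintro rfl
    apply mul_ne_zero hJ0 hJ0
    rw [hz]; simp
  set J0' := J0.map S.s with hJ0'
  -- (z) J0' = (g) J0
  have h1 : span {z} * J0' = span {(g : 𝓞 K)} * J0 := by
    rw [← hz, mul_assoc, hJg, mul_comm]
  have h2 : span {S.s z} * J0 = span {(g : 𝓞 K)} * J0' := by
    have := congrArg (Ideal.map S.s) h1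
    rwa [Ideal.map_mul, Ideal.map_mul, hJ0', map_s_s, Ideal.map_span, Set.image_singleton,
      Ideal.map_span, Set.image_singleton, map_natCast] at this
  have h3 : span {z * S.s z} * J0 = span {(g : 𝓞 K) * g} * J0 := by
    rw [← span_singleton_mul_span_singleton, ← span_singleton_mul_span_singleton, mul_assoc, h2,
      ← mul_assoc, mul_comm (span {z}), mul_assoc, h1, ← mul_assoc]
  have h4 : span {z * S.s z} = span {(g : 𝓞 K) * g} := mul_right_cancel₀ hJ0 h3
  obtain ⟨n, hn⟩ := S.exists_norm z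
  have hn0 := hpos z n hn
  have h5 : z * S.s z = (g : 𝓞 K) * g := by
    rw [hn] at h4 ⊢
    have h6 : absNorm (span {(n : 𝓞 K)}) = absNorm (span {((g * g : ℕ) : 𝓞 K)}) := by
      rw [h4]; push_cast; rfl
    obtain ⟨m, rfl⟩ := Int.eq_ofNat_of_zero_le hn0
    rw [Int.cast_natCast, absNorm_span_natCast, absNorm_span_natCast] at h6
    have hr : Module.finrank ℤ (𝓞 K) ≠ 0 := by
      rw [RingOfIntegers.rank]; exact Module.finrank_pos.ne'
    have h7 : m = g * g := Nat.pow_left_injective (n := _) hr h6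
    rw [Int.cast_natCast, h7]; push_cast; rfl
  by_cases hy : (g : 𝓞 K) + S.s z = 0
  · refine ⟨J0, hJ0, rfl, ?_⟩
    have h6 : S.s z = -(g : 𝓞 K) := by linear_combination hy
    rw [h6, span_singleton_neg] at h2
    have hg1 : span {(g : 𝓞 K)} ≠ ⊥ := by simpa using hg0
    exact (mul_left_cancel_ideal hg1 h2).symm
  · have hy' : span {(g : 𝓞 K) + S.s z} ≠ ⊥ := by simpa using hy
    refine ⟨span {(g : 𝓞 K) + S.s z} * J0, mul_ne_zero hy' hJ0, ?_, ?_⟩
    · rw [cl_mul hy' hJ0, cl_span, one_mul]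
    · have hg1 : span {(g : 𝓞 K)} ≠ ⊥ := by simpa using hg0
      apply mul_left_cancel_ideal hg1
      rw [Ideal.map_mul, Ideal.map_span, Set.image_singleton, map_add, map_natCast, Inv.s_s,
        ← hJ0', ← mul_assoc, span_singleton_mul_span_singleton]
      have h6 : (g : 𝓞 K) * (g + z) = (g + S.s z) * z := by linear_combination -h5
      rw [h6, ← span_singleton_mul_span_singleton, mul_assoc, h1, ← mul_assoc, ← mul_assoc,
        mul_comm (span {(g : 𝓞 K) + S.s z})]

/-- **2-torsion bound**, abstract form. -/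
theorem card_two_torsion_le_aux (S : Inv K) (hrank : Module.finrank ℚ K = 2) (D : ℤ) (δ θ : 𝓞 K)
    (hδ : δ ^ 2 = (D : 𝓞 K)) (hθ : θ - S.s θ = δ)
    (hpos : ∀ z : 𝓞 K, ∀ n : ℤ, z * S.s z = (n : 𝓞 K) → 0 ≤ n) (T : Finset ℕ)
    (hT : ∀ p : ℕ, p.Prime → (p : ℤ) ∣ D → p ∈ T) :
    {c : ClassGroup (𝓞 K) | c ^ 2 = 1}.ncard ≤ 2 ^ T.card := by
  refine le_trans (Set.ncard_le_ncard ?_ (finite_RSet T)) (card_RSet (K := K) T)
  intro c hc
  obtain ⟨J, hJ, rfl, hJi⟩ := exists_inv_rep S hpos c hc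
  exact inv_ideal S hrank D δ θ hδ hθ T hT _ J hJ le_rfl hJi

end Vale.Agent.P036.TW.T10
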