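import Mathlib

namespace Vale.Agent.P036.TW.T11a
open NumberField IntermediateField Module Polynomial

/-- Trivial inertia at every maximal ideal implies that the relative different is trivial. -/
theorem differentIdeal_eq_top {K L : Type*} [Field K] [NumberField K] [Field L] [NumberField L]
    [Algebra K L] [IsGalois K L]
    (h : ∀ P : Ideal (𝓞 L), P.IsMaximal → ∀ g : L ≃ₐ[K] L,
      (∀ x : 𝓞 L, g • x - x ∈ P) → g = 1) :
    differentIdeal (𝓞 K) (𝓞 L) = ⊤ := by
  by_contra hne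
  obtain ⟨P, hP, hle⟩ := Ideal.exists_le_maximal _ hne
  have hdvd : P ∣ differentIdeal (𝓞 K) (𝓞 L) := Ideal.dvd_iff_le.mpr hle
  have : P.IsPrime := hP.isPrime
  rw [dvd_differentIdeal_iff] at hdvd
  apply hdvd
  have hin : Nat.card (P.toAddSubgroup.inertia (L ≃ₐ[K] L)) = 1 := by
    rw [Nat.card_eq_one_iff_unique]
    refine ⟨⟨fun a b => ?_⟩, ⟨1⟩⟩
    have ha := h P hP a.1 a.2
    have hb := h P hP b.1 b.2
    exact Subtype.ext (ha.trans hb.symm)
  have key := Ideal.card_inertia_eq_ramificationIdxIn (G := L ≃ₐ[K] L) (P.under (𝓞 K)) P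
  rw [Ideal.ramificationIdxIn_eq_ramificationIdx _ P (L ≃ₐ[K] L)] at key
  have h1 : Ideal.ramificationIdx P (𝓞 K) = 1 := by rw [← key]; exact hin
  exact Ideal.ramificationIdx_eq_one_iff.mp h1

theorem natAbs_discr_eq_pow {K L : Type*} [Field K] [NumberField K] [Field L] [NumberField L]
    [Algebra K L] [IsGalois K L]
    (h : ∀ P : Ideal (𝓞 L), P.IsMaximal → ∀ g : L ≃ₐ[K] L,
      (∀ x : 𝓞 L, g • x - x ∈ P) → g = 1) :
    (discr L).natAbs = (discr K).natAbs ^ Module.finrank K L := by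
  have := natAbs_discr_eq_absNorm_differentIdeal_mul_natAbs_discr_pow K (𝓞 K) L (𝓞 L)
  rw [differentIdeal_eq_top h, Ideal.absNorm_top, one_mul] at this
  exact this

/-- `|disc F|^[L:F] ≤ |disc L|` for any extension of number fields -/
theorem natAbs_discr_pow_le {K L : Type*} [Field K] [NumberField K] [Field L] [NumberField L]
    [Algebra K L] :
    (discr K).natAbs ^ Module.finrank K L ≤ (discr L).natAbs := by
  have := natAbs_discr_eq_absNorm_differentIdeal_mul_natAbs_discr_pow K (𝓞 K) L (𝓞 L)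
  rw [this]
  refine Nat.le_mul_of_pos_left _ (Nat.pos_of_ne_zero fun h0 => ?_)
  rw [Ideal.absNorm_eq_zero_iff] at h0
  exact differentIdeal_ne_bot h0

theorem natAbs_discr_quadratic_le {K : Type*} [Field K] [NumberField K]
    (hK : Module.finrank ℚ K = 2) (δ : K) (D : ℤ) (hδ : δ ^ 2 = (D : K))
    (hirr : ∀ q : ℚ, algebraMap ℚ K q ≠ δ) :
    (discr K).natAbs ≤ 4 * D.natAbs := by
  have hint : IsIntegral ℤ δ := by
    refine ⟨X ^ 2 - C D, monic_X_pow_sub_C D two_ne_zero, ?_⟩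
    rw [eval₂_sub, eval₂_pow, eval₂_X, eval₂_C, hδ]
    simp
  let x : 𝓞 K := ⟨δ, hint⟩
  have hx : algebraMap (𝓞 K) K x = δ := rfl
  have hx2 : x ^ 2 = (D : 𝓞 K) := by
    apply FaithfulSMul.algebraMap_injective (𝓞 K) K
    rw [map_pow, hx, hδ, map_intCast]
  have hintQ : IsIntegral ℚ δ := hint.tower_top
  have hdeg : (minpoly ℚ δ).natDegree = 2 := by
    have h1 : (minpoly ℚ δ).natDegree ∣ 2 := by
      have := minpoly.degree_dvd hintQ
      rwa [hK] at this
    have h2 : (minpoly ℚ δ).natDegree ≠ 1 := by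
      intro h
      obtain ⟨q, hq⟩ := minpoly.natDegree_eq_one_iff.mp h
      exact hirr q hq
    have := (Nat.dvd_prime Nat.prime_two).mp h1
    tauto
  have hadj : ℚ⟮δ⟯ = ⊤ := by
    apply IntermediateField.eq_of_le_of_finrank_eq le_top
    rw [IntermediateField.adjoin.finrank hintQ, hdeg, IntermediateField.finrank_top', hK]
  have hadj' : Algebra.adjoin ℚ {algebraMap (𝓞 K) K x} = ⊤ := by
    rw [hx, ← IntermediateField.adjoin_simple_toSubalgebra_of_isAlgebraic hintQ.isAlgebraic, hadj,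
      IntermediateField.top_toSubalgebra]
  have hmem := aeval_derivative_mem_differentIdeal ℤ ℚ K x hadj'
  have hmin : minpoly ℤ x = X ^ 2 - C D := by
    have hdvd : minpoly ℤ x ∣ X ^ 2 - C D := by
      apply minpoly.isIntegrallyClosed_dvd (RingOfIntegers.isIntegral x)
      simp [hx2]
    refine (Polynomial.eq_of_monic_of_dvd_of_natDegree_le
      (minpoly.monic (RingOfIntegers.isIntegral x)) (monic_X_pow_sub_C D two_ne_zero) hdvd ?_).symm
    rw [natDegree_X_pow_sub_C]
    have : minpoly ℚ δ = (minpoly ℤ x).map (algebraMap ℤ ℚ) :=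
      minpoly.isIntegrallyClosed_eq_field_fractions ℚ K (RingOfIntegers.isIntegral x)
    rw [this, (minpoly.monic (RingOfIntegers.isIntegral x)).natDegree_map] at hdeg
    exact hdeg.ge
  rw [hmin] at hmem
  have hmem2 : (2 * x : 𝓞 K) ∈ differentIdeal ℤ (𝓞 K) := by
    have h2 : aeval x (derivative (X ^ 2 - C D : ℤ[X])) = 2 * x := by
      simp
      left; exact map_ofNat _ 2
    rwa [h2] at hmem
  have hdvd2 : (differentIdeal ℤ (𝓞 K)).absNorm ∣ (Ideal.span {(2 * x : 𝓞 K)}).absNorm :=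
    Ideal.absNorm_dvd_absNorm_of_le (by rwa [Ideal.span_singleton_le_iff_mem])
  rw [absNorm_differentIdeal K, Ideal.absNorm_span_singleton] at hdvd2
  have hN : (Algebra.norm ℤ (2 * x)).natAbs = 4 * D.natAbs := by
    have h1 : (Algebra.norm ℤ (2 * x)) ^ 2 = (4 * D) ^ 2 := by
      rw [← map_pow, mul_pow, hx2]
      have : (2 : 𝓞 K) ^ 2 * (D : 𝓞 K) = algebraMap ℤ (𝓞 K) (4 * D) := by
        push_cast; norm_num
      rw [this, Algebra.norm_algebraMap, RingOfIntegers.rank, hK]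
    have h2 := congrArg Int.natAbs h1
    rw [Int.natAbs_pow, Int.natAbs_pow] at h2
    have h3 := Nat.pow_left_injective (n := 2) two_ne_zero h2
    simpa [Int.natAbs_mul] using h3
  rw [hN] at hdvd2
  have hD : D.natAbs ≠ 0 := by
    intro h0
    have hD0 : D = 0 := Int.natAbs_eq_zero.mp h0
    apply hirr 0
    have : δ ^ 2 = 0 := by rw [hδ, hD0]; simp
    rw [map_zero, eq_comm]
    exact pow_eq_zero_iff two_ne_zero |>.mp this
  exact Nat.le_of_dvd (by omega) hdvd2


/-- `L/ℚ(δ)` unramified (trivial inertia), `δ^2 = D`: the discriminant bound. -/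
theorem natAbs_discr_sq_le (L : Type*) [Field L] [NumberField L] [IsGalois ℚ L] (D : ℤ)
    (δ : L) (hδ : δ ^ 2 = (D : L)) (hirr : ∀ q : ℚ, algebraMap ℚ L q ≠ δ)
    (hin : ∀ P : Ideal (𝓞 L), P.IsMaximal → ∀ g : L ≃ₐ[ℚ] L, g δ = δ →
      (∀ x : 𝓞 L, g • x - x ∈ P) → g = 1) :
    (discr L).natAbs ^ 2 ≤ (4 * D.natAbs) ^ Module.finrank ℚ L := by
  have hintQ : IsIntegral ℚ δ := Algebra.IsIntegral.isIntegral δ
  let K : IntermediateField ℚ L := ℚ⟮δ⟯
  let δK : K := ⟨δ, IntermediateField.mem_adjoin_simple_self ℚ δ⟩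
  have hδK : δK ^ 2 = (D : K) := by
    apply Subtype.ext; simp [δK, hδ]
  have hirrK : ∀ q : ℚ, algebraMap ℚ K q ≠ δK := by
    intro q hq
    exact hirr q (congrArg Subtype.val hq)
  have hdeg : (minpoly ℚ δ).natDegree = 2 := by
    have hdvd : minpoly ℚ δ ∣ X ^ 2 - C (D : ℚ) := by
      apply minpoly.dvd
      simp [hδ]
    have h1 : (minpoly ℚ δ).natDegree ≤ 2 := by
      have := Polynomial.natDegree_le_of_dvd hdvd (X_pow_sub_C_ne_zero two_pos _)
      rwa [natDegree_X_pow_sub_C] at this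
    have h2 : (minpoly ℚ δ).natDegree ≠ 1 := by
      intro h
      obtain ⟨q, hq⟩ := minpoly.natDegree_eq_one_iff.mp h
      exact hirr q hq
    have h3 := minpoly.natDegree_pos hintQ
    omega
  have hK : Module.finrank ℚ K = 2 := by
    rw [IntermediateField.adjoin.finrank hintQ, hdeg]
  have h1 : (discr K).natAbs ≤ 4 * D.natAbs := natAbs_discr_quadratic_le hK δK D hδK hirrK
  have h2 : (discr L).natAbs = (discr K).natAbs ^ Module.finrank K L := by
    apply natAbs_discr_eq_pow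
    intro P hP g hg
    have h3 : g.restrictScalars ℚ = 1 := by
      apply hin P hP
      · exact g.commutes δK
      · intro x
        exact hg x
    ext x
    exact congrArg (fun f : L ≃ₐ[ℚ] L => f x) h3
  have h3 : Module.finrank ℚ K * Module.finrank K L = Module.finrank ℚ L :=
    Module.finrank_mul_finrank ℚ K L
  rw [h2, ← pow_mul, mul_comm _ 2, ← h3, hK]
  exact Nat.pow_le_pow_left h1 _

/-- the fixed field of complex conjugation -/
theorem exists_real_subfield (L : Type*) [Field L] [NumberField L] [IsGalois ℚ L] (D : ℤ)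
    (hD : D < 0) (δ : L) (hδ : δ ^ 2 = (D : L)) :
    ∃ F : IntermediateField ℚ L, 2 * Module.finrank ℚ F = Module.finrank ℚ L ∧
      Nonempty (F →+* ℝ) ∧ (discr F).natAbs ^ 2 ≤ (discr L).natAbs := by
  obtain ⟨φ⟩ : Nonempty (L →+* ℂ) := inferInstance
  obtain ⟨σ, hσ⟩ := ComplexEmbedding.exists_comp_symm_eq_of_comp_eq (k := ℚ) φ
    (ComplexEmbedding.conjugate φ) (by ext; simp)
  let τ : L ≃ₐ[ℚ] L := σ.symm
  have hτ : ∀ x, φ (τ x) = starRingEnd ℂ (φ x) := fun x => congrArg (fun f : L →+* ℂ => f x) hσ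
  have hτ2 : τ * τ = 1 := by
    ext x
    apply φ.injective
    change φ (τ (τ x)) = φ x
    rw [hτ, hτ, Complex.conj_conj]
  have hτ1 : τ ≠ 1 := by
    intro h
    have h1 : starRingEnd ℂ (φ δ) = φ δ := by rw [← hτ, h]; rfl
    have h2 : (φ δ) ^ 2 = (D : ℂ) := by rw [← map_pow, hδ]; simp
    obtain ⟨r, hr⟩ := Complex.conj_eq_iff_real.mp h1
    rw [hr] at h2
    have h3 : r ^ 2 = (D : ℝ) := by exact_mod_cast h2
    have h4 : (D : ℝ) < 0 := by exact_mod_cast hD
    nlinarith [sq_nonneg r]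
  let H : Subgroup (L ≃ₐ[ℚ] L) := Subgroup.zpowers τ
  have hcard : Nat.card H = 2 := by
    rw [Nat.card_zpowers]
    apply orderOf_eq_prime _ hτ1
    rw [pow_two]; exact hτ2
  let F : IntermediateField ℚ L := IntermediateField.fixedField H
  have hFL : Module.finrank F L = 2 := by
    rw [IntermediateField.finrank_fixedField_eq_card, hcard]
  refine ⟨F, ?_, ?_, ?_⟩
  · rw [← hFL, mul_comm]
    exact Module.finrank_mul_finrank ℚ F L
  · have hreal : ComplexEmbedding.IsReal (φ.comp (algebraMap F L)) := by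
      ext x
      change starRingEnd ℂ (φ (x : L)) = φ (x : L)
      rw [← hτ]
      congr 1
      have := x.2
      rw [IntermediateField.mem_fixedField_iff] at this
      exact this τ (Subgroup.mem_zpowers τ)
    exact ⟨hreal.embedding⟩
  · have := natAbs_discr_pow_le (K := F) (L := L)
    rwa [hFL] at this


/-- **T11a.** `L/ℚ` finite Galois, `δ² = D < 0`, `L/ℚ(δ)` with trivial inertia: the fixed field of
complex conjugation is a number field of degree `[L:ℚ]/2` with a real embedding and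
`|disc F| ≤ (4|D|)^[F:ℚ]`. -/
theorem real_subfield (L : Type*) [Field L] [NumberField L] [IsGalois ℚ L] (D : ℤ)
    (hD : D < 0) (δ : L) (hδ : δ ^ 2 = (D : L))
    (hin : ∀ P : Ideal (𝓞 L), P.IsMaximal → ∀ g : L ≃ₐ[ℚ] L, g δ = δ →
      (∀ x : 𝓞 L, g • x - x ∈ P) → g = 1) :
    ∃ F : IntermediateField ℚ L, 2 * Module.finrank ℚ F = Module.finrank ℚ L ∧
      Nonempty (F →+* ℝ) ∧ (discr F).natAbs ≤ (4 * D.natAbs) ^ Module.finrank ℚ F := by
  obtain ⟨F, h1, h2, h3⟩ := exists_real_subfield L D hD δ hδ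
  refine ⟨F, h1, h2, ?_⟩
  have hirr : ∀ q : ℚ, algebraMap ℚ L q ≠ δ := by
    intro q hq
    rw [← hq, ← map_pow] at hδ
    have h4 : (algebraMap ℚ L) (q ^ 2) = algebraMap ℚ L (D : ℚ) := by rw [hδ]; simp
    have h5 := FaithfulSMul.algebraMap_injective ℚ L h4
    have h6 : (D : ℚ) < 0 := by exact_mod_cast hD
    nlinarith [sq_nonneg q]
  have h4 := natAbs_discr_sq_le L D δ hδ hirr hin
  have h4' : (discr L).natAbs ^ 2 ≤ ((4 * D.natAbs) ^ Module.finrank ℚ F) ^ 2 := by
    rw [← pow_mul, mul_comm _ 2, h1]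
    exact h4
  have h5 := (Nat.pow_le_pow_iff_left (two_ne_zero)).mp h4'
  have h6 := h3.trans h5
  calc (discr F).natAbs ≤ (discr F).natAbs ^ 2 := Nat.le_self_pow two_ne_zero _
    _ ≤ _ := h6

end Vale.Agent.P036.TW.T11a
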