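import Mathlib
import Vale.Agent.P036.TW.Spec
import Vale.Agent.P036.TW.GS

/-!
# P036, towers: blocks T1 and T1c in the form of the specification
-/

namespace Vale.Agent.P036.TW

/-- Invariant characters of the kernel, in the form of the specification, are `GS.X0`. -/
def specEquivX0 {Φ G : Type} [Group Φ] [Group G] (π : Φ →* G) :
    {φ : π.ker →* Multiplicative (ZMod 2) // ∀ (f : Φ) (r s : π.ker),
      (s : Φ) = f * r * f⁻¹ → φ s = φ r} ≃ GS.X0 π where
  toFun φ := ⟨fun x => Multiplicative.toAdd (φ.1 x), by
    refine ⟨fun x y => ?_, fun f x => ?_⟩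
    · beta_reduce; rw [map_mul, toAdd_mul]
    · beta_reduce; rw [φ.2 f x _ (MulAut.conjNormal_apply f x)]⟩
  invFun h := ⟨MonoidHom.mk' (fun x => Multiplicative.ofAdd (h.1 x))
      (fun x y => by rw [h.2.1, ofAdd_add]), fun f r s hs => by
        have e : s = MulAut.conjNormal f r := Subtype.ext hs
        change Multiplicative.ofAdd (h.1 s) = Multiplicative.ofAdd (h.1 r)
        rw [e, h.2.2]⟩
  left_inv φ := by
    apply Subtype.ext
    ext x
    simp [MonoidHom.mk']
  right_inv h := by
    apply Subtype.ext
    funext x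
    simp [MonoidHom.mk']

theorem T1Stmt_holds : T1Stmt := by
  intro G _ _ d r π hd hπ hmin _ hX
  have := GS.finite_X0 π
  refine GS.golod_shafarevich_card (by omega) hπ hmin (r := r) ?_
  rw [← Nat.card_congr (specEquivX0 π)]
  exact hX

theorem T1cStmt_holds : T1cStmt := by
  intro G _ _
  have hfin : Finite (G →* Multiplicative (ZMod 2)) :=
    Finite.of_injective (fun χ : G →* Multiplicative (ZMod 2) => (χ : G → Multiplicative (ZMod 2)))
      DFunLike.coe_injective
  have hp : IsPGroup 2 (G →* Multiplicative (ZMod 2)) := by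
    intro χ
    refine ⟨1, ?_⟩
    ext x
    have h : ∀ z : Multiplicative (ZMod 2), z ^ 2 = 1 := by decide
    rw [pow_one, MonoidHom.pow_apply, h, MonoidHom.one_apply]
  exact IsPGroup.iff_card.1 hp

end Vale.Agent.P036.TW
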