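import Mathlib.GroupTheory.Index
import Mathlib.Tactic

/-!
# Abstract form of the Hasse norm theorem for an unramified quadratic extension

Index splitting argument for two abelian groups with involution `U → I`
(`U` = multiplicative group of the field, `I` = group of ideals).
-/

namespace Vale.Agent.P036.TW

open Subgroup

section Split

variable {G G' : Type*} [CommGroup G] [CommGroup G']

/-- Index splitting. -/
theorem relIndex_split (f : G →* G') {H K : Subgroup G} (h : H ≤ K) :
    H.relIndex K = (H.map f).relIndex (K.map f) * (H ⊓ f.ker).relIndex (K ⊓ f.ker) := by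
  have h1 : H ≤ H ⊔ (K ⊓ f.ker) := le_sup_left
  have h2 : H ⊔ (K ⊓ f.ker) ≤ K := sup_le h inf_le_left
  have e := relIndex_mul_relIndex H (H ⊔ (K ⊓ f.ker)) K h1 h2
  have e1 : (H ⊔ (K ⊓ f.ker)).relIndex K = (H.map f).relIndex (K.map f) := by
    rw [relIndex_map_map]
    have a1 : K ⊔ f.ker = K ⊔ (H ⊔ f.ker) := by
      rw [← sup_assoc, sup_eq_left.mpr h]
    rw [a1, relIndex_sup_right, ← inf_relIndex_right (H ⊔ f.ker) K]
    congr 1
    rw [inf_comm (H ⊔ f.ker) K, inf_comm K (H ⊔ f.ker)]
    rw [sup_inf_assoc_of_le f.ker h, inf_comm f.ker K]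
  have e2 : H.relIndex (H ⊔ (K ⊓ f.ker)) = (H ⊓ f.ker).relIndex (K ⊓ f.ker) := by
    rw [sup_comm, relIndex_sup_right, ← inf_relIndex_right H (K ⊓ f.ker)]
    congr 1
    rw [← inf_assoc, inf_eq_left.mpr h]
  rw [← e, e1, e2, mul_comm]

/-- index splitting when both subgroups contain the kernel -/
theorem relIndex_split_ker (f : G →* G') {H K : Subgroup G} (h : H ≤ K) (hk : f.ker ≤ H) :
    H.relIndex K = (H.map f).relIndex (K.map f) := by
  rw [relIndex_split f h, inf_eq_right.mpr hk, inf_eq_right.mpr (hk.trans h), relIndex_self,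
    mul_one]

/-- index splitting when the intersections with the kernel agree -/
theorem relIndex_split_eq (f : G →* G') {H K : Subgroup G} (h : H ≤ K)
    (hk : K ⊓ f.ker ≤ H) :
    H.relIndex K = (H.map f).relIndex (K.map f) := by
  have : H ⊓ f.ker = K ⊓ f.ker :=
    le_antisymm (inf_le_inf_right _ h) (le_inf hk inf_le_right)
  rw [relIndex_split f h, this, relIndex_self, mul_one]

end Split

section Inv

variable {M : Type*} [CommGroup M]

/-- the norm `x ↦ x * s x` -/
def nrm (s : M →* M) : M →* M where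
  toFun x := x * s x
  map_one' := by simp
  map_mul' x y := by simp [mul_mul_mul_comm]

/-- the twist `x ↦ x / s x` -/
def twi (s : M →* M) : M →* M where
  toFun x := x / s x
  map_one' := by simp
  map_mul' x y := by simp [mul_div_mul_comm]

@[simp] theorem nrm_apply (s : M →* M) (x : M) : nrm s x = x * s x := rfl
@[simp] theorem twi_apply (s : M →* M) (x : M) : twi s x = x / s x := rfl

/-- The fixed subgroup. -/
def fixd (s : M →* M) : Subgroup M := (twi s).ker

theorem mem_fixd {s : M →* M} {x : M} : x ∈ fixd s ↔ s x = x := by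
  unfold fixd
  rw [MonoidHom.mem_ker, twi_apply, div_eq_one]
  exact eq_comm

theorem twi_mem_ker (s : M →* M) (hs : ∀ x, s (s x) = x) (x : M) : twi s x ∈ (nrm s).ker := by
  rw [MonoidHom.mem_ker]; simp [hs]

theorem nrm_mem_fixd (s : M →* M) (hs : ∀ x, s (s x) = x) (x : M) : nrm s x ∈ fixd s := by
  rw [mem_fixd]; simp [hs, mul_comm]

end Inv

variable {U I : Type*} [CommGroup U] [CommGroup I]

/-- **Abstract Hasse norm theorem**. `U` is the multiplicative group of the big field, `I` its
group of fractional ideals, `s`, `t` the involutions, `dv` the divisor map. -/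
theorem hasse_abstract (s : U →* U) (t : I →* I) (hs : ∀ x, s (s x) = x)
    (ht : ∀ x, t (t x) = x) (dv : U →* I) (hdv : ∀ u, dv (s u) = t (dv u))
    (h90 : ∀ u : U, u * s u = 1 → ∃ v, u = v / s v)
    (hI : ∀ c : I, c * t c = 1 → ∃ b, c = b / t b)
    (hfin' : dv.range.index ≠ 0)
    (hfin : ((fixd s).map dv).relIndex (fixd t) ≠ 0)
    (hm : ((nrm t).range ⊔ (fixd s).map dv).relIndex (fixd t) ≤ 2)
    (hE0 : (dv.ker.map (nrm s)).relIndex (dv.ker ⊓ fixd s) ≠ 0)
    (hE : 2 * (dv.ker.map (nrm s)).relIndex (dv.ker ⊓ fixd s) =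
      (dv.ker.map (twi s)).relIndex (dv.ker ⊓ (nrm s).ker))
    (x : U) (hx : s x = x) (c : I) (hc : dv x = c * t c) : ∃ z, x = z * s z := by
  classical
  set E := dv.ker with hEdef
  set F := fixd s with hF
  set I0 := fixd t with hI0
  set P := F.map dv with hP
  set P' := dv.range with hP'
  -- basic facts
  have kerNU : (nrm s).ker = (twi s).range := by
    apply le_antisymm
    · intro u hu
      rw [MonoidHom.mem_ker, nrm_apply] at hu
      obtain ⟨v, hv⟩ := h90 u hu
      exact ⟨v, by rw [twi_apply, hv]⟩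
    · rintro _ ⟨u, rfl⟩
      exact twi_mem_ker s hs u
  have kerNI : (nrm t).ker = (twi t).range := by
    apply le_antisymm
    · intro u hu
      rw [MonoidHom.mem_ker, nrm_apply] at hu
      obtain ⟨v, hv⟩ := hI u hu
      exact ⟨v, by rw [twi_apply, hv]⟩
    · rintro _ ⟨u, rfl⟩
      exact twi_mem_ker t ht u
  have NUF : (nrm s).range ≤ F := by
    rintro _ ⟨u, rfl⟩
    exact nrm_mem_fixd s hs u
  have NII0 : (nrm t).range ≤ I0 := by
    rintro _ ⟨u, rfl⟩
    exact nrm_mem_fixd t ht u
  have PI0 : P ≤ I0 := by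
    rintro _ ⟨u, hu, rfl⟩
    rw [hI0, mem_fixd, ← hdv]
    have : s u = u := mem_fixd.mp hu
    rw [this]
  have PP' : P ≤ P' := by
    rintro _ ⟨u, _, rfl⟩
    exact ⟨u, rfl⟩
  have dvN : ∀ u, dv (nrm s u) = nrm t (dv u) := by
    intro u; simp [hdv]
  have dvT : ∀ u, dv (twi s u) = twi t (dv u) := by
    intro u; simp [hdv]
  have kt : (twi t).ker = I0 := rfl
  have ks : (twi s).ker = F := rfl
  -- X and Y
  set X : Subgroup U := F ⊓ ((nrm t).range).comap dv with hX
  set Y : Subgroup U := (nrm s).range with hY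
  have YX : Y ≤ X := by
    rintro _ ⟨u, rfl⟩
    refine ⟨NUF ⟨u, rfl⟩, ?_⟩
    show dv (nrm s u) ∈ (nrm t).range
    rw [dvN]
    exact ⟨dv u, rfl⟩
  -- (1)
  have s1 : Y.relIndex X = (P'.map (nrm t)).relIndex (P ⊓ (nrm t).range) *
      (E ⊓ (nrm s).range).relIndex (E ⊓ F) := by
    rw [relIndex_split dv YX]
    congr 2
    · ext z; constructor
      · rintro ⟨_, ⟨u, rfl⟩, rfl⟩
        exact ⟨dv u, ⟨u, rfl⟩, (dvN u).symm⟩
      · rintro ⟨_, ⟨u, rfl⟩, rfl⟩
        exact ⟨nrm s u, ⟨u, rfl⟩, dvN u⟩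
    · ext z; constructor
      · rintro ⟨u, hu, rfl⟩
        exact ⟨⟨u, hu.1, rfl⟩, hu.2⟩
      · rintro ⟨⟨u, hu, rfl⟩, hz⟩
        exact ⟨u, ⟨hu, hz⟩, rfl⟩
    · exact inf_comm _ _
    · ext z; constructor
      · rintro ⟨hz, hz'⟩
        exact ⟨hz', hz.1⟩
      · rintro ⟨hz, hz'⟩
        refine ⟨⟨hz', ?_⟩, hz⟩
        show dv z ∈ (nrm t).range
        have : dv z = 1 := hz
        rw [this]
        exact one_mem _
  -- (2)
  set K1 : Subgroup I := P.comap (nrm t) with hK1
  set H1 : Subgroup I := P' ⊔ (twi t).range with hH1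
  have nP' : P'.map (nrm t) ≤ P := by
    rintro _ ⟨_, ⟨u, rfl⟩, rfl⟩
    rw [← dvN]
    exact ⟨nrm s u, NUF ⟨u, rfl⟩, rfl⟩
  have H1K1 : H1 ≤ K1 := by
    refine sup_le ?_ ?_
    · intro z hz
      rw [hK1, mem_comap]
      exact nP' ⟨z, hz, rfl⟩
    · rw [← kerNI]
      intro z hz
      rw [hK1, mem_comap]
      have : nrm t z = 1 := hz
      rw [this]; exact one_mem _
  have s2 : (P'.map (nrm t)).relIndex (P ⊓ (nrm t).range) = H1.relIndex K1 := by
    rw [relIndex_split_ker (nrm t) H1K1 (by rw [kerNI]; exact le_sup_right)]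
    congr 1
    · rw [hH1, Subgroup.map_sup]
      have : (twi t).range.map (nrm t) = ⊥ := by
        rw [← kerNI]
        rw [eq_bot_iff]
        rintro _ ⟨z, hz, rfl⟩
        exact hz
      rw [this, sup_bot_eq]
    · rw [hK1]
      ext z; constructor
      · rintro ⟨h, ⟨w, rfl⟩⟩
        exact ⟨w, h, rfl⟩
      · rintro ⟨w, h, rfl⟩
        exact ⟨h, ⟨w, rfl⟩⟩
  have s2b : H1.relIndex K1 * K1.index = H1.index := relIndex_mul_index H1K1
  have s2c : K1.index * ((nrm t).range ⊔ P).relIndex I0 = P.relIndex I0 := by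
    rw [hK1, index_comap]
    have := relIndex_mul_relIndex P ((nrm t).range ⊔ P) I0 le_sup_right (sup_le NII0 PI0)
    rw [← this, relIndex_sup_right]
  -- the ambiguous classes
  set W : Subgroup I := P'.comap (twi t) with hW
  have P'W : P' ≤ W := by
    rintro _ ⟨u, rfl⟩
    rw [hW, mem_comap, ← dvT]
    exact ⟨_, rfl⟩
  have s3 : H1.index = P'.relIndex W := by
    have a1 : P'.relIndex W * W.index = P'.index := relIndex_mul_index P'W
    have a2 : W.index = P'.relIndex (twi t).range := by rw [hW, index_comap]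
    have a3 : P'.relIndex ((twi t).range ⊔ P') * ((twi t).range ⊔ P').index = P'.index :=
      relIndex_mul_index le_sup_right
    rw [relIndex_sup_right] at a3
    have a4 : P'.relIndex (twi t).range ≠ 0 := by
      intro h0
      rw [h0, zero_mul] at a3
      exact hfin' a3.symm
    rw [a2] at a1
    have : H1 = (twi t).range ⊔ P' := by rw [hH1, sup_comm]
    rw [this]
    have a5 : P'.relIndex (twi t).range * ((twi t).range ⊔ P').index =
        P'.relIndex (twi t).range * P'.relIndex W := by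
      rw [a3, ← a1, mul_comm]
    exact Nat.eq_of_mul_eq_mul_left (Nat.pos_of_ne_zero a4) a5
  have s4 : P'.relIndex W = (P'.map (twi t)).relIndex (P' ⊓ (nrm t).ker) *
      (P' ⊓ I0).relIndex I0 := by
    rw [relIndex_split (twi t) P'W]
    congr 2
    · ext z; constructor
      · rintro ⟨w, hw, rfl⟩
        refine ⟨hw, ?_⟩
        exact twi_mem_ker t ht w
      · rintro ⟨hz, hz'⟩
        rw [SetLike.mem_coe, kerNI] at hz'
        obtain ⟨w, rfl⟩ := hz'
        exact ⟨w, hz, rfl⟩
    · rw [kt]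
      apply inf_eq_right.mpr
      intro z hz
      rw [hW, mem_comap]
      have : twi t z = 1 := hz
      rw [this]; exact one_mem _
  have s5 : P.relIndex (P' ⊓ I0) * (P' ⊓ I0).relIndex I0 = P.relIndex I0 :=
    relIndex_mul_relIndex P (P' ⊓ I0) I0 (le_inf PP' PI0) inf_le_right
  -- (4)
  have s6 : (P'.map (twi t)).relIndex (P' ⊓ (nrm t).ker) =
      (E.map (nrm s)).relIndex (E ⊓ (nrm s).range) := by
    set K2 : Subgroup U := E.comap (nrm s) with hK2
    set H2 : Subgroup U := (twi s).range ⊔ E with hH2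
    have EE : E.map (nrm s) ≤ E := by
      rintro _ ⟨u, hu, rfl⟩
      rw [hEdef, MonoidHom.mem_ker, dvN]
      have : dv u = 1 := hu
      rw [this, map_one]
    have H2K2 : H2 ≤ K2 := by
      refine sup_le ?_ ?_
      · rw [← kerNU]
        intro z hz
        rw [hK2, mem_comap]
        have : nrm s z = 1 := hz
        rw [this]; exact one_mem _
      · intro z hz
        rw [hK2, mem_comap]
        exact EE ⟨z, hz, rfl⟩
    have b1 : H2.relIndex K2 = (P'.map (twi t)).relIndex (P' ⊓ (nrm t).ker) := by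
      rw [relIndex_split_ker dv H2K2 le_sup_right]
      congr 1
      · rw [hH2, Subgroup.map_sup]
        have : E.map dv = ⊥ := by
          rw [eq_bot_iff]
          rintro _ ⟨z, hz, rfl⟩
          exact hz
        rw [this, sup_bot_eq]
        ext z; constructor
        · rintro ⟨_, ⟨u, rfl⟩, rfl⟩
          exact ⟨dv u, ⟨u, rfl⟩, (dvT u).symm⟩
        · rintro ⟨_, ⟨u, rfl⟩, rfl⟩
          exact ⟨twi s u, ⟨u, rfl⟩, dvT u⟩
      · ext z; constructor
        · rintro ⟨u, hu, rfl⟩
          refine ⟨⟨u, rfl⟩, ?_⟩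
          have h1 : dv (nrm s u) = 1 := hu
          rw [dvN] at h1
          exact h1
        · rintro ⟨⟨u, rfl⟩, hz⟩
          refine ⟨u, ?_, rfl⟩
          have h1 : nrm t (dv u) = 1 := hz
          rw [← dvN] at h1
          exact h1
    have b2 : H2.relIndex K2 = (E.map (nrm s)).relIndex (E ⊓ (nrm s).range) := by
      rw [relIndex_split_ker (nrm s) H2K2 (by rw [kerNU]; exact le_sup_left)]
      congr 1
      · rw [hH2, Subgroup.map_sup]
        have : (twi s).range.map (nrm s) = ⊥ := by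
          rw [← kerNU]
          rw [eq_bot_iff]
          rintro _ ⟨z, hz, rfl⟩
          exact hz
        rw [this, bot_sup_eq]
      · ext z; constructor
        · rintro ⟨u, hu, rfl⟩
          exact ⟨hu, ⟨u, rfl⟩⟩
        · rintro ⟨hz, ⟨u, rfl⟩⟩
          exact ⟨u, hz, rfl⟩
    rw [← b1, b2]
  -- (5)
  have s7 : P.relIndex (P' ⊓ I0) = (E.map (twi s)).relIndex (E ⊓ (nrm s).ker) := by
    set K3 : Subgroup U := E.comap (twi s) with hK3
    set H3 : Subgroup U := F ⊔ E with hH3
    have EE : E.map (twi s) ≤ E := by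
      rintro _ ⟨u, hu, rfl⟩
      rw [hEdef, MonoidHom.mem_ker, dvT]
      have : dv u = 1 := hu
      rw [this, map_one]
    have H3K3 : H3 ≤ K3 := by
      refine sup_le ?_ ?_
      · intro z hz
        rw [hK3, mem_comap]
        have : twi s z = 1 := hz
        rw [this]; exact one_mem _
      · intro z hz
        rw [hK3, mem_comap]
        exact EE ⟨z, hz, rfl⟩
    have b1 : H3.relIndex K3 = P.relIndex (P' ⊓ I0) := by
      rw [relIndex_split_ker dv H3K3 le_sup_right]
      congr 1
      · rw [hH3, Subgroup.map_sup]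
        have : E.map dv = ⊥ := by
          rw [eq_bot_iff]
          rintro _ ⟨z, hz, rfl⟩
          exact hz
        rw [this, sup_bot_eq]
      · ext z; constructor
        · rintro ⟨u, hu, rfl⟩
          refine ⟨⟨u, rfl⟩, ?_⟩
          have h1 : dv (twi s u) = 1 := hu
          rw [dvT] at h1
          exact h1
        · rintro ⟨⟨u, rfl⟩, hz⟩
          refine ⟨u, ?_, rfl⟩
          have h1 : twi t (dv u) = 1 := hz
          rw [← dvT] at h1
          exact h1
    have b2 : H3.relIndex K3 = (E.map (twi s)).relIndex (E ⊓ (nrm s).ker) := by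
      rw [relIndex_split_ker (twi s) H3K3 (by rw [ks]; exact le_sup_left)]
      congr 1
      · rw [hH3, Subgroup.map_sup]
        have : F.map (twi s) = ⊥ := by
          rw [eq_bot_iff]
          rintro _ ⟨z, hz, rfl⟩
          exact hz
        rw [this, bot_sup_eq]
      · rw [kerNU]
        ext z; constructor
        · rintro ⟨u, hu, rfl⟩
          exact ⟨hu, ⟨u, rfl⟩⟩
        · rintro ⟨hz, ⟨u, rfl⟩⟩
          exact ⟨u, hz, rfl⟩
    rw [← b1, b2]
  -- units
  have s8 : (E.map (nrm s)).relIndex (E ⊓ (nrm s).range) *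
      (E ⊓ (nrm s).range).relIndex (E ⊓ F) = (E.map (nrm s)).relIndex (E ⊓ F) := by
    apply relIndex_mul_relIndex
    · rintro _ ⟨u, hu, rfl⟩
      refine ⟨?_, ⟨u, rfl⟩⟩
      show dv (nrm s u) = 1
      rw [dvN]
      have : dv u = 1 := hu
      rw [this, map_one]
    · exact inf_le_inf_left _ NUF
  -- assemble
  set e := (E.map (nrm s)).relIndex (E ⊓ F) with he
  set e1 := (E.map (nrm s)).relIndex (E ⊓ (nrm s).range) with he1
  set e2 := (E ⊓ (nrm s).range).relIndex (E ⊓ F) with he2
  set g := (E.map (twi s)).relIndex (E ⊓ (nrm s).ker) with hg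
  set h := P.relIndex I0 with hh
  set m := ((nrm t).range ⊔ P).relIndex I0 with hmdef
  set k := K1.index with hk
  have k0 : k ≠ 0 := by
    intro h0; rw [h0, zero_mul] at s2c; exact hfin s2c.symm
  have m0 : m ≠ 0 := by
    intro h0; rw [h0, mul_zero] at s2c; exact hfin s2c.symm
  rw [s2] at s1
  rw [s3, s4, s6] at s2b
  rw [s7] at s5
  -- s2b : a * k = e1 * j,  s5 : g * j = h, s2c : k * m = h, s8 : e1 * e2 = e, hE : 2 * e = g
  set j := (P' ⊓ I0).relIndex I0 with hj
  set a := H1.relIndex K1 with ha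
  have fin : (Y.relIndex X * 2) * (k * e) = m * (k * e) := by
    calc (Y.relIndex X * 2) * (k * e) = (a * k) * e2 * (2 * e) := by rw [s1]; ring
      _ = (e1 * j) * e2 * g := by rw [s2b, hE]
      _ = (e1 * e2) * (g * j) := by ring
      _ = e * (k * m) := by rw [s8, s5, s2c]
      _ = m * (k * e) := by ring
  have ke : 0 < k * e := Nat.mul_pos (Nat.pos_of_ne_zero k0) (Nat.pos_of_ne_zero hE0)
  have fin2 : Y.relIndex X * 2 = m := Nat.eq_of_mul_eq_mul_right ke fin
  have fin3 : Y.relIndex X = 1 := by omega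
  have fin4 : X ≤ Y := relIndex_eq_one.mp fin3
  have xX : x ∈ X := by
    refine ⟨mem_fixd.mpr hx, ?_⟩
    show dv x ∈ (nrm t).range
    rw [hc]
    exact ⟨c, rfl⟩
  obtain ⟨z, hz⟩ := fin4 xX
  exact ⟨z, by rw [← hz]; rfl⟩

end Vale.Agent.P036.TW
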