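import Mathlib
import Vale.Agent.P036.TW.T4Abs

/-!
# Herbrand quotient of a finitely generated abelian group with an involution
-/

namespace Vale.Agent.P036.TW

open Subgroup Module

section Two

/-- `range (2 • ·)` transported along an isomorphism: index and kernel. -/
theorem two_congr {A B : Type*} [AddCommGroup A] [AddCommGroup B] (e : A ≃+ B) :
    (nsmulAddMonoidHom 2 : A →+ A).range.index = (nsmulAddMonoidHom 2 : B →+ B).range.index ∧
    Nat.card (nsmulAddMonoidHom 2 : A →+ A).ker = Nat.card (nsmulAddMonoidHom 2 : B →+ B).ker := by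
  constructor
  · have : (nsmulAddMonoidHom 2 : B →+ B).range =
        (nsmulAddMonoidHom 2 : A →+ A).range.map (e : A →+ B) := by
      ext b; constructor
      · rintro ⟨c, rfl⟩
        refine ⟨2 • e.symm c, ⟨e.symm c, rfl⟩, ?_⟩
        simp
      · rintro ⟨_, ⟨a, rfl⟩, rfl⟩
        exact ⟨e a, by simp⟩
    rw [this]
    exact (AddSubgroup.index_map_equiv _ e).symm
  · refine Nat.card_congr ⟨fun a => ⟨e a.1, ?_⟩, fun b => ⟨e.symm b.1, ?_⟩, ?_, ?_⟩
    · have := a.2
      rw [AddMonoidHom.mem_ker] at this ⊢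
      simp only [nsmulAddMonoidHom_apply] at this ⊢
      rw [← map_nsmul, this, map_zero]
    · have := b.2
      rw [AddMonoidHom.mem_ker] at this ⊢
      simp only [nsmulAddMonoidHom_apply] at this ⊢
      rw [← map_nsmul, this, map_zero]
    · intro a; simp
    · intro b; simp

theorem two_pi (n : ℕ) :
    (nsmulAddMonoidHom 2 : (Fin n → ℤ) →+ (Fin n → ℤ)).range.index = 2 ^ n ∧
    Nat.card (nsmulAddMonoidHom 2 : (Fin n → ℤ) →+ (Fin n → ℤ)).ker = 1 := by
  constructor
  · have : (nsmulAddMonoidHom 2 : (Fin n → ℤ) →+ (Fin n → ℤ)).range =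
        AddSubgroup.pi Set.univ (fun _ => AddSubgroup.zmultiples (2 : ℤ)) := by
      ext b
      rw [AddSubgroup.mem_pi]
      constructor
      · rintro ⟨c, rfl⟩ i _
        rw [AddSubgroup.mem_zmultiples_iff]
        exact ⟨c i, by simp [mul_comm]⟩
      · intro h
        choose c hc using fun i => AddSubgroup.mem_zmultiples_iff.mp (h i trivial)
        refine ⟨c, ?_⟩
        ext i
        rw [← hc i]
        simp [mul_comm]
    rw [this, AddSubgroup.index_pi]
    simp [Int.index_zmultiples]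
  · rw [AddSubgroup.card_eq_one, eq_bot_iff]
    intro x hx
    rw [AddMonoidHom.mem_ker] at hx
    rw [AddSubgroup.mem_bot]
    ext i
    have := congrFun hx i
    simp at this
    simpa using this

theorem two_prod {A B : Type*} [AddCommGroup A] [AddCommGroup B] :
    (nsmulAddMonoidHom 2 : (A × B) →+ (A × B)).range.index =
      (nsmulAddMonoidHom 2 : A →+ A).range.index * (nsmulAddMonoidHom 2 : B →+ B).range.index ∧
    Nat.card (nsmulAddMonoidHom 2 : (A × B) →+ (A × B)).ker =
      Nat.card (nsmulAddMonoidHom 2 : A →+ A).ker *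
      Nat.card (nsmulAddMonoidHom 2 : B →+ B).ker := by
  constructor
  · rw [← AddSubgroup.index_prod]
    congr 1
    ext ⟨a, b⟩
    rw [AddSubgroup.mem_prod]
    constructor
    · rintro ⟨⟨x, y⟩, h⟩
      rw [Prod.ext_iff] at h
      exact ⟨⟨x, h.1⟩, ⟨y, h.2⟩⟩
    · rintro ⟨⟨x, hx⟩, ⟨y, hy⟩⟩
      exact ⟨⟨x, y⟩, Prod.ext hx hy⟩
  · rw [← Nat.card_prod]
    refine Nat.card_congr ⟨fun a => (⟨a.1.1, ?_⟩, ⟨a.1.2, ?_⟩),
      fun b => ⟨(b.1.1, b.2.1), ?_⟩, ?_, ?_⟩
    · have := a.2
      rw [AddMonoidHom.mem_ker] at this ⊢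
      exact congrArg Prod.fst this
    · have := a.2
      rw [AddMonoidHom.mem_ker] at this ⊢
      exact congrArg Prod.snd this
    · have h1 := b.1.2
      have h2 := b.2.2
      rw [AddMonoidHom.mem_ker] at h1 h2 ⊢
      exact Prod.ext h1 h2
    · intro a; rfl
    · intro b; rfl

theorem two_finite {A : Type*} [AddCommGroup A] [Finite A] :
    (nsmulAddMonoidHom 2 : A →+ A).range.index = Nat.card (nsmulAddMonoidHom 2 : A →+ A).ker := by
  have h1 := (nsmulAddMonoidHom 2 : A →+ A).range.card_mul_index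
  have h2 := (nsmulAddMonoidHom 2 : A →+ A).ker.card_mul_index
  rw [AddSubgroup.index_ker] at h2
  have h3 : 0 < Nat.card (nsmulAddMonoidHom 2 : A →+ A).range := Nat.card_pos
  apply Nat.eq_of_mul_eq_mul_left h3
  rw [h1, mul_comm, h2]

/-- For a finitely generated abelian group `A`, `[A : 2A] = 2 ^ rank A * |A[2]|`. -/
theorem index_two {A : Type*} [AddCommGroup A] [Module.Finite ℤ A] :
    (nsmulAddMonoidHom 2 : A →+ A).range.index =
      2 ^ finrank ℤ A * Nat.card (nsmulAddMonoidHom 2 : A →+ A).ker ∧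
    Nat.card (nsmulAddMonoidHom 2 : A →+ A).ker ≠ 0 := by
  haveI : AddGroup.FG A := (Module.Finite.iff_addGroup_fg (G := A)).mp inferInstance
  obtain ⟨n, ι, fι, p, hp, e, ⟨f⟩⟩ := AddCommGroup.equiv_free_prod_directSum_zmod A
  haveI : ∀ i, NeZero (p i ^ e i) := fun i => ⟨pow_ne_zero _ (hp i).ne_zero⟩
  classical
  let T := DirectSum ι (fun i => ZMod (p i ^ e i))
  haveI : Finite T := by
    haveI : Finite (∀ i, ZMod (p i ^ e i)) := Pi.finite
    exact Finite.of_equiv _ (DirectSum.addEquivProd (fun i => ZMod (p i ^ e i))).symm.toEquiv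
  let g : A ≃+ (Fin n → ℤ) × T :=
    f.trans (AddEquiv.prodCongr (Finsupp.linearEquivFunOnFinite ℤ ℤ (Fin n)).toAddEquiv
      (AddEquiv.refl _))
  have hn : finrank ℤ A = n := by
    rw [LinearEquiv.finrank_eq g.toIntLinearEquiv]
    have h0 := Submodule.finrank_quotient_add_finrank
      (R := ℤ) (M := (Fin n → ℤ) × T) (LinearMap.ker (LinearMap.fst ℤ (Fin n → ℤ) T))
    have h1 : finrank ℤ (((Fin n → ℤ) × T) ⧸ LinearMap.ker (LinearMap.fst ℤ (Fin n → ℤ) T)) = n := by
      rw [LinearEquiv.finrank_eq (LinearMap.quotKerEquivOfSurjective (LinearMap.fst ℤ (Fin n → ℤ) T)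
        LinearMap.fst_surjective)]
      simp
    have h2 : finrank ℤ (LinearMap.ker (LinearMap.fst ℤ (Fin n → ℤ) T)) = 0 := by
      haveI : Finite (LinearMap.ker (LinearMap.fst ℤ (Fin n → ℤ) T)) := by
        refine Finite.of_injective (fun x => x.1.2 : _ → T) ?_
        rintro ⟨⟨a, b⟩, h⟩ ⟨⟨a', b'⟩, h'⟩ hx
        simp at h h' hx
        subst h h' hx
        rfl
      refine (Module.finrank_eq_zero_iff (R := ℤ)
        (M := LinearMap.ker (LinearMap.fst ℤ (Fin n → ℤ) T))).mpr fun x => ?_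
      refine ⟨(Nat.card (LinearMap.ker (LinearMap.fst ℤ (Fin n → ℤ) T)) : ℤ), ?_, ?_⟩
      · exact_mod_cast Nat.card_pos.ne'
      · rw [natCast_zsmul]
        exact card_nsmul_eq_zero'
    omega
  rw [(two_congr g).1, (two_congr g).2, two_prod.1, two_prod.2, (two_pi n).1, (two_pi n).2,
    two_finite, hn]
  refine ⟨by ring, ?_⟩
  rw [one_mul]
  exact Nat.card_pos.ne'

/-- Multiplicative form of `index_two`. -/
theorem index_sq {A : Type*} [CommGroup A] [Module.Finite ℤ (Additive A)] :
    (powMonoidHom 2 : A →* A).range.index =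
      2 ^ finrank ℤ (Additive A) * Nat.card (powMonoidHom 2 : A →* A).ker ∧
    Nat.card (powMonoidHom 2 : A →* A).ker ≠ 0 :=
  index_two (A := Additive A)

/-- relative version of `index_sq` -/
theorem relIndex_sq {U : Type*} [CommGroup U] (K : Subgroup U) [Module.Finite ℤ (Additive K)] :
    (K.map (powMonoidHom 2)).relIndex K =
      2 ^ finrank ℤ (Additive K) * Nat.card (K ⊓ (powMonoidHom 2 : U →* U).ker : Subgroup U) ∧
    Nat.card (K ⊓ (powMonoidHom 2 : U →* U).ker : Subgroup U) ≠ 0 := by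
  have h := index_sq (A := K)
  have h1 : (K.map (powMonoidHom 2)).relIndex K = (powMonoidHom 2 : K →* K).range.index := by
    rw [relIndex]
    congr 1
    ext ⟨x, hx⟩
    rw [mem_subgroupOf]
    constructor
    · rintro ⟨y, hy, hxy⟩
      exact ⟨⟨y, hy⟩, Subtype.ext hxy⟩
    · rintro ⟨⟨y, hy⟩, hxy⟩
      exact ⟨y, hy, congrArg Subtype.val hxy⟩
  have h2 : Nat.card (K ⊓ (powMonoidHom 2 : U →* U).ker : Subgroup U) =
      Nat.card (powMonoidHom 2 : K →* K).ker := by
    refine Nat.card_congr ⟨fun a => ⟨⟨a.1, a.2.1⟩, ?_⟩, fun b => ⟨b.1.1, b.1.2, ?_⟩, ?_, ?_⟩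
    · have := a.2.2
      rw [MonoidHom.mem_ker]
      exact Subtype.ext this
    · have := b.2
      rw [MonoidHom.mem_ker] at this
      exact congrArg Subtype.val this
    · intro a; rfl
    · intro b; rfl
  rw [h1, h2]
  exact h

end Two

section Herbrand

variable {M : Type*} [CommGroup M]

instance finite_sub [Module.Finite ℤ (Additive M)] (K : Subgroup M) :
    Module.Finite ℤ (Additive K) := by
  have : IsNoetherian ℤ (Additive M) := isNoetherian_of_isNoetherianRing_of_finite ℤ _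
  exact Module.Finite.of_injective
    (K.subtype.toAdditive.toIntLinearMap) (fun a b h => by
      apply Additive.toMul.injective
      exact Subtype.ext h)

/-- `rank M = rank M⁺ + rank M⁻`. -/
theorem rank_split [Module.Finite ℤ (Additive M)] (s : M →* M) (hs : ∀ x, s (s x) = x) :
    finrank ℤ (Additive M) =
      finrank ℤ (Additive (fixd s)) + finrank ℤ (Additive ((nrm s).ker)) := by
  let P : Submodule ℤ (Additive M) := AddSubgroup.toIntSubmodule (Subgroup.toAddSubgroup (fixd s))
  let Q : Submodule ℤ (Additive M) :=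
    AddSubgroup.toIntSubmodule (Subgroup.toAddSubgroup ((nrm s).ker))
  have memP : ∀ x : Additive M, x ∈ P ↔ s (Additive.toMul x) = Additive.toMul x := fun x =>
    mem_fixd (s := s) (x := Additive.toMul x)
  have memQ : ∀ x : Additive M, x ∈ Q ↔ Additive.toMul x * s (Additive.toMul x) = 1 := fun x =>
    Iff.rfl
  have eP : finrank ℤ (Additive (fixd s)) = finrank ℤ P := rfl
  have eQ : finrank ℤ (Additive ((nrm s).ker)) = finrank ℤ Q := rfl
  rw [eP, eQ]
  have h1 := Submodule.rank_sup_add_rank_inf_eq P Q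
  have h2 : Module.rank ℤ (P ⊓ Q : Submodule ℤ (Additive M)) = 0 := by
    rw [rank_eq_zero_iff]
    rintro ⟨x, hx⟩
    refine ⟨2, by norm_num, Subtype.ext ?_⟩
    rw [Submodule.mem_inf, memP, memQ] at hx
    rw [hx.1] at hx
    show (2 : ℤ) • x = 0
    rw [two_smul]
    exact hx.2
  have h3 := Submodule.rank_quotient_add_rank (P ⊔ Q)
  have h4 : Module.rank ℤ (Additive M ⧸ (P ⊔ Q)) = 0 := by
    rw [rank_eq_zero_iff]
    intro x
    obtain ⟨x, rfl⟩ := Submodule.mkQ_surjective _ x
    refine ⟨2, by norm_num, ?_⟩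
    rw [← map_smul, Submodule.mkQ_apply, Submodule.Quotient.mk_eq_zero]
    have : (2 : ℤ) • x = (x + Additive.ofMul (s (Additive.toMul x))) +
        (x - Additive.ofMul (s (Additive.toMul x))) := by
      rw [two_smul]; abel
    rw [this]
    refine Submodule.add_mem _ (Submodule.mem_sup_left ?_) (Submodule.mem_sup_right ?_)
    · rw [memP]
      show s (Additive.toMul x * s (Additive.toMul x)) = Additive.toMul x * s (Additive.toMul x)
      rw [map_mul, hs, mul_comm]
    · rw [memQ]
      show (Additive.toMul x / s (Additive.toMul x)) *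
        s (Additive.toMul x / s (Additive.toMul x)) = 1
      rw [map_div, hs]; simp
  rw [h2, add_zero] at h1
  rw [h4, zero_add] at h3
  rw [h3] at h1
  rw [← finrank_eq_rank, ← finrank_eq_rank, ← finrank_eq_rank] at h1
  exact_mod_cast h1

/-- **Herbrand quotient** of a finitely generated abelian group with an involution. -/
theorem herbrand [Module.Finite ℤ (Additive M)] (s : M →* M) (hs : ∀ x, s (s x) = x) :
    (nrm s).range.relIndex (fixd s) ≠ 0 ∧
    (nrm s).range.relIndex (fixd s) * 2 ^ finrank ℤ (Additive M) =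
      (twi s).range.relIndex ((nrm s).ker) * 2 ^ (2 * finrank ℤ (Additive (fixd s))) := by
  set Ep := fixd s with hEp
  set Em := (nrm s).ker with hEm
  have hp := relIndex_sq Ep
  have hq := relIndex_sq Em
  have hpq : (Ep ⊓ (powMonoidHom 2 : M →* M).ker : Subgroup M) =
      (Em ⊓ (powMonoidHom 2 : M →* M).ker : Subgroup M) := by
    ext x
    constructor
    · rintro ⟨h1, h2⟩
      refine ⟨?_, h2⟩
      have h1' : s x = x := mem_fixd.mp h1
      have h2' : x ^ 2 = 1 := h2
      show x * s x = 1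
      rw [h1', ← sq, h2']
    · rintro ⟨h1, h2⟩
      refine ⟨?_, h2⟩
      have h1' : x * s x = 1 := h1
      have h2' : x ^ 2 = 1 := h2
      refine mem_fixd.mpr ?_
      apply mul_left_cancel (a := x)
      rw [h1', ← sq, h2']
  rw [← hpq] at hq
  set t := Nat.card (Ep ⊓ (powMonoidHom 2 : M →* M).ker : Subgroup M) with ht
  -- [Ep : sq Ep] = [Ep : N M] * [N M : N Ep]
  have m1 : (Ep ⊔ Em).map (nrm s) = Ep.map (powMonoidHom 2) := by
    rw [Subgroup.map_sup]
    have : Em.map (nrm s) = ⊥ := by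
      rw [eq_bot_iff]
      rintro _ ⟨z, hz, rfl⟩
      exact hz
    rw [this, sup_bot_eq]
    ext z; constructor
    · rintro ⟨y, hy, rfl⟩
      refine ⟨y, hy, ?_⟩
      have : s y = y := mem_fixd.mp hy
      rw [nrm_apply, this, powMonoidHom_apply, sq]
    · rintro ⟨y, hy, rfl⟩
      refine ⟨y, hy, ?_⟩
      have : s y = y := mem_fixd.mp hy
      rw [nrm_apply, this, powMonoidHom_apply, sq]
  have m2 : (Ep ⊔ Em).map (twi s) = Em.map (powMonoidHom 2) := by
    rw [Subgroup.map_sup]
    have : Ep.map (twi s) = ⊥ := by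
      rw [eq_bot_iff]
      rintro _ ⟨z, hz, rfl⟩
      exact hz
    rw [this, bot_sup_eq]
    have key : ∀ y ∈ Em, twi s y = y ^ 2 := by
      intro y hy
      have : y * s y = 1 := hy
      rw [twi_apply, eq_inv_of_mul_eq_one_right this, div_inv_eq_mul, sq]
    ext z; constructor
    · rintro ⟨y, hy, rfl⟩
      exact ⟨y, hy, (key y hy).symm⟩
    · rintro ⟨y, hy, rfl⟩
      exact ⟨y, hy, key y hy⟩
  have e1 : (Ep ⊔ Em).relIndex ⊤ = (Ep.map (powMonoidHom 2)).relIndex (nrm s).range := by
    rw [relIndex_split_eq (nrm s) le_top (by rw [top_inf_eq]; exact le_sup_right), m1,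
      ← MonoidHom.range_eq_map]
  have e2 : (Ep ⊔ Em).relIndex ⊤ = (Em.map (powMonoidHom 2)).relIndex (twi s).range := by
    rw [relIndex_split_eq (twi s) le_top (by rw [top_inf_eq]; exact le_sup_left), m2,
      ← MonoidHom.range_eq_map]
  have f1 : (Ep.map (powMonoidHom 2)).relIndex (nrm s).range * (nrm s).range.relIndex Ep =
      (Ep.map (powMonoidHom 2)).relIndex Ep := by
    apply relIndex_mul_relIndex
    · rw [← m1]; rintro _ ⟨y, _, rfl⟩; exact ⟨y, rfl⟩
    · rintro _ ⟨y, rfl⟩; exact nrm_mem_fixd s hs y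
  have f2 : (Em.map (powMonoidHom 2)).relIndex (twi s).range * (twi s).range.relIndex Em =
      (Em.map (powMonoidHom 2)).relIndex Em := by
    apply relIndex_mul_relIndex
    · rw [← m2]; rintro _ ⟨y, _, rfl⟩; exact ⟨y, rfl⟩
    · rintro _ ⟨y, rfl⟩; exact twi_mem_ker s hs y
  have hrk := rank_split s hs
  rw [← e1, hp.1] at f1
  rw [← e2, hq.1] at f2
  set d := (Ep ⊔ Em).relIndex ⊤ with hd
  set a := (nrm s).range.relIndex Ep with ha
  set b := (twi s).range.relIndex Em with hb
  set rp := finrank ℤ (Additive Ep) with hrp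
  set rm := finrank ℤ (Additive Em) with hrm
  have t0 : t ≠ 0 := hp.2
  have d0 : d ≠ 0 := by
    intro h0
    rw [h0, zero_mul] at f1
    exact (mul_ne_zero (pow_ne_zero _ two_ne_zero) t0) f1.symm
  have a0 : a ≠ 0 := by
    intro h0
    rw [h0, mul_zero] at f1
    exact (mul_ne_zero (pow_ne_zero _ two_ne_zero) t0) f1.symm
  refine ⟨a0, ?_⟩
  rw [hrk]
  have key : (d * t) * (a * 2 ^ (rp + rm)) = (d * t) * (b * 2 ^ (2 * rp)) := by
    calc (d * t) * (a * 2 ^ (rp + rm)) = (d * a) * (2 ^ rm * t) * 2 ^ rp := by rw [pow_add]; ring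
      _ = (2 ^ rp * t) * (d * b) * 2 ^ rp := by rw [f1, f2]
      _ = (d * t) * (b * 2 ^ (2 * rp)) := by rw [two_mul, pow_add]; ring
  exact Nat.eq_of_mul_eq_mul_left (Nat.mul_pos (Nat.pos_of_ne_zero d0) (Nat.pos_of_ne_zero t0)) key

end Herbrand

end Vale.Agent.P036.TW
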