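import Vale.Agent.P036.TW.T6c

/-! Block T6, part d: comparison of Euler products and the second inequality, abstract form. -/

namespace Vale.Agent.P036.TW.T6

open nonZeroDivisors Filter Topology NumberField Ideal IsDedekindDomain

variable {F : Type*} [Field F] [NumberField F]

/-- local factor -/
noncomputable def G4 (χ₁ χ₂ : ClassGroup (𝓞 F) →* ℤˣ) (s : ℝ) (v : HeightOneSpectrum (𝓞 F)) : ℝ :=
  (1 - xx s v)⁻¹ * (1 - ((χ₁ (ClassGroup.mk0 (pr v)) : ℤ) : ℝ) * xx s v)⁻¹ *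
    (1 - ((χ₂ (ClassGroup.mk0 (pr v)) : ℤ) : ℝ) * xx s v)⁻¹ *
    (1 - (((χ₁ * χ₂) (ClassGroup.mk0 (pr v)) : ℤ) : ℝ) * xx s v)⁻¹

theorem one_le_G4 (χ₁ χ₂ : ClassGroup (𝓞 F) →* ℤˣ) {s : ℝ} (hs : 1 < s)
    (v : HeightOneSpectrum (𝓞 F)) : 1 ≤ G4 χ₁ χ₂ s v :=
  loc_ge (xx_pos s v) (xx_lt s (by linarith) v) _ _

theorem xx_two (s : ℝ) (v : HeightOneSpectrum (𝓞 F)) : xx (2 * s) v = xx s v ^ 2 := by
  unfold xx
  rw [← Real.rpow_natCast, ← Real.rpow_mul (Nat.cast_nonneg _)]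
  congr 1
  push_cast
  ring

theorem one_le_inv_xx {s : ℝ} (hs : 1 < s) (v : HeightOneSpectrum (𝓞 F)) : 1 ≤ (1 - xx s v)⁻¹ := by
  have h1 := xx_pos s v
  have h2 := xx_lt s (by linarith) v
  exact (one_le_inv₀ (by linarith)).2 (by linarith)

/-- L-function -/
noncomputable def LL (χ : ClassGroup (𝓞 F) →* ℤˣ) (s : ℝ) : ℝ :=
  ∑' I : (Ideal (𝓞 F))⁰, ((χ (ClassGroup.mk0 I) : ℤ) : ℝ) *
    (Ideal.absNorm (I : Ideal (𝓞 F)) : ℝ) ^ (-s)

/-- the right-hand side of the comparison -/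
theorem prod_le (χ₁ χ₂ : ClassGroup (𝓞 F) →* ℤˣ) {s : ℝ} (hs : 1 < s)
    (S : Finset (HeightOneSpectrum (𝓞 F))) :
    ∏ v ∈ S, (G4 χ₁ χ₂ s v * ((1 - xx (2 * s) v)⁻¹) ^ 2) ≤
      zR F s * LL χ₁ s * LL χ₂ s * LL (χ₁ * χ₂) s * (zR F (2 * s)) ^ 2 := by
  have h1 : Tendsto (fun S : Finset (HeightOneSpectrum (𝓞 F)) =>
      ∏ v ∈ S, (G4 χ₁ χ₂ s v * ((1 - xx (2 * s) v)⁻¹) ^ 2)) atTop
      (𝓝 (zR F s * LL χ₁ s * LL χ₂ s * LL (χ₁ * χ₂) s * (zR F (2 * s)) ^ 2)) := by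
    have := (((tendsto_zR_prod (F := F) hs).mul (tendsto_L χ₁ hs)).mul (tendsto_L χ₂ hs)).mul
      (tendsto_L (χ₁ * χ₂) hs) |>.mul ((tendsto_zR_prod (F := F) (s := 2 * s) (by linarith)).pow 2)
    refine this.congr fun S => ?_
    simp only [← Finset.prod_mul_distrib, ← Finset.prod_pow]
    rfl
  have hone : ∀ v : HeightOneSpectrum (𝓞 F), 1 ≤ G4 χ₁ χ₂ s v * ((1 - xx (2 * s) v)⁻¹) ^ 2 :=
    fun v => one_le_mul_of_one_le_of_one_le (one_le_G4 χ₁ χ₂ hs v)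
      (one_le_pow₀ (one_le_inv_xx (by linarith) v))
  refine ge_of_tendsto h1 ?_
  filter_upwards [eventually_ge_atTop S] with S₁ hS₁
  exact Finset.prod_le_prod_of_subset_of_one_le hS₁
    (fun v _ => zero_le_one.trans (hone v)) (fun v _ _ => hone v)

variable {F' : Type*} [Field F'] [NumberField F']

/-- the local comparison -/
theorem loc_le (H : Subgroup (ClassGroup (𝓞 F))) (χ₁ χ₂ : ClassGroup (𝓞 F) →* ℤˣ)
    (h1 : ∀ h ∈ H, χ₁ h = 1) (h2 : ∀ h ∈ H, χ₂ h = 1) {s : ℝ} (hs : 1 < s)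
    (v : HeightOneSpectrum (𝓞 F)) (T : Finset (HeightOneSpectrum (𝓞 F')))
    (hN : ∀ w ∈ T, absNorm v.asIdeal ≤ absNorm w.asIdeal) (hT : T.card ≤ 2)
    (hv : ClassGroup.mk0 (pr v) ∉ H → T.card ≤ 1 ∧ ∀ w ∈ T,
      absNorm v.asIdeal ^ 2 ≤ absNorm w.asIdeal) :
    (∏ w ∈ T, (1 - xx s w)⁻¹) ^ 2 ≤ G4 χ₁ χ₂ s v * ((1 - xx (2 * s) v)⁻¹) ^ 2 := by
  have hx0 := xx_pos s v
  have hx1 := xx_lt s (by linarith) v
  have hpos : ∀ w ∈ T, 0 ≤ (1 - xx s w)⁻¹ := fun w _ => zero_le_one.trans (one_le_inv_xx hs w)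
  have hmono : ∀ (w : HeightOneSpectrum (𝓞 F')) (y : ℝ), xx s w ≤ y → y < 1 →
      (1 - xx s w)⁻¹ ≤ (1 - y)⁻¹ := fun w y hy hy1 =>
    inv_anti₀ (by linarith) (by linarith)
  by_cases hc : ClassGroup.mk0 (pr v) ∈ H
  · have e : G4 χ₁ χ₂ s v = ((1 - xx s v)⁻¹ ^ 2) ^ 2 := by
      unfold G4
      rw [MonoidHom.mul_apply, h1 _ hc, h2 _ hc]
      simp only [mul_one, Units.val_one, Int.cast_one, one_mul]
      ring
    have h3 : ∏ w ∈ T, (1 - xx s w)⁻¹ ≤ (1 - xx s v)⁻¹ ^ 2 := by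
      calc ∏ w ∈ T, (1 - xx s w)⁻¹ ≤ ∏ w ∈ T, (1 - xx s v)⁻¹ := by
            refine Finset.prod_le_prod hpos fun w hw => hmono w _ ?_ hx1
            exact Real.rpow_le_rpow_of_nonpos (by linarith [two_le_norm v])
              (by exact_mod_cast hN w hw) (by linarith)
        _ = (1 - xx s v)⁻¹ ^ T.card := by rw [Finset.prod_const]
        _ ≤ (1 - xx s v)⁻¹ ^ 2 := pow_le_pow_right₀ (one_le_inv_xx hs v) hT
    rw [e]
    calc (∏ w ∈ T, (1 - xx s w)⁻¹) ^ 2 ≤ ((1 - xx s v)⁻¹ ^ 2) ^ 2 :=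
          pow_le_pow_left₀ (Finset.prod_nonneg hpos) h3 2
      _ ≤ ((1 - xx s v)⁻¹ ^ 2) ^ 2 * ((1 - xx (2 * s) v)⁻¹) ^ 2 :=
          le_mul_of_one_le_right (by positivity) (one_le_pow₀ (one_le_inv_xx (by linarith) v))
  · obtain ⟨hT1, hN2⟩ := hv hc
    have hx2 : xx (2 * s) v < 1 := xx_lt (2 * s) (by linarith) v
    have h3 : ∏ w ∈ T, (1 - xx s w)⁻¹ ≤ (1 - xx (2 * s) v)⁻¹ := by
      calc ∏ w ∈ T, (1 - xx s w)⁻¹ ≤ ∏ w ∈ T, (1 - xx (2 * s) v)⁻¹ := by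
            refine Finset.prod_le_prod hpos fun w hw => hmono w _ ?_ hx2
            have : xx (2 * s) v = ((absNorm v.asIdeal : ℝ) ^ 2) ^ (-s) := by
              unfold xx
              rw [← Real.rpow_natCast, ← Real.rpow_mul (Nat.cast_nonneg _)]
              congr 1
              push_cast
              ring
            rw [this]
            refine Real.rpow_le_rpow_of_nonpos ?_ (by exact_mod_cast hN2 w hw) (by linarith)
            have := two_le_norm v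
            positivity
        _ = (1 - xx (2 * s) v)⁻¹ ^ T.card := by rw [Finset.prod_const]
        _ ≤ (1 - xx (2 * s) v)⁻¹ ^ 1 := pow_le_pow_right₀ (one_le_inv_xx (by linarith) v) hT1
        _ = _ := pow_one _
    calc (∏ w ∈ T, (1 - xx s w)⁻¹) ^ 2 ≤ ((1 - xx (2 * s) v)⁻¹) ^ 2 :=
          pow_le_pow_left₀ (Finset.prod_nonneg hpos) h3 2
      _ ≤ G4 χ₁ χ₂ s v * ((1 - xx (2 * s) v)⁻¹) ^ 2 :=
          le_mul_of_one_le_left (by positivity) (one_le_G4 χ₁ χ₂ hs v)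

/-- hypotheses on the primes of the quadratic extension -/
structure Hyp (H : Subgroup (ClassGroup (𝓞 F)))
    (un : HeightOneSpectrum (𝓞 F') → HeightOneSpectrum (𝓞 F)) : Prop where
  norm : ∀ w, absNorm (un w).asIdeal ≤ absNorm w.asIdeal
  two : ∀ w₁ w₂ w₃, un w₁ = un w₂ → un w₁ = un w₃ → w₁ = w₂ ∨ w₁ = w₃ ∨ w₂ = w₃
  inert : ∀ w, ClassGroup.mk0 (pr (un w)) ∉ H →
    absNorm (un w).asIdeal ^ 2 ≤ absNorm w.asIdeal ∧ ∀ w', un w' = un w → w' = w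

theorem zR_sq_le (H : Subgroup (ClassGroup (𝓞 F)))
    (un : HeightOneSpectrum (𝓞 F') → HeightOneSpectrum (𝓞 F)) (hyp : Hyp H un)
    (χ₁ χ₂ : ClassGroup (𝓞 F) →* ℤˣ)
    (h1 : ∀ h ∈ H, χ₁ h = 1) (h2 : ∀ h ∈ H, χ₂ h = 1) {s : ℝ} (hs : 1 < s) :
    zR F' s ^ 2 ≤ zR F s * LL χ₁ s * LL χ₂ s * LL (χ₁ * χ₂) s * (zR F (2 * s)) ^ 2 := by
  classical
  refine le_of_tendsto ((tendsto_zR_prod (F := F') hs).pow 2) (Eventually.of_forall fun S' => ?_)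
  refine le_trans ?_ (prod_le χ₁ χ₂ hs (S'.image un))
  rw [← Finset.prod_fiberwise_of_maps_to (fun w hw => Finset.mem_image_of_mem un hw),
    ← Finset.prod_pow]
  refine Finset.prod_le_prod (fun v _ => sq_nonneg _) fun v hv => ?_
  refine loc_le H χ₁ χ₂ h1 h2 hs v _ ?_ ?_ ?_
  · intro w hw
    rw [← (Finset.mem_filter.1 hw).2]
    exact hyp.norm w
  · by_contra hcon
    push Not at hcon
    obtain ⟨w₁, m1, w₂, m2, w₃, m3, n12, n13, n23⟩ := Finset.two_lt_card.1 hcon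
    rcases hyp.two w₁ w₂ w₃ ((Finset.mem_filter.1 m1).2.trans (Finset.mem_filter.1 m2).2.symm)
      ((Finset.mem_filter.1 m1).2.trans (Finset.mem_filter.1 m3).2.symm) with h | h | h
    · exact n12 h
    · exact n13 h
    · exact n23 h
  · intro hc
    constructor
    · rw [Finset.card_le_one]
      intro w hw w' hw'
      have e := (Finset.mem_filter.1 hw).2
      have e' := (Finset.mem_filter.1 hw').2
      rw [← e'] at hc
      exact (hyp.inert w' hc).2 w (e.trans e'.symm)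
    · intro w hw
      have e := (Finset.mem_filter.1 hw).2
      rw [← e] at hc ⊢
      exact (hyp.inert w hc).1

/-- **Second inequality**, abstract form. -/
theorem second_abs (hL : LBdd F) (H : Subgroup (ClassGroup (𝓞 F)))
    (un : HeightOneSpectrum (𝓞 F') → HeightOneSpectrum (𝓞 F)) (hyp : Hyp H un)
    (hsq : ∀ c : ClassGroup (𝓞 F), c ^ 2 ∈ H) : H.index ≤ 2 := by
  by_contra hcon
  push Not at hcon
  obtain ⟨χ₁, χ₂, h1, h2, n1, n2, n12⟩ := exists_two_chars H hsq hcon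
  obtain ⟨C₁, hC₁⟩ := hL χ₁ n1
  obtain ⟨C₂, hC₂⟩ := hL χ₂ n2
  obtain ⟨C₃, hC₃⟩ := hL (χ₁ * χ₂) n12
  have key : ∀ s : ℝ, 1 < s → s ≤ 2 →
      ((s - 1) * zR F' s) ^ 2 ≤ (s - 1) * ((s - 1) * zR F s) * (C₁ * C₂ * C₃ * (zR F 2) ^ 2) := by
    intro s hs hs2
    have hz := zR_nonneg F s
    have a1 := hC₁ s hs hs2
    have a2 := hC₂ s hs hs2
    have a3 := hC₃ s hs hs2
    have hb : zR F' s ^ 2 ≤ zR F s * (C₁ * C₂ * C₃ * (zR F 2) ^ 2) := by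
      calc zR F' s ^ 2 ≤ zR F s * LL χ₁ s * LL χ₂ s * LL (χ₁ * χ₂) s * (zR F (2 * s)) ^ 2 :=
            zR_sq_le H un hyp χ₁ χ₂ h1 h2 hs
        _ ≤ |zR F s * LL χ₁ s * LL χ₂ s * LL (χ₁ * χ₂) s * (zR F (2 * s)) ^ 2| := le_abs_self _
        _ = zR F s * (|LL χ₁ s| * |LL χ₂ s| * |LL (χ₁ * χ₂) s| * (zR F (2 * s)) ^ 2) := by
            rw [abs_mul, abs_mul, abs_mul, abs_mul, abs_of_nonneg hz,
              abs_of_nonneg (sq_nonneg (zR F (2 * s)))]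
            ring
        _ ≤ zR F s * (C₁ * C₂ * C₃ * (zR F 2) ^ 2) := by
            have hz2 : zR F (2 * s) ≤ zR F 2 := zR_anti F (by norm_num) (by linarith)
            have hz2' := zR_nonneg F (2 * s)
            refine mul_le_mul_of_nonneg_left ?_ hz
            have b1 : 0 ≤ C₁ := (abs_nonneg _).trans a1
            have b2 : 0 ≤ C₂ := (abs_nonneg _).trans a2
            have b3 : 0 ≤ C₃ := (abs_nonneg _).trans a3
            have c1 : |LL χ₁ s| * |LL χ₂ s| ≤ C₁ * C₂ := mul_le_mul a1 a2 (abs_nonneg _) b1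
            have c2 : |LL χ₁ s| * |LL χ₂ s| * |LL (χ₁ * χ₂) s| ≤ C₁ * C₂ * C₃ :=
              mul_le_mul c1 a3 (abs_nonneg _) (by positivity)
            exact mul_le_mul c2 (pow_le_pow_left₀ hz2' hz2 2) (by positivity) (by positivity)
    calc ((s - 1) * zR F' s) ^ 2 = (s - 1) ^ 2 * zR F' s ^ 2 := by ring
      _ ≤ (s - 1) ^ 2 * (zR F s * (C₁ * C₂ * C₃ * (zR F 2) ^ 2)) :=
          mul_le_mul_of_nonneg_left hb (sq_nonneg _)
      _ = _ := by ring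
  have t1 : Tendsto (fun s : ℝ => ((s - 1) * zR F' s) ^ 2) (𝓝[>] 1)
      (𝓝 (dedekindZeta_residue F' ^ 2)) := (tendsto_zR F').pow 2
  have t0 : Tendsto (fun s : ℝ => s - 1) (𝓝[>] 1) (𝓝 0) := by
    have : Tendsto (fun s : ℝ => s - 1) (𝓝 1) (𝓝 (1 - 1)) :=
      (continuous_id.sub continuous_const).tendsto 1
    rw [sub_self] at this
    exact this.mono_left nhdsWithin_le_nhds
  have t2 : Tendsto (fun s : ℝ => (s - 1) * ((s - 1) * zR F s) * (C₁ * C₂ * C₃ * (zR F 2) ^ 2))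
      (𝓝[>] 1) (𝓝 (0 * dedekindZeta_residue F * (C₁ * C₂ * C₃ * (zR F 2) ^ 2))) :=
    (t0.mul (tendsto_zR F)).mul_const _
  have hle := le_of_tendsto_of_tendsto t1 t2 (by
    filter_upwards [Ioc_mem_nhdsGT (show (1 : ℝ) < 2 by norm_num)] with s hs
    exact key s hs.1 hs.2)
  have hpos := dedekindZeta_residue_pos F'
  have : 0 < dedekindZeta_residue F' ^ 2 := by positivity
  rw [zero_mul, zero_mul] at hle
  linarith

end Vale.Agent.P036.TW.T6
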