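import Vale.Agent.P036.TW.Spec
import Vale.Agent.P036.TW.T6d

/-! Block T6: the second inequality, from block T7. -/

namespace Vale.Agent.P036.TW.T6

open nonZeroDivisors Filter Topology NumberField Ideal IsDedekindDomain
open scoped Pointwise

/-! ### from T7: boundedness of L-functions -/

theorem LBdd_of (h7 : T7Stmt) (F : Type) [Field F] [NumberField F] : LBdd F := by
  intro χ hχ
  obtain ⟨κ, hκ, h⟩ := h7 F
  choose C hC using h
  refine ⟨∑ c, C c, fun s hs hs2 => ?_⟩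
  have hsum := summable_norm F hs
  have e1 : ∑' I : (Ideal (𝓞 F))⁰, ((χ (ClassGroup.mk0 I) : ℤ) : ℝ) *
      (Ideal.absNorm (I : Ideal (𝓞 F)) : ℝ) ^ (-s) =
      ∑ c : ClassGroup (𝓞 F), ((χ c : ℤ) : ℝ) *
        ∑' I : {I : (Ideal (𝓞 F))⁰ // ClassGroup.mk0 I = c},
        (Ideal.absNorm (I.1 : Ideal (𝓞 F)) : ℝ) ^ (-s) := by
    rw [← (Equiv.sigmaFiberEquiv fun I : (Ideal (𝓞 F))⁰ => ClassGroup.mk0 I).tsum_eq]
    rw [Summable.tsum_sigma, tsum_fintype]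
    · refine Finset.sum_congr rfl fun c _ => ?_
      refine Eq.trans (tsum_congr fun I => ?_) (_root_.tsum_mul_left
        (f := fun I : {I : (Ideal (𝓞 F))⁰ // ClassGroup.mk0 I = c} =>
          (Ideal.absNorm (I.1 : Ideal (𝓞 F)) : ℝ) ^ (-s)) (a := ((χ c : ℤ) : ℝ)))
      show ((χ (ClassGroup.mk0 I.1) : ℤ) : ℝ) * _ = _
      rw [I.2]
      rfl
    · have h0 : Summable (fun I : (Ideal (𝓞 F))⁰ => |tw F χ s I|) :=
        hsum.congr fun I => (abs_tw χ s I).symm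
      exact ((Equiv.sigmaFiberEquiv fun I : (Ideal (𝓞 F))⁰ => ClassGroup.mk0 I).summable_iff
        (f := fun I => tw F χ s I)).2 h0.of_abs
  have e2 : ∑ c : ClassGroup (𝓞 F), ((χ c : ℤ) : ℝ) = 0 := by
    have h1 : (Units.coeHom ℤ).comp χ ≠ 1 := by
      intro h2
      apply hχ
      ext c
      exact DFunLike.congr_fun h2 c
    have h2 := sum_hom_units_eq_zero ((Units.coeHom ℤ).comp χ) h1
    have h3 : ((∑ c : ClassGroup (𝓞 F), (χ c : ℤ) : ℤ) : ℝ) = 0 := by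
      have h4 : (∑ c : ClassGroup (𝓞 F), (χ c : ℤ) : ℤ) = 0 := h2
      rw [h4, Int.cast_zero]
    simpa using h3
  rw [e1]
  have e3 : ∑ c : ClassGroup (𝓞 F), ((χ c : ℤ) : ℝ) *
        ∑' I : {I : (Ideal (𝓞 F))⁰ // ClassGroup.mk0 I = c},
        (Ideal.absNorm (I.1 : Ideal (𝓞 F)) : ℝ) ^ (-s) =
      ∑ c : ClassGroup (𝓞 F), ((χ c : ℤ) : ℝ) *
        ((∑' I : {I : (Ideal (𝓞 F))⁰ // ClassGroup.mk0 I = c},
        (Ideal.absNorm (I.1 : Ideal (𝓞 F)) : ℝ) ^ (-s)) - κ / (s - 1)) := by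
    simp only [mul_sub, Finset.sum_sub_distrib]
    rw [← Finset.sum_mul, e2, zero_mul, sub_zero]
  rw [e3]
  refine (Finset.abs_sum_le_sum_abs _ _).trans (Finset.sum_le_sum fun c _ => ?_)
  rw [abs_mul, abs_unit, one_mul]
  exact hC c s hs hs2

/-! ### the primes in a quadratic extension -/

section
variable {F F' : Type} [Field F] [NumberField F] [Field F'] [NumberField F'] [Algebra F F']

theorem gal_of (σ : F' ≃ₐ[F] F') (h2 : Module.finrank F F' = 2) (hσ : σ ≠ 1) :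
    IsGalois F F' ∧ ∀ g : F' ≃ₐ[F] F', g = 1 ∨ g = σ := by
  have hfd : FiniteDimensional F F' := Module.finite_of_finrank_pos (by omega)
  have hle : Nat.card (F' ≃ₐ[F] F') ≤ 2 := by
    rw [← h2, Nat.card_eq_fintype_card]
    exact AlgEquiv.card_le
  have hge : 2 ≤ Nat.card (F' ≃ₐ[F] F') := by
    have : 1 < Nat.card (F' ≃ₐ[F] F') := Finite.one_lt_card_iff_nontrivial.2 ⟨σ, 1, hσ⟩
    omega
  have heq : Nat.card (F' ≃ₐ[F] F') = 2 := le_antisymm hle hge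
  refine ⟨IsGalois.of_card_aut_eq_finrank F F' (heq.trans h2.symm), fun g => ?_⟩
  by_contra hcon
  push Not at hcon
  obtain ⟨x, y, hxy, huniv⟩ := Nat.card_eq_two_iff.1 heq
  have hg : g ∈ ({x, y} : Set (F' ≃ₐ[F] F')) := by rw [huniv]; trivial
  have h1 : (1 : F' ≃ₐ[F] F') ∈ ({x, y} : Set (F' ≃ₐ[F] F')) := by rw [huniv]; trivial
  have hs : σ ∈ ({x, y} : Set (F' ≃ₐ[F] F')) := by rw [huniv]; trivial
  simp only [Set.mem_insert_iff, Set.mem_singleton_iff] at hg h1 hs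
  grind

theorem exists_gal [IsGalois F F'] (w w' : Pl F') (h : w.under (𝓞 F) = w'.under (𝓞 F)) :
    ∃ g : F' ≃ₐ[F] F', w' = g • w := by
  have hfd : FiniteDimensional F F' := Module.Finite.of_restrictScalars_finite ℚ F F'
  have h1 : w.asIdeal.under (𝓞 F) = w'.asIdeal.under (𝓞 F) := congrArg HeightOneSpectrum.asIdeal h
  have := w.isPrime
  have := w'.isPrime
  obtain ⟨g, hg⟩ := Algebra.IsInvariant.exists_smul_of_under_eq (𝓞 F) (𝓞 F') (F' ≃ₐ[F] F')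
    w.asIdeal w'.asIdeal h1
  exact ⟨g, HeightOneSpectrum.ext hg⟩

theorem norm_eq (w : Pl F') : ∃ f : ℕ, 0 < f ∧ absNorm w.asIdeal = absNorm (w.under (𝓞 F)).asIdeal ^ f ∧
    (f = 1 → ∀ x : 𝓞 F', ∃ y : 𝓞 F, x - algebraMap (𝓞 F) (𝓞 F') y ∈ w.asIdeal) := by
  have h1 := (w.under (𝓞 F)).isPrime
  have h2 := (w.under (𝓞 F)).isMaximal
  have h3 : w.asIdeal.LiesOver (w.under (𝓞 F)).asIdeal := ⟨rfl⟩
  refine ⟨_, inertiaDeg'_pos (w.under (𝓞 F)).asIdeal w.asIdeal,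
    absNorm_eq_pow_inertiaDeg'_of_liesOver w.asIdeal (w.under (𝓞 F)).asIdeal h1
      (w.under (𝓞 F)).ne_bot, fun hf x => ?_⟩
  rw [inertiaDeg'_algebraMap] at hf
  let _ : Field (𝓞 F ⧸ (w.under (𝓞 F)).asIdeal) := Ideal.Quotient.field _
  have h4 := w.isPrime
  obtain ⟨c, hc⟩ := (finrank_eq_one_iff_of_nonzero' (1 : 𝓞 F' ⧸ w.asIdeal) one_ne_zero).1 hf
    (Ideal.Quotient.mk _ x)
  obtain ⟨y, rfl⟩ := Ideal.Quotient.mk_surjective c
  refine ⟨y, ?_⟩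
  rw [← Ideal.Quotient.eq, ← hc, Algebra.smul_def, mul_one]
  rfl

theorem hyp_of (σ : F' ≃ₐ[F] F') (h2 : Module.finrank F F' = 2) (hσ : σ ≠ 1)
    (hin : ∀ P : Ideal (𝓞 F'), P.IsMaximal → ∃ x : 𝓞 F', σ • x - x ∉ P)
    (H : Subgroup (ClassGroup (𝓞 F)))
    (hH : ∀ v : Pl F, (∃ w : Pl F', σ • w ≠ w ∧
      w.asIdeal.comap (algebraMap (𝓞 F) (𝓞 F')) = v.asIdeal) →
        ClassGroup.mk0 ⟨v.asIdeal, mem_nonZeroDivisors_of_ne_zero v.ne_bot⟩ ∈ H) :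
    Hyp H (fun w : Pl F' => w.under (𝓞 F)) := by
  obtain ⟨hgal, hg⟩ := gal_of σ h2 hσ
  have hfix : ∀ w : Pl F', ClassGroup.mk0 (pr (w.under (𝓞 F))) ∉ H → σ • w = w := by
    intro w hw
    by_contra hcon
    exact hw (hH (w.under (𝓞 F)) ⟨w, hcon, rfl⟩)
  refine ⟨fun w => ?_, fun w₁ w₂ w₃ h12 h13 => ?_, fun w hw => ⟨?_, fun w' h' => ?_⟩⟩
  · obtain ⟨f, hf, hN, -⟩ := norm_eq (F := F) w
    rw [hN]
    exact Nat.le_self_pow hf.ne' _
  · obtain ⟨g₂, e₂⟩ := exists_gal w₁ w₂ h12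
    obtain ⟨g₃, e₃⟩ := exists_gal w₁ w₃ h13
    rcases hg g₂ with rfl | rfl
    · left
      rw [e₂, one_smul]
    · rcases hg g₃ with rfl | rfl
      · right; left
        rw [e₃, one_smul]
      · right; right
        rw [e₂, e₃]
  · obtain ⟨f, hf, hN, hf1⟩ := norm_eq (F := F) w
    rw [hN]
    have hf2 : f ≠ 1 := by
      intro h1
      obtain ⟨x, hx⟩ := hin w.asIdeal w.isMaximal
      obtain ⟨y, hy⟩ := hf1 h1 x
      apply hx
      have hfw := hfix w hw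
      have e1 : σ • (x - algebraMap (𝓞 F) (𝓞 F') y) ∈ w.asIdeal := by
        rw [← hfw, asIdeal_smul]
        exact Ideal.smul_mem_pointwise_smul _ _ _ hy
      have e2 : σ • (algebraMap (𝓞 F) (𝓞 F') y) = algebraMap (𝓞 F) (𝓞 F') y := by
        exact smul_algebraMap σ y
      rw [smul_sub, e2] at e1
      have := w.asIdeal.sub_mem e1 hy
      simpa using this
    exact Nat.pow_le_pow_right (Nat.pos_of_ne_zero (by
      rw [Ne, Ideal.absNorm_eq_zero_iff]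
      exact (w.under (𝓞 F)).ne_bot)) (by omega)
  · obtain ⟨g, e⟩ := exists_gal w w' h'.symm
    rcases hg g with rfl | rfl
    · rw [e, one_smul]
    · rw [e, hfix w hw]

end

end Vale.Agent.P036.TW.T6

namespace Vale.Agent.P036.TW

/-- **Block T6** from block T7. -/
theorem T6_of (h7 : T7Stmt) : T6Stmt := by
  intro F F' _ _ _ _ _ σ h2 hσ hin H hH hsq
  exact T6.second_abs (T6.LBdd_of h7 F) H _ (T6.hyp_of σ h2 hσ hin H hH) hsq

end Vale.Agent.P036.TW
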