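import Mathlib

/-! Block T6, part a: Euler products over the prime ideals of a Dedekind domain. -/

namespace Vale.Agent.P036.TW.T6

open IsDedekindDomain nonZeroDivisors Filter Topology Finset

variable {R : Type*} [CommRing R] [IsDedekindDomain R]

/-- a prime as a nonzero ideal -/
def pr (v : HeightOneSpectrum R) : (Ideal R)⁰ :=
  ⟨v.asIdeal, mem_nonZeroDivisors_of_ne_zero v.ne_bot⟩

@[simp] theorem coe_pr (v : HeightOneSpectrum R) : ((pr v : (Ideal R)⁰) : Ideal R) = v.asIdeal := rfl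

/-- ideals all of whose prime divisors are in `S` -/
def Sm (S : Finset (HeightOneSpectrum R)) : Set ((Ideal R)⁰) :=
  {I | ∀ v : HeightOneSpectrum R, v.asIdeal ∣ (I : Ideal R) → v ∈ S}

theorem ne_zero' (I : (Ideal R)⁰) : (I : Ideal R) ≠ 0 := nonZeroDivisors.ne_zero I.2

theorem mem_Sm_empty {I : (Ideal R)⁰} : I ∈ Sm (∅ : Finset (HeightOneSpectrum R)) ↔ I = 1 := by
  constructor
  · intro h
    by_contra hne
    have h1 : (I : Ideal R) ≠ ⊤ := by
      intro h2
      apply hne
      ext1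
      rw [h2, OneMemClass.coe_one, Ideal.one_eq_top]
    obtain ⟨M, hM, hIM⟩ := Ideal.exists_le_maximal _ h1
    have hM0 : M ≠ ⊥ := by
      intro h2
      rw [h2, le_bot_iff] at hIM
      exact ne_zero' I hIM
    have := h ⟨M, hM.isPrime, hM0⟩ (Ideal.dvd_iff_le.2 hIM)
    simp at this
  · rintro rfl v hv
    exfalso
    have h1 : (1 : Ideal R) ≤ v.asIdeal := Ideal.dvd_iff_le.1 hv
    exact v.isPrime.ne_top (top_le_iff.1 (by simpa using h1))

theorem dvd_mul_iff' (v : HeightOneSpectrum R) (I J : Ideal R) :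
    v.asIdeal ∣ I * J ↔ v.asIdeal ∣ I ∨ v.asIdeal ∣ J :=
  v.prime.dvd_mul

theorem dvd_prime_iff (v w : HeightOneSpectrum R) (h : w.asIdeal ∣ v.asIdeal) : w = v := by
  have h1 : v.asIdeal ≤ w.asIdeal := Ideal.dvd_iff_le.1 h
  have h2 := (v.isMaximal.eq_of_le w.isPrime.ne_top h1)
  ext1
  exact h2.symm

variable (S : Finset (HeightOneSpectrum R)) (v : HeightOneSpectrum R)

theorem mul_mem_Sm [DecidableEq (HeightOneSpectrum R)] (k : ℕ) {I : (Ideal R)⁰} (hI : I ∈ Sm S) :
    pr v ^ k * I ∈ Sm (insert v S) := by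
  intro w hw
  rw [Submonoid.coe_mul, dvd_mul_iff'] at hw
  rcases hw with hw | hw
  · rw [SubmonoidClass.coe_pow] at hw
    have := w.prime.dvd_of_dvd_pow hw
    rw [dvd_prime_iff v w this]
    exact Finset.mem_insert_self _ _
  · exact Finset.mem_insert_of_mem (hI w hw)

variable {S v}

theorem Sm_bij [DecidableEq (HeightOneSpectrum R)] (hv : v ∉ S) :
    Function.Bijective (fun p : ℕ × Sm S => (⟨pr v ^ p.1 * p.2, mul_mem_Sm S v p.1 p.2.2⟩ :
      Sm (insert v S))) := by
  constructor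
  · rintro ⟨k, I⟩ ⟨l, J⟩ h
    simp only [Subtype.mk.injEq] at h
    have h0 : (v.asIdeal) ^ k * (I : Ideal R) = v.asIdeal ^ l * (J : Ideal R) := by
      have := congrArg (fun x : (Ideal R)⁰ => (x : Ideal R)) h
      simpa using this
    have hI : ¬ v.asIdeal ∣ (I : Ideal R) := fun h1 => hv (I.2 v h1)
    have hJ : ¬ v.asIdeal ∣ (J : Ideal R) := fun h1 => hv (J.2 v h1)
    have hv0 : v.asIdeal ≠ 0 := v.ne_bot
    have key : ∀ (a b : ℕ) (A B : Ideal R), ¬ v.asIdeal ∣ B → a ≤ b →
        v.asIdeal ^ a * A = v.asIdeal ^ b * B → ¬ v.asIdeal ∣ A → a = b ∧ A = B := by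
      intro a b A B hB hab h1 hA
      obtain ⟨c, rfl⟩ := Nat.exists_eq_add_of_le hab
      rw [pow_add, mul_assoc] at h1
      have h2 := mul_left_cancel₀ (pow_ne_zero a hv0) h1
      rcases Nat.eq_zero_or_pos c with hc | hc
      · subst hc
        simpa using h2
      · exfalso
        apply hA
        rw [h2]
        exact Dvd.dvd.mul_right (dvd_pow_self _ hc.ne') _
    have hfin : k = l ∧ (I : Ideal R) = (J : Ideal R) := by
      rcases le_total k l with hkl | hkl
      · exact key k l _ _ hJ hkl h0 hI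
      · obtain ⟨h1, h2⟩ := key l k _ _ hI hkl h0.symm hJ
        exact ⟨h1.symm, h2.symm⟩
    obtain ⟨h1, h2⟩ := hfin
    subst h1
    congr 1
    exact Subtype.ext (Subtype.ext h2)
  · rintro ⟨J, hJ⟩
    have hfm : FiniteMultiplicity v.asIdeal (J : Ideal R) :=
      FiniteMultiplicity.of_prime_left v.prime (ne_zero' J)
    obtain ⟨c, hc, hvc⟩ := hfm.exists_eq_pow_mul_and_not_dvd
    have hc0 : c ≠ 0 := by
      rintro rfl
      exact hvc (dvd_zero _)
    refine ⟨⟨multiplicity v.asIdeal (J : Ideal R), ⟨⟨c, mem_nonZeroDivisors_of_ne_zero hc0⟩, ?_⟩⟩, ?_⟩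
    · intro w hw
      have h1 : w.asIdeal ∣ (J : Ideal R) := by
        rw [hc]; exact Dvd.dvd.mul_left hw _
      have h2 := hJ w h1
      rw [Finset.mem_insert] at h2
      rcases h2 with h2 | h2
      · exfalso
        rw [h2] at hw
        exact hvc hw
      · exact h2
    · apply Subtype.ext
      apply Subtype.ext
      simp only [Submonoid.coe_mul, SubmonoidClass.coe_pow, coe_pr]
      exact hc.symm

/-- finite Euler product -/
theorem hasSum_Sm (f : (Ideal R)⁰ →* ℝ) (hf : ∀ v, |f (pr v)| < 1)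
    (S : Finset (HeightOneSpectrum R)) :
    Summable (fun I : Sm S => |f I|) ∧
      HasSum (fun I : Sm S => f I) (∏ v ∈ S, (1 - f (pr v))⁻¹) := by
  classical
  induction S using Finset.induction_on with
  | empty =>
    have hu : ∀ I : Sm (∅ : Finset (HeightOneSpectrum R)), I = ⟨1, mem_Sm_empty.2 rfl⟩ :=
      fun I => Subtype.ext (mem_Sm_empty.1 I.2)
    let _ : Unique (Sm (∅ : Finset (HeightOneSpectrum R))) := ⟨⟨⟨1, mem_Sm_empty.2 rfl⟩⟩, hu⟩
    refine ⟨(hasSum_unique _).summable, ?_⟩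
    have := hasSum_unique (fun I : Sm (∅ : Finset (HeightOneSpectrum R)) => f I)
    simp only [Finset.prod_empty]
    convert this using 1
    exact (map_one f).symm
  | insert v S hv ih =>
    obtain ⟨ih1, ih2⟩ := ih
    have hg : HasSum (fun k : ℕ => f (pr v) ^ k) (1 - f (pr v))⁻¹ :=
      hasSum_geometric_of_abs_lt_one (hf v)
    have hgn : Summable (fun k : ℕ => ‖f (pr v) ^ k‖) := by
      simp only [norm_pow]
      exact summable_geometric_of_lt_one (norm_nonneg _) (hf v)
    have he : ∀ p : ℕ × Sm S, f ((Equiv.ofBijective _ (Sm_bij hv) p : Sm (insert v S)) : (Ideal R)⁰) =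
        f (pr v) ^ p.1 * f p.2 := by
      intro p
      show f (pr v ^ p.1 * p.2) = _
      rw [map_mul, map_pow]
    constructor
    · rw [← (Equiv.ofBijective _ (Sm_bij hv)).summable_iff]
      have := hgn.mul_norm (g := fun I : Sm S => f I) ih1
      refine this.congr fun p => ?_
      simp only [Function.comp_apply]
      rw [he p]
      rfl
    · rw [← (Equiv.ofBijective _ (Sm_bij hv)).hasSum_iff, Finset.prod_insert hv]
      have hs := summable_mul_of_summable_norm (f := fun k : ℕ => f (pr v) ^ k)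
        (g := fun I : Sm S => f I) hgn ih1
      refine (hg.mul ih2 hs).congr_fun fun p => ?_
      simp only [Function.comp_apply]
      rw [he p]

theorem exists_Sm (I : (Ideal R)⁰) : ∃ S₀ : Finset (HeightOneSpectrum R),
    ∀ S, S₀ ⊆ S → I ∈ Sm S := by
  have hfin := Ideal.finite_factors (ne_zero' I)
  refine ⟨hfin.toFinset, fun S hS v hv => hS ?_⟩
  simpa using hv

/-- the Euler product -/
theorem tendsto_prod (f : (Ideal R)⁰ →* ℝ) (hf : ∀ v, |f (pr v)| < 1)
    (hs : Summable (fun I : (Ideal R)⁰ => |f I|)) :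
    Tendsto (fun S : Finset (HeightOneSpectrum R) => ∏ v ∈ S, (1 - f (pr v))⁻¹) atTop
      (𝓝 (∑' I : (Ideal R)⁰, f I)) := by
  classical
  have h1 : ∀ S : Finset (HeightOneSpectrum R), ∏ v ∈ S, (1 - f (pr v))⁻¹ =
      ∑' I : (Ideal R)⁰, (Sm S).indicator (fun I => f I) I := by
    intro S
    rw [← _root_.tsum_subtype]
    exact (hasSum_Sm f hf S).2.tsum_eq.symm
  simp only [h1]
  refine tendsto_tsum_of_dominated_convergence hs (fun I => ?_) (Eventually.of_forall fun S I => ?_)
  · obtain ⟨S₀, hS₀⟩ := exists_Sm I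
    refine tendsto_const_nhds.congr' ?_
    filter_upwards [eventually_ge_atTop S₀] with S hS
    rw [Set.indicator_of_mem (hS₀ S hS)]
  · by_cases hI : I ∈ Sm S
    · rw [Set.indicator_of_mem hI]; rfl
    · rw [Set.indicator_of_notMem hI, norm_zero]; exact abs_nonneg _

end Vale.Agent.P036.TW.T6
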