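import Mathlib

/-! Block T6, part b: the Dedekind zeta function as a sum over ideals, for real `s`. -/

namespace Vale.Agent.P036.TW.T6

open nonZeroDivisors Filter Topology NumberField Ideal

variable (K : Type*) [Field K] [NumberField K]

/-- number of ideals of norm `n` -/
noncomputable def cnt (n : ℕ) : ℝ := Nat.card {I : Ideal (𝓞 K) // absNorm I = n}

theorem cnt_nonneg (n : ℕ) : 0 ≤ cnt K n := Nat.cast_nonneg _

theorem tendsto_cnt : Tendsto (fun n : ℕ ↦ (∑ k ∈ Finset.Icc 1 n, cnt K k) / (n : ℝ)) atTop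
    (𝓝 (dedekindZeta_residue K)) := by
  refine ((Ideal.tendsto_norm_le_div_atTop₀ K).comp tendsto_natCast_atTop_atTop).congr fun n ↦ ?_
  unfold cnt
  simp only [Function.comp_apply, Nat.cast_le, ← Nat.cast_sum]
  congr
  rw [← add_left_inj 1, ← card_norm_le_eq_card_norm_le_add_one,
    show Finset.Icc 1 n = Finset.Ioc 0 n from Finset.Icc_succ_left_eq_Ioc _ _,
    show 1 = Nat.card {I : Ideal (𝓞 K) // absNorm I = 0} by simp [Ideal.absNorm_eq_zero_iff],
    Finset.sum_Ioc_add_eq_sum_Icc (n.zero_le),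
    ← Finset.card_preimage_eq_sum_card_image_eq (fun k _ ↦ finite_setOfPred_absNorm_eq k)]
  simp [Set.coe_eq_subtype]

theorem summable_L {s : ℝ} (hs : 1 < s) : LSeriesSummable (fun n ↦ ((cnt K n : ℝ) : ℂ)) s := by
  refine LSeriesSummable_of_sum_norm_bigO_and_nonneg (r := 1) ?_ (cnt_nonneg K) zero_le_one
    (by simpa using hs)
  exact Asymptotics.isBigO_atTop_natCast_rpow_of_tendsto_div_rpow (a := dedekindZeta_residue K)
    (by simpa using tendsto_cnt K)

theorem term_eq {s : ℝ} (n : ℕ) : LSeries.term (fun n ↦ ((cnt K n : ℝ) : ℂ)) s n =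
    ((if n = 0 then 0 else cnt K n * (n : ℝ) ^ (-s) : ℝ) : ℂ) := by
  unfold LSeries.term
  split_ifs with h
  · simp
  · rw [Complex.ofReal_mul, Complex.ofReal_cpow (Nat.cast_nonneg n), Complex.ofReal_neg,
      Complex.cpow_neg, div_eq_mul_inv]
    simp

theorem summable_cnt {s : ℝ} (hs : 1 < s) :
    Summable (fun n : ℕ => if n = 0 then 0 else cnt K n * (n : ℝ) ^ (-s)) := by
  have h := summable_L K hs
  unfold LSeriesSummable at h
  simp only [funext (term_eq K (s := s))] at h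
  exact_mod_cast h

/-- number of nonzero ideals of norm `n` -/
theorem card_fiber (n : ℕ) (hn : n ≠ 0) :
    (Nat.card {I : (Ideal (𝓞 K))⁰ // absNorm (I : Ideal (𝓞 K)) = n} : ℝ) = cnt K n := by
  unfold cnt
  congr 1
  refine Nat.card_congr ?_
  refine ⟨fun I => ⟨I.1, I.2⟩, fun I => ⟨⟨I.1, mem_nonZeroDivisors_of_ne_zero ?_⟩, I.2⟩,
    fun _ => rfl, fun _ => rfl⟩
  intro h
  apply hn
  rw [← I.2, h]
  simp

instance (n : ℕ) : Finite {I : (Ideal (𝓞 K))⁰ // absNorm (I : Ideal (𝓞 K)) = n} := by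
  have h1 : {I : Ideal (𝓞 K) | absNorm I = n}.Finite := finite_setOfPred_absNorm_eq n
  have : Finite {I : Ideal (𝓞 K) // absNorm I = n} := h1.to_subtype
  exact Finite.of_injective (fun I => (⟨I.1, I.2⟩ : {I : Ideal (𝓞 K) // absNorm I = n}))
    fun I J h => by
      apply Subtype.ext
      apply Subtype.ext
      simpa using h

theorem fiber_sum {s : ℝ} (hs : 1 < s) (n : ℕ) :
    ∑' I : {I : (Ideal (𝓞 K))⁰ // absNorm (I : Ideal (𝓞 K)) = n},
      (absNorm (I.1 : Ideal (𝓞 K)) : ℝ) ^ (-s) =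
    if n = 0 then 0 else cnt K n * (n : ℝ) ^ (-s) := by
  have h1 : ∀ I : {I : (Ideal (𝓞 K))⁰ // absNorm (I : Ideal (𝓞 K)) = n},
      (absNorm (I.1 : Ideal (𝓞 K)) : ℝ) ^ (-s) = (n : ℝ) ^ (-s) := fun I => by rw [I.2]
  simp only [h1]
  rw [tsum_const]
  split_ifs with h
  · subst h
    rw [Nat.cast_zero, Real.zero_rpow (by linarith), smul_zero]
  · rw [nsmul_eq_mul, card_fiber K n h]

theorem summable_norm {s : ℝ} (hs : 1 < s) :
    Summable (fun I : (Ideal (𝓞 K))⁰ => (absNorm (I : Ideal (𝓞 K)) : ℝ) ^ (-s)) := by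
  rw [← (Equiv.sigmaFiberEquiv fun I : (Ideal (𝓞 K))⁰ =>
    absNorm (I : Ideal (𝓞 K))).summable_iff]
  rw [summable_sigma_of_nonneg]
  · refine ⟨fun n => Summable.of_finite, ?_⟩
    refine (summable_cnt K hs).congr fun n => ?_
    rw [← fiber_sum K hs n]
    rfl
  · rintro ⟨n, I⟩
    exact Real.rpow_nonneg (Nat.cast_nonneg _) _

/-- the Dedekind zeta function for real `s > 1` -/
noncomputable def zR (s : ℝ) : ℝ := ∑' I : (Ideal (𝓞 K))⁰, (absNorm (I : Ideal (𝓞 K)) : ℝ) ^ (-s)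

theorem zR_eq {s : ℝ} (hs : 1 < s) : dedekindZeta K s = (zR K s : ℂ) := by
  have h1 : zR K s = ∑' n : ℕ, if n = 0 then 0 else cnt K n * (n : ℝ) ^ (-s) := by
    unfold zR
    rw [← (Equiv.sigmaFiberEquiv fun I : (Ideal (𝓞 K))⁰ =>
      absNorm (I : Ideal (𝓞 K))).tsum_eq]
    rw [Summable.tsum_sigma]
    · refine tsum_congr fun n => ?_
      rw [← fiber_sum K hs n]
      rfl
    · exact ((Equiv.sigmaFiberEquiv fun I : (Ideal (𝓞 K))⁰ =>
        absNorm (I : Ideal (𝓞 K))).summable_iff).2 (summable_norm K hs)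
  rw [h1, Complex.ofReal_tsum]
  unfold dedekindZeta LSeries
  refine tsum_congr fun n => ?_
  rw [← term_eq K n]
  rfl

theorem tendsto_zR : Tendsto (fun s : ℝ ↦ (s - 1) * zR K s) (𝓝[>] 1)
    (𝓝 (dedekindZeta_residue K)) := by
  have h := tendsto_sub_one_mul_dedekindZeta_nhdsGT K
  have h2 : Tendsto (fun s : ℝ ↦ (((s - 1) * zR K s : ℝ) : ℂ)) (𝓝[>] 1)
      (𝓝 ((dedekindZeta_residue K : ℝ) : ℂ)) := by
    refine h.congr' ?_
    filter_upwards [self_mem_nhdsWithin] with s hs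
    rw [zR_eq K hs]
    push_cast
    ring
  have h3 := (Complex.continuous_re.tendsto _).comp h2
  simpa only [Function.comp_def, Complex.ofReal_re] using h3

theorem zR_nonneg (s : ℝ) : 0 ≤ zR K s := tsum_nonneg fun _ => Real.rpow_nonneg (Nat.cast_nonneg _) _

theorem one_le_norm (I : (Ideal (𝓞 K))⁰) : 1 ≤ (absNorm (I : Ideal (𝓞 K)) : ℝ) := by
  have : absNorm (I : Ideal (𝓞 K)) ≠ 0 := by
    rw [Ne, Ideal.absNorm_eq_zero_iff]
    exact nonZeroDivisors.ne_zero I.2
  exact_mod_cast Nat.one_le_iff_ne_zero.2 this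

theorem zR_anti {s t : ℝ} (hs : 1 < s) (hst : s ≤ t) : zR K t ≤ zR K s := by
  refine Summable.tsum_le_tsum (fun I => ?_) (summable_norm K (hs.trans_le hst))
    (summable_norm K hs)
  exact Real.rpow_le_rpow_of_exponent_le (one_le_norm K I) (by linarith)

end Vale.Agent.P036.TW.T6
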