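import Vale.Agent.P036.TW.T6a
import Vale.Agent.P036.TW.T6b

/-! Block T6, part c: the second inequality, abstract form. -/

namespace Vale.Agent.P036.TW.T6

open nonZeroDivisors Filter Topology NumberField Ideal IsDedekindDomain

/-! ### characters -/

theorem exists_char {Q : Type*} [CommGroup Q] (hsq : ∀ q : Q, q ^ 2 = 1) (b : Q) (hb : b ≠ 1) :
    ∃ χ : Q →* ℤˣ, χ b = -1 := by
  let _ : Module (ZMod 2) (Additive Q) := AddCommGroup.zmodModule (n := 2) fun x => by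
    show Additive.ofMul ((Additive.toMul x) ^ 2) = 0
    rw [hsq]; rfl
  have h1 : ∃ φ : Module.Dual (ZMod 2) (Additive Q), φ (Additive.ofMul b) ≠ 0 := by
    by_contra h
    push Not at h
    have := (Module.forall_dual_apply_eq_zero_iff (ZMod 2) (Additive.ofMul b)).1 h
    exact hb this
  obtain ⟨φ, hφ⟩ := h1
  have key : ∀ x y : ZMod 2, (if x + y = 0 then (1 : ℤˣ) else -1) =
      (if x = 0 then 1 else -1) * (if y = 0 then 1 else -1) := by decide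
  refine ⟨{ toFun := fun q => if φ (Additive.ofMul q) = 0 then 1 else -1
            map_one' := by simp
            map_mul' := fun p q => by rw [ofMul_mul, map_add]; exact key _ _ }, ?_⟩
  show (if φ (Additive.ofMul b) = 0 then (1 : ℤˣ) else -1) = -1
  rw [if_neg hφ]

theorem exists_char' {Q : Type*} [CommGroup Q] (H : Subgroup Q) (hsq : ∀ q : Q, q ^ 2 ∈ H) (b : Q)
    (hb : b ∉ H) : ∃ χ : Q →* ℤˣ, (∀ h ∈ H, χ h = 1) ∧ χ b = -1 := by
  obtain ⟨χ, hχ⟩ := exists_char (Q := Q ⧸ H) (fun q => by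
    obtain ⟨q, rfl⟩ := QuotientGroup.mk_surjective q
    rw [← QuotientGroup.mk_pow]
    exact (QuotientGroup.eq_one_iff _).2 (hsq q)) (QuotientGroup.mk b)
    (fun h => hb ((QuotientGroup.eq_one_iff _).1 h))
  refine ⟨χ.comp (QuotientGroup.mk' H), fun h hh => ?_, hχ⟩
  show χ (QuotientGroup.mk h) = 1
  rw [(QuotientGroup.eq_one_iff h).2 hh, map_one]

theorem exists_two_chars {Q : Type*} [CommGroup Q] [Finite Q] (H : Subgroup Q)
    (hsq : ∀ q : Q, q ^ 2 ∈ H) (hH : 2 < H.index) : ∃ χ₁ χ₂ : Q →* ℤˣ,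
    (∀ h ∈ H, χ₁ h = 1) ∧ (∀ h ∈ H, χ₂ h = 1) ∧ χ₁ ≠ 1 ∧ χ₂ ≠ 1 ∧ χ₁ * χ₂ ≠ 1 := by
  have hneg : (-1 : ℤˣ) ≠ 1 := by decide
  obtain ⟨a, ha⟩ : ∃ a, a ∉ H := by
    by_contra h
    push Not at h
    have : H = ⊤ := by ext x; simp [h x]
    rw [this, Subgroup.index_top] at hH
    omega
  obtain ⟨χ₁, h1, h1a⟩ := exists_char' H hsq a ha
  have hker : χ₁.ker.index ≤ 2 := by
    rw [Subgroup.index_ker]
    have : Nat.card χ₁.range ≤ Nat.card ℤˣ := Nat.card_le_card_of_injective _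
      Subtype.val_injective
    refine this.trans ?_
    rw [Nat.card_eq_fintype_card]
    decide
  obtain ⟨b, hb1, hb⟩ : ∃ b ∈ χ₁.ker, b ∉ H := by
    by_contra h
    push Not at h
    have h2 : χ₁.ker = H := le_antisymm h fun x hx => h1 x hx
    rw [h2] at hker
    omega
  obtain ⟨χ₂, h2, h2b⟩ := exists_char' H hsq b hb
  refine ⟨χ₁, χ₂, h1, h2, ?_, ?_, ?_⟩
  · rintro rfl
    exact hneg h1a.symm
  · rintro rfl
    exact hneg h2b.symm
  · intro h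
    have h3 := DFunLike.congr_fun h b
    rw [MonoidHom.mul_apply, MonoidHom.mem_ker.1 hb1, h2b, one_mul] at h3
    exact hneg h3

/-! ### L-functions of real class characters -/

section
variable (F : Type*) [Field F] [NumberField F]

/-- This is what block T7 has to deliver. -/
def LBdd : Prop := ∀ χ : ClassGroup (𝓞 F) →* ℤˣ, χ ≠ 1 → ∃ C : ℝ, ∀ s : ℝ, 1 < s → s ≤ 2 →
  |∑' I : (Ideal (𝓞 F))⁰, ((χ (ClassGroup.mk0 I) : ℤ) : ℝ) *
    (Ideal.absNorm (I : Ideal (𝓞 F)) : ℝ) ^ (-s)| ≤ C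

/-- the twisted norm as a character of the monoid of nonzero ideals -/
noncomputable def tw (χ : ClassGroup (𝓞 F) →* ℤˣ) (s : ℝ) : (Ideal (𝓞 F))⁰ →* ℝ where
  toFun I := ((χ (ClassGroup.mk0 I) : ℤ) : ℝ) * (Ideal.absNorm (I : Ideal (𝓞 F)) : ℝ) ^ (-s)
  map_one' := by simp
  map_mul' I J := by
    simp only [map_mul, Units.val_mul, Int.cast_mul, Submonoid.coe_mul, Nat.cast_mul]
    rw [Real.mul_rpow (Nat.cast_nonneg _) (Nat.cast_nonneg _)]
    ring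

variable {F}

theorem abs_unit (u : ℤˣ) : |((u : ℤ) : ℝ)| = 1 := by
  rcases Int.units_eq_one_or u with h | h <;> simp [h]

theorem abs_tw (χ : ClassGroup (𝓞 F) →* ℤˣ) (s : ℝ) (I : (Ideal (𝓞 F))⁰) :
    |tw F χ s I| = (Ideal.absNorm (I : Ideal (𝓞 F)) : ℝ) ^ (-s) := by
  show |((χ (ClassGroup.mk0 I) : ℤ) : ℝ) * (Ideal.absNorm (I : Ideal (𝓞 F)) : ℝ) ^ (-s)| = _
  rw [abs_mul, abs_unit, one_mul, abs_of_nonneg (Real.rpow_nonneg (Nat.cast_nonneg _) _)]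

theorem two_le_norm (v : HeightOneSpectrum (𝓞 F)) : 2 ≤ (absNorm v.asIdeal : ℝ) := by
  have h0 : absNorm v.asIdeal ≠ 0 := by
    rw [Ne, Ideal.absNorm_eq_zero_iff]
    exact v.ne_bot
  have h1 : absNorm v.asIdeal ≠ 1 := by
    rw [Ne, Ideal.absNorm_eq_one_iff]
    exact v.isPrime.ne_top
  have : 2 ≤ absNorm v.asIdeal := by omega
  exact_mod_cast this

/-- `N(v)^{-s}` -/
noncomputable def xx (s : ℝ) (v : HeightOneSpectrum (𝓞 F)) : ℝ := (absNorm v.asIdeal : ℝ) ^ (-s)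

theorem xx_pos (s : ℝ) (v : HeightOneSpectrum (𝓞 F)) : 0 < xx s v :=
  Real.rpow_pos_of_pos (by linarith [two_le_norm v]) _

theorem xx_lt (s : ℝ) (hs : 0 < s) (v : HeightOneSpectrum (𝓞 F)) : xx s v < 1 :=
  Real.rpow_lt_one_of_one_lt_of_neg (by linarith [two_le_norm v]) (by linarith)

theorem tendsto_L (χ : ClassGroup (𝓞 F) →* ℤˣ) {s : ℝ} (hs : 1 < s) :
    Tendsto (fun S : Finset (HeightOneSpectrum (𝓞 F)) =>
      ∏ v ∈ S, (1 - ((χ (ClassGroup.mk0 (pr v)) : ℤ) : ℝ) * xx s v)⁻¹) atTop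
      (𝓝 (∑' I : (Ideal (𝓞 F))⁰, ((χ (ClassGroup.mk0 I) : ℤ) : ℝ) *
    (Ideal.absNorm (I : Ideal (𝓞 F)) : ℝ) ^ (-s))) := by
  refine tendsto_prod (tw F χ s) (fun v => ?_) ?_
  · rw [abs_tw]
    exact xx_lt s (by linarith) v
  · simp only [abs_tw]
    exact summable_norm F hs

theorem tendsto_zR_prod {s : ℝ} (hs : 1 < s) :
    Tendsto (fun S : Finset (HeightOneSpectrum (𝓞 F)) => ∏ v ∈ S, (1 - xx s v)⁻¹) atTop
      (𝓝 (zR F s)) := by
  have := tendsto_L (F := F) 1 hs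
  simpa [zR] using this

end

/-- the local factor of `ζ_F L(χ₁) L(χ₂) L(χ₁χ₂)` -/
theorem loc_ge {x : ℝ} (hx : 0 < x) (hx1 : x < 1) (a b : ℤˣ) :
    1 ≤ (1 - x)⁻¹ * (1 - ((a : ℤ) : ℝ) * x)⁻¹ * (1 - ((b : ℤ) : ℝ) * x)⁻¹ *
      (1 - (((a * b : ℤˣ) : ℤ) : ℝ) * x)⁻¹ := by
  have h1 : 0 < 1 - x := by linarith
  have h2 : 0 < 1 + x := by linarith
  have h3 : 1 ≤ (1 - x)⁻¹ := (one_le_inv₀ h1).2 (by linarith)
  have h4 : 1 ≤ (1 - x)⁻¹ * (1 + x)⁻¹ := by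
    rw [← mul_inv]
    refine (one_le_inv₀ (by positivity)).2 ?_
    nlinarith
  rcases Int.units_eq_one_or a with rfl | rfl <;> rcases Int.units_eq_one_or b with rfl | rfl
  · simp only [mul_one, Units.val_one, Int.cast_one, one_mul]
    nlinarith [mul_le_mul h3 h3 zero_le_one (by linarith)]
  · simp only [Units.val_one, Int.cast_one, one_mul, Units.val_neg, Int.cast_neg,
      neg_mul, sub_neg_eq_add]
    have e : (1 - x)⁻¹ * (1 - x)⁻¹ * (1 + x)⁻¹ * (1 + x)⁻¹ =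
      ((1 - x)⁻¹ * (1 + x)⁻¹) * ((1 - x)⁻¹ * (1 + x)⁻¹) := by ring
    rw [e]; nlinarith
  · simp only [Units.val_one, Int.cast_one, one_mul, Units.val_neg, Int.cast_neg,
      neg_mul, sub_neg_eq_add, mul_one]
    have e : (1 - x)⁻¹ * (1 + x)⁻¹ * (1 - x)⁻¹ * (1 + x)⁻¹ =
      ((1 - x)⁻¹ * (1 + x)⁻¹) * ((1 - x)⁻¹ * (1 + x)⁻¹) := by ring
    rw [e]; nlinarith
  · simp only [mul_neg, mul_one, neg_neg, Units.val_one, Int.cast_one, one_mul, Units.val_neg,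
      Int.cast_neg, neg_mul, sub_neg_eq_add]
    have e : (1 - x)⁻¹ * (1 + x)⁻¹ * (1 + x)⁻¹ * (1 - x)⁻¹ =
      ((1 - x)⁻¹ * (1 + x)⁻¹) * ((1 - x)⁻¹ * (1 + x)⁻¹) := by ring
    rw [e]; nlinarith

end Vale.Agent.P036.TW.T6
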