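import Mathlib

/-! # T7a: tent weights (partition of unity on the unit lattice) -/

open scoped BigOperators

namespace Vale.P036.TW

noncomputable section

/-- the tent function -/
def tent (t : ℝ) : ℝ := max 0 (1 - |t|)

lemma tent_nonneg (t : ℝ) : 0 ≤ tent t := le_max_left _ _

lemma tent_le_one (t : ℝ) : tent t ≤ 1 := by
  unfold tent
  exact max_le zero_le_one (by linarith [abs_nonneg t])

lemma tent_eq_zero {t : ℝ} (ht : 1 ≤ |t|) : tent t = 0 := by
  unfold tent
  exact max_eq_left (by linarith)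

lemma tent_lip (s t : ℝ) : |tent s - tent t| ≤ |s - t| := by
  unfold tent
  have h := abs_max_sub_max_le_abs (1 - |s|) (1 - |t|) 0
  rw [max_comm 0, max_comm 0]
  refine h.trans ?_
  have : (1 - |s|) - (1 - |t|) = |t| - |s| := by ring
  rw [this]
  have := abs_abs_sub_abs_le_abs_sub t s
  rwa [abs_sub_comm s t]

/-- sum of the tents over two consecutive integers -/
lemma tent_sum_pair (x : ℝ) :
    ∑ k ∈ ({⌊-x⌋, ⌊-x⌋ + 1} : Finset ℤ), tent (x + k) = 1 := by
  have h1 := Int.floor_le (-x)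
  have h2 := Int.lt_floor_add_one (-x)
  rw [Finset.sum_pair (by omega)]
  push_cast
  unfold tent
  rw [abs_of_nonpos (by linarith : x + (⌊-x⌋ : ℝ) ≤ 0),
    abs_of_nonneg (by linarith : (0:ℝ) ≤ x + ((⌊-x⌋ : ℝ) + 1)),
    max_eq_right (by linarith), max_eq_right (by linarith)]
  ring

lemma tent_eq_zero_of_notMem (x : ℝ) (k : ℤ) (hk : k ∉ ({⌊-x⌋, ⌊-x⌋ + 1} : Finset ℤ)) :
    tent (x + k) = 0 := by
  have h1 := Int.floor_le (-x)
  have h2 := Int.lt_floor_add_one (-x)
  simp only [Finset.mem_insert, Finset.mem_singleton, not_or] at hk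
  apply tent_eq_zero
  rcases lt_trichotomy k ⌊-x⌋ with h | h | h
  · have : (k : ℝ) + 1 ≤ ⌊-x⌋ := by exact_mod_cast h
    rw [abs_of_nonpos (by linarith)]
    linarith
  · exact absurd h hk.1
  · have h' : ⌊-x⌋ + 2 ≤ k := by omega
    have : ((⌊-x⌋ : ℤ) : ℝ) + 2 ≤ (k : ℝ) := by exact_mod_cast h'
    rw [abs_of_nonneg (by linarith)]
    linarith

/-- product tent functions form a partition of unity for translations by `ℤ^r` -/
lemma hasSum_tent {r : ℕ} (x : Fin r → ℝ) :
    HasSum (fun k : Fin r → ℤ => ∏ i, tent (x i + k i)) 1 := by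
  classical
  have h0 : ∀ k : Fin r → ℤ, k ∉ (Fintype.piFinset fun i => ({⌊-(x i)⌋, ⌊-(x i)⌋ + 1} : Finset ℤ)) →
      ∏ i, tent (x i + k i) = 0 := by
    intro k hk
    simp only [Fintype.mem_piFinset, not_forall] at hk
    obtain ⟨i, hi⟩ := hk
    exact Finset.prod_eq_zero (Finset.mem_univ i) (tent_eq_zero_of_notMem _ _ hi)
  have h : HasSum (fun k : Fin r → ℤ => ∏ i, tent (x i + k i))
      (∑ k ∈ (Fintype.piFinset fun i => ({⌊-(x i)⌋, ⌊-(x i)⌋ + 1} : Finset ℤ)),
        ∏ i, tent (x i + k i)) := hasSum_sum_of_ne_finset_zero h0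
  have h2 := Finset.prod_univ_sum (fun i => ({⌊-(x i)⌋, ⌊-(x i)⌋ + 1} : Finset ℤ))
      (fun i k => tent (x i + (k : ℤ)))
  rw [← h2] at h
  simp only [tent_sum_pair, Finset.prod_const_one] at h
  exact h

/-- the product of tents -/
def ptent {r : ℕ} (x : Fin r → ℝ) : ℝ := ∏ i, tent (x i)

lemma ptent_nonneg {r : ℕ} (x : Fin r → ℝ) : 0 ≤ ptent x :=
  Finset.prod_nonneg fun _ _ => tent_nonneg _

lemma ptent_le_one {r : ℕ} (x : Fin r → ℝ) : ptent x ≤ 1 :=
  Finset.prod_le_one (fun _ _ => tent_nonneg _) fun _ _ => tent_le_one _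

lemma abs_le_of_ptent_ne_zero {r : ℕ} {x : Fin r → ℝ} (h : ptent x ≠ 0) (i : Fin r) :
    |x i| ≤ 1 := by
  by_contra hlt
  exact h (Finset.prod_eq_zero (Finset.mem_univ i) (tent_eq_zero (by linarith)))

lemma ptent_lip {r : ℕ} (x y : Fin r → ℝ) {δ : ℝ} (h : ∀ i, |x i - y i| ≤ δ) :
    |ptent x - ptent y| ≤ r * δ := by
  have key : ∀ s : Finset (Fin r), |∏ i ∈ s, tent (x i) - ∏ i ∈ s, tent (y i)| ≤ s.card * δ := by
    classical
    intro s
    induction s using Finset.induction_on with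
    | empty => simp
    | insert a s ha ih =>
      rw [Finset.prod_insert ha, Finset.prod_insert ha, Finset.card_insert_of_notMem ha]
      have e : tent (x a) * ∏ i ∈ s, tent (x i) - tent (y a) * ∏ i ∈ s, tent (y i)
          = (tent (x a) - tent (y a)) * ∏ i ∈ s, tent (x i)
            + tent (y a) * (∏ i ∈ s, tent (x i) - ∏ i ∈ s, tent (y i)) := by ring
      rw [e]
      have p1 : |∏ i ∈ s, tent (x i)| ≤ 1 := by
        rw [abs_of_nonneg (Finset.prod_nonneg fun _ _ => tent_nonneg _)]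
        exact Finset.prod_le_one (fun _ _ => tent_nonneg _) fun _ _ => tent_le_one _
      have p2 : |tent (y a)| ≤ 1 := by
        rw [abs_of_nonneg (tent_nonneg _)]; exact tent_le_one _
      have p3 : |tent (x a) - tent (y a)| ≤ δ := (tent_lip _ _).trans (h a)
      have hδ : 0 ≤ δ := (abs_nonneg _).trans (h a)
      calc _ ≤ |(tent (x a) - tent (y a)) * ∏ i ∈ s, tent (x i)|
            + |tent (y a) * (∏ i ∈ s, tent (x i) - ∏ i ∈ s, tent (y i))| := abs_add_le _ _
        _ ≤ δ * 1 + 1 * (s.card * δ) := by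
            rw [abs_mul, abs_mul]
            gcongr
        _ = ((s.card + 1 : ℕ) : ℝ) * δ := by push_cast; ring
  simpa [ptent] using key Finset.univ

end

end Vale.P036.TW
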