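import Mathlib
import Vale.Agent.P036.TW.T7a

/-! # T7b: logarithmic coordinates modulo units -/

open scoped BigOperators

namespace Vale.P036.TW

open NumberField NumberField.InfinitePlace NumberField.mixedEmbedding NumberField.Units
  NumberField.Units.dirichletUnitTheorem Module

noncomputable section

variable (K : Type*) [Field K] [NumberField K]

/-- real basis of the log space given by the unit lattice -/
def ubasis : Basis (Fin (rank K)) ℝ (logSpace K) := by
  classical
  exact (basisUnitLattice K).ofZLatticeBasis ℝ (unitLattice K)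

lemma ubasis_apply (i : Fin (rank K)) :
    ubasis K i = logEmbedding K (Additive.ofMul (fundSystem K i)) := by
  classical
  rw [logEmbedding_fundSystem]
  unfold ubasis
  rw [Basis.ofZLatticeBasis_apply]

variable {K}

/-- logarithmic coordinates (with respect to the fundamental units) -/
def lam (a : K) (i : Fin (rank K)) : ℝ := (ubasis K).repr (logMap (mixedEmbedding K a)) i

/-- absolute value of the norm -/
def ns (a : K) : ℝ := mixedEmbedding.norm (mixedEmbedding K a)

lemma ns_eq (a : K) : ns a = |Algebra.norm ℚ a| := norm_eq_norm a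

lemma ns_eq_prod (a : K) : ns a = ∏ w : InfinitePlace K, (w a) ^ w.mult := by
  unfold ns
  rw [mixedEmbedding.norm_apply]
  simp

lemma ns_ne_zero {a : K} (ha : a ≠ 0) : ns a ≠ 0 := by
  rw [ns_eq_prod]
  exact Finset.prod_ne_zero_iff.mpr fun w _ => pow_ne_zero _ ((map_ne_zero w).mpr ha)

lemma ns_pos {a : K} (ha : a ≠ 0) : 0 < ns a :=
  lt_of_le_of_ne (mixedEmbedding.norm_nonneg _) (ns_ne_zero ha).symm

lemma ns_mul (a b : K) : ns (a * b) = ns a * ns b := by
  unfold ns; rw [map_mul, map_mul]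

lemma log_ns {a : K} (ha : a ≠ 0) :
    Real.log (ns a) = ∑ w : InfinitePlace K, (w.mult : ℝ) * Real.log (w a) := by
  rw [ns_eq_prod, Real.log_prod fun w _ => pow_ne_zero _ ((map_ne_zero w).mpr ha)]
  simp [Real.log_pow]

lemma finrank_pos_real : (0 : ℝ) < (finrank ℚ K : ℝ) := by
  exact_mod_cast finrank_pos

/-- comparability of the places on the support of the weight -/
lemma exists_comparable : ∃ C : ℝ, 0 ≤ C ∧ ∀ a : K, a ≠ 0 → (∀ i, |lam a i| ≤ 1) →
    ∀ w : InfinitePlace K, |Real.log (w a) - Real.log (ns a) * (finrank ℚ K : ℝ)⁻¹| ≤ C := by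
  classical
  set C1 : ℝ := ∑ i, ‖ubasis K i‖ with hC1
  have hC1' : 0 ≤ C1 := Finset.sum_nonneg fun _ _ => norm_nonneg _
  refine ⟨(Fintype.card (InfinitePlace K) : ℝ) * C1 + C1, by positivity, ?_⟩
  intro a ha hlam
  have hv : ‖logMap (mixedEmbedding K a)‖ ≤ C1 := by
    rw [← (ubasis K).sum_repr (logMap (mixedEmbedding K a))]
    refine (norm_sum_le _ _).trans (Finset.sum_le_sum fun i _ => ?_)
    rw [_root_.norm_smul]
    have := hlam i
    rw [lam] at this
    calc _ ≤ 1 * ‖ubasis K i‖ := by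
          gcongr
          simpa using this
      _ = _ := one_mul _
  have hbase : ∀ w : {w : InfinitePlace K // w ≠ w₀}, |(w.1.mult : ℝ) * (Real.log (w.1 a) -
      Real.log (ns a) * (finrank ℚ K : ℝ)⁻¹)| ≤ C1 := by
    intro w
    have := (norm_le_pi_norm (logMap (mixedEmbedding K a)) w).trans hv
    rw [logMap_apply, normAtPlace_apply] at this
    exact this
  have hsum : ∑ w : InfinitePlace K, (w.mult : ℝ) * (Real.log (w a) -
      Real.log (ns a) * (finrank ℚ K : ℝ)⁻¹) = 0 := by
    simp_rw [mul_sub]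
    rw [Finset.sum_sub_distrib, ← log_ns ha, ← Finset.sum_mul, ← Nat.cast_sum, sum_mult_eq]
    have := (finrank_pos_real (K := K)).ne'
    field_simp
    ring
  have hmain : ∀ w : InfinitePlace K, |(w.mult : ℝ) * (Real.log (w a) -
      Real.log (ns a) * (finrank ℚ K : ℝ)⁻¹)| ≤ (Fintype.card (InfinitePlace K) : ℝ) * C1 + C1 := by
    intro w
    by_cases hw : w = w₀
    · subst hw
      rw [Fintype.sum_eq_add_sum_subtype_ne _ (w₀ : InfinitePlace K)] at hsum
      rw [eq_neg_of_add_eq_zero_left hsum, abs_neg]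
      refine (Finset.abs_sum_le_sum_abs _ _).trans ?_
      refine (Finset.sum_le_sum fun w _ => hbase w).trans ?_
      rw [Finset.sum_const, nsmul_eq_mul]
      have h2 : ((Finset.univ : Finset {w : InfinitePlace K // w ≠ w₀}).card : ℝ)
          ≤ (Fintype.card (InfinitePlace K) : ℝ) := by
        exact_mod_cast Fintype.card_subtype_le _
      nlinarith
    · refine (hbase ⟨w, hw⟩).trans ?_
      have : 0 ≤ (Fintype.card (InfinitePlace K) : ℝ) * C1 := by positivity
      linarith
  intro w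
  refine le_trans ?_ (hmain w)
  rw [abs_mul]
  have : (1 : ℝ) ≤ |(w.mult : ℝ)| := by
    rw [abs_of_nonneg (Nat.cast_nonneg _)]
    exact_mod_cast one_le_mult
  nlinarith [abs_nonneg (Real.log (w a) - Real.log (ns a) * (finrank ℚ K : ℝ)⁻¹)]

/-- Lipschitz property of the coordinates -/
lemma exists_lam_lip : ∃ C : ℝ, 0 ≤ C ∧ ∀ a b : K, a ≠ 0 → b ≠ 0 → ∀ δ : ℝ, 0 ≤ δ →
    (∀ w : InfinitePlace K, |Real.log (w a) - Real.log (w b)| ≤ δ) →
    ∀ i, |lam a i - lam b i| ≤ C * δ := by
  classical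
  set D : Fin (rank K) → ℝ := fun i =>
    ‖LinearMap.toContinuousLinearMap ((ubasis K).coord i)‖ with hD
  refine ⟨(∑ i, D i) * 4, by
    have : 0 ≤ ∑ i, D i := Finset.sum_nonneg fun _ _ => norm_nonneg _
    positivity, ?_⟩
  intro a b ha hb δ hδ h i
  have hn := finrank_pos_real (K := K)
  have hlog : |Real.log (ns a) - Real.log (ns b)| ≤ (finrank ℚ K : ℝ) * δ := by
    rw [log_ns ha, log_ns hb, ← Finset.sum_sub_distrib]
    refine (Finset.abs_sum_le_sum_abs _ _).trans ?_
    calc _ ≤ ∑ w : InfinitePlace K, (w.mult : ℝ) * δ := by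
          refine Finset.sum_le_sum fun w _ => ?_
          rw [← mul_sub, abs_mul, abs_of_nonneg (Nat.cast_nonneg _)]
          gcongr
          exact h w
      _ = _ := by rw [← Finset.sum_mul, ← Nat.cast_sum, sum_mult_eq]
  have hv : ‖logMap (mixedEmbedding K a) - logMap (mixedEmbedding K b)‖ ≤ 4 * δ := by
    rw [pi_norm_le_iff_of_nonneg (by positivity)]
    intro w
    rw [Pi.sub_apply, logMap_apply, logMap_apply, normAtPlace_apply, normAtPlace_apply]
    change ‖(w.1.mult : ℝ) * (Real.log (w.1 a) - Real.log (ns a) * (finrank ℚ K : ℝ)⁻¹)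
      - (w.1.mult : ℝ) * (Real.log (w.1 b) - Real.log (ns b) * (finrank ℚ K : ℝ)⁻¹)‖ ≤ 4 * δ
    rw [← mul_sub, Real.norm_eq_abs, abs_mul, abs_of_nonneg (Nat.cast_nonneg _)]
    have e : (Real.log (w.1 a) - Real.log (ns a) * (finrank ℚ K : ℝ)⁻¹) -
      (Real.log (w.1 b) - Real.log (ns b) * (finrank ℚ K : ℝ)⁻¹) =
      (Real.log (w.1 a) - Real.log (w.1 b)) -
        (Real.log (ns a) - Real.log (ns b)) * (finrank ℚ K : ℝ)⁻¹ := by ring
    rw [e]
    have h1 : |(Real.log (ns a) - Real.log (ns b)) * (finrank ℚ K : ℝ)⁻¹| ≤ δ := by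
      rw [abs_mul, abs_of_pos (inv_pos.mpr hn)]
      calc _ ≤ (finrank ℚ K : ℝ) * δ * (finrank ℚ K : ℝ)⁻¹ := by gcongr
        _ = δ := by field_simp
    have h2 : |(Real.log (w.1 a) - Real.log (w.1 b)) -
        (Real.log (ns a) - Real.log (ns b)) * (finrank ℚ K : ℝ)⁻¹| ≤ 2 * δ := by
      refine (abs_sub _ _).trans ?_
      linarith [h w.1]
    have h3 : (w.1.mult : ℝ) ≤ 2 := by
      have : w.1.mult ≤ 2 := by unfold mult; split_ifs <;> norm_num
      exact_mod_cast this
    calc _ ≤ 2 * (2 * δ) := by gcongr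
      _ = 4 * δ := by ring
  have e : lam a i - lam b i = LinearMap.toContinuousLinearMap ((ubasis K).coord i)
      (logMap (mixedEmbedding K a) - logMap (mixedEmbedding K b)) := by
    simp [lam]
  rw [e, ← Real.norm_eq_abs]
  refine (ContinuousLinearMap.le_opNorm _ _).trans ?_
  have h5 : D i ≤ ∑ i, D i := Finset.single_le_sum (f := D) (fun _ _ => norm_nonneg _)
    (Finset.mem_univ i)
  calc _ ≤ (∑ i, D i) * (4 * δ) := by
        gcongr
    _ = _ := by ring

/-- effect of units on the coordinates -/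
lemma lam_unit_mul (ζ : torsion K) (k : Fin (rank K) → ℤ) {a : K} (ha : a ≠ 0)
    (i : Fin (rank K)) :
    lam ((((ζ : (𝓞 K)ˣ) * ∏ i, (fundSystem K i) ^ (k i) : (𝓞 K)ˣ) : K) * a) i
      = lam a i + k i := by
  classical
  unfold lam
  set u : (𝓞 K)ˣ := (ζ : (𝓞 K)ˣ) * ∏ i, (fundSystem K i) ^ (k i) with hu
  have h1 : mixedEmbedding.norm (mixedEmbedding K (u : K)) ≠ 0 := by
    rw [norm_unit]; norm_num
  have h2 : mixedEmbedding.norm (mixedEmbedding K a) ≠ 0 := ns_ne_zero ha
  rw [map_mul, logMap_mul h1 h2, logMap_eq_logEmbedding, map_add, Finsupp.add_apply, add_comm]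
  congr 1
  have h3 : logEmbedding K (Additive.ofMul u) = ∑ j, (k j : ℝ) • ubasis K j := by
    rw [hu, ofMul_mul, map_add, logEmbedding_eq_zero_iff.mpr ζ.2, zero_add, ofMul_prod, map_sum]
    refine Finset.sum_congr rfl fun j _ => ?_
    rw [ofMul_zpow, map_zsmul, ubasis_apply, Int.cast_smul_eq_zsmul]
  rw [h3, map_sum, Finset.sum_apply']
  simp [Finsupp.single_apply]

end

end Vale.P036.TW
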