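import Mathlib
import Vale.Agent.P036.TW.T7b

/-! # T7c: the weighted norm power and its variation -/

open scoped BigOperators

namespace Vale.P036.TW

open NumberField NumberField.InfinitePlace NumberField.mixedEmbedding NumberField.Units
  NumberField.Units.dirichletUnitTheorem Module

noncomputable section

variable {K : Type*} [Field K] [NumberField K]

/-- size of an element: sup of the absolute values -/
def sz (a : K) : ℝ :=
  Finset.univ.sup' (Finset.univ_nonempty (α := InfinitePlace K)) fun w => w a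

lemma place_le_sz (w : InfinitePlace K) (a : K) : w a ≤ sz a := by
  unfold sz
  exact Finset.le_sup' (fun w : InfinitePlace K => w a) (Finset.mem_univ w)

lemma exists_place_eq_sz (a : K) : ∃ w : InfinitePlace K, w a = sz a := by
  obtain ⟨w, -, hw⟩ := Finset.exists_mem_eq_sup' (Finset.univ_nonempty (α := InfinitePlace K))
    (fun w => w a)
  exact ⟨w, hw.symm⟩

lemma sz_nonneg (a : K) : 0 ≤ sz a := by
  obtain ⟨w, hw⟩ := exists_place_eq_sz a
  rw [← hw]
  exact apply_nonneg w a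

lemma sz_sub_le (a b : K) : sz a - sz b ≤ sz (a - b) := by
  obtain ⟨w, hw⟩ := exists_place_eq_sz a
  have h1 := w.1.add_le (a - b) b
  rw [sub_add_cancel] at h1
  have h2 : w a ≤ w (a - b) + w b := h1
  linarith [place_le_sz w (a - b), place_le_sz w b]

omit [NumberField K] in
lemma place_neg (w : InfinitePlace K) (a : K) : w (-a) = w a := w.1.map_neg a

lemma sz_neg (a : K) : sz (-a) = sz a := by
  unfold sz
  simp_rw [place_neg]

lemma sz_zero : sz (0 : K) = 0 := by
  obtain ⟨w, hw⟩ := exists_place_eq_sz (0 : K)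
  rw [← hw, map_zero]

lemma norm_eq_sz (a : K) : (letI := Classical.decPred (fun w : InfinitePlace K => IsReal w);
    letI := Classical.decPred (fun w : InfinitePlace K => IsComplex w);
    ‖mixedEmbedding K a‖) = sz a := by
  classical
  rw [norm_eq_sup'_normAtPlace]
  unfold sz
  simp only [normAtPlace_apply]

lemma sz_pos {a : K} (ha : a ≠ 0) : 0 < sz a := by
  obtain ⟨w, hw⟩ := exists_place_eq_sz a
  rw [← hw]
  exact InfinitePlace.pos_iff.mpr ha

lemma one_le_ns {α : 𝓞 K} (hα : α ≠ 0) : 1 ≤ ns (α : K) := by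
  rw [ns_eq]
  have h1 : (Algebra.norm ℚ (α : K)) = (Algebra.norm ℤ α : ℤ) := by
    rw [← Algebra.coe_norm_int]
  rw [h1]
  have h2 : Algebra.norm ℤ α ≠ 0 := Algebra.norm_ne_zero_iff.mpr hα
  have h3 : 1 ≤ |Algebra.norm ℤ α| := Int.one_le_abs h2
  exact_mod_cast h3

/-- comparability, multiplicative form -/
lemma exists_comparable' : ∃ c : ℝ, 0 < c ∧ ∀ a : K, a ≠ 0 → ptent (lam a) ≠ 0 →
    ∀ w : InfinitePlace K, c * sz a ≤ w a := by
  obtain ⟨C, hC0, hC⟩ := exists_comparable (K := K)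
  refine ⟨Real.exp (-(2 * C)), Real.exp_pos _, ?_⟩
  intro a ha hsupp w
  have h := hC a ha (fun i => abs_le_of_ptent_ne_zero hsupp i)
  obtain ⟨w', hw'⟩ := exists_place_eq_sz a
  have h1 := abs_le.mp (h w)
  have h2 := abs_le.mp (h w')
  have hpos : 0 < w a := InfinitePlace.pos_iff.mpr ha
  rw [← hw']
  have hpos' : 0 < w' a := InfinitePlace.pos_iff.mpr ha
  rw [← Real.log_le_log_iff (by positivity) hpos, Real.log_mul (Real.exp_pos _).ne' hpos'.ne',
    Real.log_exp]
  linarith [h1.1, h2.2]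

/-- the weighted norm power -/
def FF (s : ℝ) (a : K) : ℝ := ptent (lam a) * (ns a) ^ (-s)

lemma FF_nonneg (s : ℝ) (a : K) : 0 ≤ FF s a :=
  mul_nonneg (ptent_nonneg _) (Real.rpow_nonneg (mixedEmbedding.norm_nonneg _) _)

lemma ns_zero : ns (0 : K) = 0 := by unfold ns; simp

lemma FF_zero {s : ℝ} (hs : s ≠ 0) : FF s (0 : K) = 0 := by
  unfold FF
  rw [ns_zero, Real.zero_rpow (by simpa using hs), mul_zero]

lemma FF_le_one {s : ℝ} (hs : 1 ≤ s) (α : 𝓞 K) : FF s (α : K) ≤ 1 := by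
  by_cases hα : α = 0
  · subst hα
    rw [RingOfIntegers.coe_eq_algebraMap, map_zero, FF_zero (by linarith)]; norm_num
  · unfold FF
    have h1 := Real.rpow_le_one_of_one_le_of_nonpos (one_le_ns hα) (by linarith : -s ≤ 0)
    have h2 : 0 ≤ (ns (α : K)) ^ (-s) := Real.rpow_nonneg (mixedEmbedding.norm_nonneg _) _
    calc _ ≤ 1 * 1 := mul_le_mul (ptent_le_one _) h1 h2 zero_le_one
      _ = 1 := one_mul 1

lemma abs_exp_sub_one_le' (t : ℝ) : |Real.exp t - 1| ≤ |t| * Real.exp |t| := by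
  rcases le_total 0 t with h | h
  · rw [abs_of_nonneg h, abs_of_nonneg (by linarith [Real.add_one_le_exp t])]
    have h1 := Real.add_one_le_exp (-t)
    have h2 : Real.exp (-t) * Real.exp t = 1 := by rw [← Real.exp_add]; simp
    nlinarith [Real.exp_pos t]
  · rw [abs_of_nonpos h, abs_of_nonpos (by
      have : Real.exp t ≤ 1 := Real.exp_le_one_iff.mpr h
      linarith)]
    have h1 := Real.add_one_le_exp t
    have h2 : 1 ≤ Real.exp (-t) := Real.one_le_exp (by linarith)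
    nlinarith

/-- lower bound of the norm on the support of the weight -/
lemma ns_ge_of_places {a : K} {x : ℝ} (hx : 0 ≤ x) (h : ∀ w : InfinitePlace K, x ≤ w a) :
    x ^ (finrank ℚ K) ≤ ns a := by
  rw [ns_eq_prod, ← sum_mult_eq (K := K), ← Finset.prod_pow_eq_pow_sum]
  exact Finset.prod_le_prod (fun _ _ => pow_nonneg hx _) fun w _ => pow_le_pow_left₀ hx (h w) _

lemma log_close {x y δ : ℝ} (hy : 0 < y) (hδ0 : 0 ≤ δ) (hδ1 : δ ≤ 1)
    (h : |x - y| ≤ δ / 2 * y) : 0 < x ∧ |Real.log x - Real.log y| ≤ δ := by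
  have h' := abs_le.mp h
  have hx2 : y / 2 ≤ x := by nlinarith [h'.1]
  have hx : 0 < x := by linarith
  refine ⟨hx, ?_⟩
  rw [← Real.log_div hx.ne' hy.ne', abs_le]
  constructor
  · have h1 := Real.one_sub_inv_le_log_of_pos (div_pos hx hy)
    refine le_trans ?_ h1
    rw [inv_div]
    have : y / x ≤ 1 + δ := by
      rw [div_le_iff₀ hx]
      nlinarith [h'.1]
    linarith
  · have h1 := Real.log_le_sub_one_of_pos (div_pos hx hy)
    refine h1.trans ?_
    have : x / y ≤ 1 + δ := by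
      rw [div_le_iff₀ hy]
      nlinarith [h'.2]
    linarith

lemma exp_close {n La Lb s δ : ℝ} (hn : 0 ≤ n) (hs1 : 1 ≤ s) (hs2 : s ≤ 2) (hδ0 : 0 ≤ δ)
    (hδ1 : δ ≤ 1) (h : |Lb - La| ≤ n * δ) :
    Real.exp (Lb * (-s)) ≤ Real.exp (La * (-s)) * Real.exp (2 * n) ∧
    |Real.exp (Lb * (-s)) - Real.exp (La * (-s))| ≤
      Real.exp (La * (-s)) * (2 * n * δ * Real.exp (2 * n)) := by
  set t : ℝ := -s * (Lb - La) with ht
  have hEbt : Real.exp (Lb * (-s)) = Real.exp (La * (-s)) * Real.exp t := by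
    rw [← Real.exp_add, ht]
    congr 1; ring
  have htabs : |t| ≤ 2 * n * δ := by
    rw [ht, abs_mul, abs_neg, abs_of_pos (by linarith)]
    calc _ ≤ 2 * (n * δ) := by gcongr
      _ = _ := by ring
  have htabs' : |t| ≤ 2 * n := htabs.trans (by
    calc 2 * n * δ ≤ 2 * n * 1 := by gcongr
      _ = 2 * n := by ring)
  have hexp : Real.exp |t| ≤ Real.exp (2 * n) := Real.exp_le_exp.mpr htabs'
  have hpos := Real.exp_pos (La * (-s))
  constructor
  · rw [hEbt]
    gcongr
    exact (le_abs_self t).trans htabs'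
  · have : Real.exp (Lb * (-s)) - Real.exp (La * (-s))
        = Real.exp (La * (-s)) * (Real.exp t - 1) := by rw [hEbt]; ring
    rw [this, abs_mul, abs_of_pos hpos]
    refine mul_le_mul_of_nonneg_left ((abs_exp_sub_one_le' t).trans ?_) hpos.le
    gcongr

omit [NumberField K] in
lemma places_close {a b : K} {c R S δ : ℝ} (hc0 : 0 < c) (hS0 : 0 < S)
    (hδ : δ = 2 * R / (c * S)) (hδ0 : 0 ≤ δ) (hδ1 : δ ≤ 1)
    (hab : ∀ w : InfinitePlace K, w (b - a) ≤ R) (hplace : ∀ w : InfinitePlace K, c * S ≤ w a)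
    (w : InfinitePlace K) : 0 < w b ∧ |Real.log (w b) - Real.log (w a)| ≤ δ := by
  have hcS : 0 < c * S := mul_pos hc0 hS0
  have hwa : 0 < w a := lt_of_lt_of_le hcS (hplace w)
  refine log_close hwa hδ0 hδ1 ?_
  have h1 : |w b - w a| ≤ w (b - a) := by
    have e1 : w b ≤ w (b - a) + w a := by
      have := w.1.add_le (b - a) a
      rw [sub_add_cancel] at this
      exact this
    have e2 : w a ≤ w (b - a) + w b := by
      have := w.1.add_le (a - b) b
      rw [sub_add_cancel, w.1.map_sub a b] at this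
      exact this
    rw [abs_le]; constructor <;> linarith
  refine (h1.trans (hab w)).trans ?_
  have h2 : R = δ / 2 * (c * S) := by
    rw [hδ]; field_simp
  have h3 : δ / 2 * (c * S) ≤ δ / 2 * w a := mul_le_mul_of_nonneg_left (hplace w) (by linarith)
  linarith

lemma log_ns_close {a b : K} (ha : a ≠ 0) (hb : b ≠ 0) {δ : ℝ}
    (h : ∀ w : InfinitePlace K, |Real.log (w b) - Real.log (w a)| ≤ δ) :
    |Real.log (ns b) - Real.log (ns a)| ≤ (finrank ℚ K : ℝ) * δ := by
  rw [log_ns ha, log_ns hb, ← Finset.sum_sub_distrib]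
  refine (Finset.abs_sum_le_sum_abs _ _).trans ?_
  calc _ ≤ ∑ w : InfinitePlace K, (w.mult : ℝ) * δ := by
        refine Finset.sum_le_sum fun w _ => ?_
        rw [← mul_sub, abs_mul, abs_of_nonneg (Nat.cast_nonneg _)]
        exact mul_le_mul_of_nonneg_left (h w) (Nat.cast_nonneg _)
    _ = _ := by rw [← Finset.sum_mul, ← Nat.cast_sum, sum_mult_eq]

lemma combine_close {pa pb Ea Eb r CB δ n X : ℝ} (hpa0 : 0 ≤ pa) (hpa1 : pa ≤ 1)
    (hEb0 : 0 ≤ Eb) (hr : 0 ≤ r) (hCB : 0 ≤ CB) (hδ : 0 ≤ δ)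
    (hp : |pb - pa| ≤ r * (CB * δ)) (h1 : Eb ≤ Ea * X) (h2 : |Eb - Ea| ≤ Ea * (2 * n * δ * X)) :
    |pb * Eb - pa * Ea| ≤ Ea * δ * (X * (r * CB + 2 * n)) := by
  have e : pb * Eb - pa * Ea = (pb - pa) * Eb + pa * (Eb - Ea) := by ring
  rw [e]
  refine (abs_add_le _ _).trans ?_
  rw [abs_mul, abs_mul, abs_of_nonneg hEb0, abs_of_nonneg hpa0]
  have i1 : |pb - pa| * Eb ≤ (r * (CB * δ)) * (Ea * X) :=
    mul_le_mul hp h1 hEb0 (by positivity)
  have i2 : pa * |Eb - Ea| ≤ 1 * (Ea * (2 * n * δ * X)) :=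
    mul_le_mul hpa1 h2 (abs_nonneg _) zero_le_one
  calc _ ≤ (r * (CB * δ)) * (Ea * X) + 1 * (Ea * (2 * n * δ * X)) := add_le_add i1 i2
    _ = _ := by ring

/-- variation of `FF` near a point of the support -/
lemma diff_bound_supp (R : ℝ) (hR : 0 ≤ R) : ∃ C R₁ : ℝ, 0 ≤ C ∧ 1 ≤ R₁ ∧
    ∀ a b : K, (∀ w : InfinitePlace K, w (b - a) ≤ R) → ptent (lam a) ≠ 0 → R₁ ≤ sz a →
    1 ≤ ns a → ∀ s : ℝ, 1 ≤ s → s ≤ 2 →
    |FF s b - FF s a| ≤ C * ((sz a) ^ (finrank ℚ K + 1))⁻¹ := by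
  obtain ⟨c, hc0, hc⟩ := exists_comparable' (K := K)
  obtain ⟨CB, hCB0, hCB⟩ := exists_lam_lip (K := K)
  have hn0 : (0:ℝ) ≤ (finrank ℚ K : ℝ) := Nat.cast_nonneg _
  have hr0 : (0:ℝ) ≤ (rank K : ℝ) := Nat.cast_nonneg _
  refine ⟨(c ^ (finrank ℚ K))⁻¹ * (2 * R / c) * (Real.exp (2 * (finrank ℚ K : ℝ)) *
      ((rank K : ℝ) * CB + 2 * (finrank ℚ K : ℝ))),
    max 1 (2 * R / c), by positivity, le_max_left _ _, ?_⟩
  intro a b hab hsupp hS hns s hs1 hs2
  have hS1 : 1 ≤ sz a := (le_max_left _ _).trans hS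
  have hS0 : 0 < sz a := by linarith
  have ha : a ≠ 0 := by
    rintro rfl
    rw [ns_zero] at hns; linarith
  obtain ⟨δ, hδ⟩ : ∃ δ : ℝ, δ = 2 * R / (c * sz a) := ⟨_, rfl⟩
  have hδ0 : 0 ≤ δ := by rw [hδ]; positivity
  have hδ1 : δ ≤ 1 := by
    rw [hδ, div_le_one (by positivity)]
    have := (le_max_right _ _).trans hS
    rw [div_le_iff₀ hc0] at this
    linarith
  have hplace := hc a ha hsupp
  have hclose := places_close hc0 hS0 hδ hδ0 hδ1 hab hplace
  have hb : b ≠ 0 := by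
    obtain ⟨w⟩ := (inferInstance : Nonempty (InfinitePlace K))
    exact InfinitePlace.pos_iff.mp (hclose w).1
  have hlam := hCB b a hb ha δ hδ0 (fun w => (hclose w).2)
  have hpt := ptent_lip (lam b) (lam a) hlam
  have hnsa := ns_pos ha
  have hnsb := ns_pos hb
  have hlog := log_ns_close ha hb (fun w => (hclose w).2)
  obtain ⟨hE1, hE2⟩ := exp_close hn0 hs1 hs2 hδ0 hδ1 hlog
  have hEa_le : Real.exp (Real.log (ns a) * (-s)) ≤ ((c * sz a) ^ (finrank ℚ K))⁻¹ := by
    rw [← Real.rpow_def_of_pos hnsa]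
    have h1 : (ns a) ^ (-s) ≤ (ns a) ^ (-1 : ℝ) :=
      Real.rpow_le_rpow_of_exponent_le hns (by linarith)
    rw [Real.rpow_neg_one] at h1
    refine h1.trans ?_
    apply inv_anti₀ (by positivity)
    exact ns_ge_of_places (by positivity) hplace
  have hmain := combine_close (ptent_nonneg (lam a)) (ptent_le_one (lam a))
    (Real.exp_pos (Real.log (ns b) * (-s))).le
    hr0 hCB0 hδ0 hpt hE1 hE2
  rw [← Real.rpow_def_of_pos hnsa, ← Real.rpow_def_of_pos hnsb] at hmain
  rw [← Real.rpow_def_of_pos hnsa] at hEa_le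
  unfold FF
  refine hmain.trans ?_
  have hX : 0 ≤ Real.exp (2 * (finrank ℚ K : ℝ)) *
      ((rank K : ℝ) * CB + 2 * (finrank ℚ K : ℝ)) := by positivity
  generalize Real.exp (2 * (finrank ℚ K : ℝ)) *
      ((rank K : ℝ) * CB + 2 * (finrank ℚ K : ℝ)) = X at hX ⊢
  have e2 : (c ^ (finrank ℚ K))⁻¹ * (2 * R / c) * X *
      ((sz a) ^ (finrank ℚ K + 1))⁻¹ = ((c * sz a) ^ (finrank ℚ K))⁻¹ * δ * X := by
    rw [hδ, mul_pow, pow_succ]
    field_simp
  rw [e2]
  have h5 : (ns a) ^ (-s) * δ ≤ ((c * sz a) ^ (finrank ℚ K))⁻¹ * δ :=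
    mul_le_mul_of_nonneg_right hEa_le hδ0
  exact mul_le_mul_of_nonneg_right h5 hX

open scoped Classical in
/-- the dominating function on the lattice -/
def gg (α : 𝓞 K) : ℝ := ((sz (α : K)) ^ (finrank ℚ K + 1))⁻¹ + (if α = 0 then 1 else 0)

lemma gg_nonneg (α : 𝓞 K) : 0 ≤ gg α := by
  unfold gg
  have := sz_nonneg (α : K)
  positivity

/-- translation estimate on the lattice -/
lemma diff_bound (β : 𝓞 K) : ∃ C : ℝ, 0 ≤ C ∧ ∀ α : 𝓞 K, ∀ s : ℝ, 1 ≤ s → s ≤ 2 →
    |FF s ((α + β : 𝓞 K) : K) - FF s (α : K)| ≤ C * gg α := by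
  classical
  set R := sz (β : K) with hR
  have hR0 : 0 ≤ R := sz_nonneg _
  obtain ⟨C, R₁, hC0, hR₁, hC⟩ := diff_bound_supp (K := K) R hR0
  set n : ℕ := finrank ℚ K with hn
  set R₂ : ℝ := 2 * R₁ + 2 * R with hR₂
  have hR₂1 : 1 ≤ R₂ := by linarith
  refine ⟨C * 2 ^ (n + 1) + 2 * R₂ ^ (n + 1) + 2, by positivity, ?_⟩
  intro α s hs1 hs2
  have hcoe : ((α + β : 𝓞 K) : K) = (α : K) + (β : K) := by
    simp
  have hdiff1 : |FF s ((α + β : 𝓞 K) : K) - FF s (α : K)| ≤ 1 := by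
    have h1 := FF_nonneg s ((α + β : 𝓞 K) : K)
    have h2 := FF_le_one hs1 (α + β)
    have h3 := FF_nonneg s (α : K)
    have h4 := FF_le_one hs1 α
    rw [abs_le]; constructor <;> linarith
  by_cases hα : α = 0
  · refine hdiff1.trans ?_
    have : (1:ℝ) ≤ gg α := by
      unfold gg
      rw [if_pos hα]
      have := sz_nonneg (α : K)
      have : 0 ≤ ((sz (α : K)) ^ (finrank ℚ K + 1))⁻¹ := by positivity
      linarith
    calc (1:ℝ) ≤ gg α := this
      _ = 1 * gg α := (one_mul _).symm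
      _ ≤ _ := by
        have hg := gg_nonneg α
        gcongr
        have h1 : 0 ≤ C * 2 ^ (n + 1) := by positivity
        have h2 : 0 ≤ 2 * R₂ ^ (n + 1) := by positivity
        linarith
  have hα' : (α : K) ≠ 0 := by
    rw [RingOfIntegers.coe_eq_algebraMap]
    simpa using hα
  have hSpos : 0 < sz (α : K) := sz_pos hα'
  have hgg : gg α = ((sz (α : K)) ^ (n + 1))⁻¹ := by
    unfold gg; rw [if_neg hα, add_zero]
  rw [hgg]
  by_cases hbig : sz (α : K) < R₂
  · refine hdiff1.trans ?_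
    have h1 : (1:ℝ) ≤ R₂ ^ (n + 1) * ((sz (α : K)) ^ (n + 1))⁻¹ := by
      rw [← div_eq_mul_inv, one_le_div (by positivity)]
      gcongr
    have h2 : 0 ≤ ((sz (α : K)) ^ (n + 1))⁻¹ := by positivity
    have h3 : 0 ≤ C * 2 ^ (n + 1) := by positivity
    nlinarith
  push Not at hbig
  have hszsum : sz (α : K) / 2 ≤ sz ((α + β : 𝓞 K) : K) := by
    have h1 := sz_sub_le (α : K) (-(β : K))
    rw [sub_neg_eq_add, ← hcoe, sz_neg, ← hR] at h1
    linarith
  have hinv0 : 0 ≤ ((sz (α : K)) ^ (n + 1))⁻¹ := by positivity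
  have hfin : ∀ x : ℝ, x ≤ C * 2 ^ (n + 1) * ((sz (α : K)) ^ (n + 1))⁻¹ →
      x ≤ (C * 2 ^ (n + 1) + 2 * R₂ ^ (n + 1) + 2) * ((sz (α : K)) ^ (n + 1))⁻¹ := by
    intro x hx
    refine hx.trans ?_
    gcongr
    have : 0 ≤ 2 * R₂ ^ (n + 1) := by positivity
    linarith
  by_cases h1 : ptent (lam (α : K)) ≠ 0
  · apply hfin
    have := hC (α : K) ((α + β : 𝓞 K) : K) (by
      intro w
      rw [hcoe, add_sub_cancel_left]
      exact place_le_sz w _) h1 (by linarith) (one_le_ns hα) s hs1 hs2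
    refine this.trans ?_
    gcongr
    have : (1:ℝ) ≤ 2 ^ (n + 1) := one_le_pow₀ (by norm_num)
    nlinarith
  push Not at h1
  by_cases h2 : ptent (lam ((α + β : 𝓞 K) : K)) ≠ 0
  · apply hfin
    have hne : (α + β : 𝓞 K) ≠ 0 := by
      intro h0
      have : sz ((α + β : 𝓞 K) : K) = 0 := by
        rw [h0]; simp [sz]
      linarith
    have := hC ((α + β : 𝓞 K) : K) (α : K) (by
      intro w
      rw [hcoe, sub_add_cancel_left]
      have := place_le_sz w (-(β : K))
      rwa [sz_neg] at this) h2 (by linarith) (one_le_ns hne) s hs1 hs2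
    rw [abs_sub_comm] at this
    refine this.trans ?_
    rw [mul_assoc]
    gcongr
    have e : (2:ℝ) ^ (n + 1) * ((sz (α : K)) ^ (n + 1))⁻¹ = ((sz (α : K) / 2) ^ (n + 1))⁻¹ := by
      rw [div_pow, inv_div, div_eq_mul_inv]
    rw [e]
    apply inv_anti₀ (by positivity)
    gcongr
  push Not at h2
  apply hfin
  unfold FF
  rw [h1, h2]
  simp only [zero_mul, sub_zero, abs_zero]
  positivity

/-- summability over the ring of integers -/
lemma summable_sz_rpow {r : ℝ} (hr : r < -(finrank ℚ K : ℝ)) :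
    Summable fun α : 𝓞 K => (sz (α : K)) ^ r := by
  classical
  have h1 : finrank ℤ (mixedEmbedding.integerLattice K) = finrank ℚ K := by
    rw [ZLattice.rank ℝ, mixedEmbedding.finrank]
  have h := ZLattice.summable_norm_rpow (mixedEmbedding.integerLattice K) r (by rw [h1]; exact hr)
  have hmem : ∀ α : 𝓞 K, mixedEmbedding K (α : K) ∈ mixedEmbedding.integerLattice K :=
    fun α => ⟨α, rfl⟩
  have hf : Function.Injective (fun α : 𝓞 K =>
      (⟨mixedEmbedding K (α : K), hmem α⟩ : mixedEmbedding.integerLattice K)) := by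
    intro x y hxy
    exact RingOfIntegers.ext (mixedEmbedding_injective K (congrArg Subtype.val hxy))
  refine (h.comp_injective hf).congr fun α => ?_
  rw [← norm_eq_sz]
  rfl

lemma summable_gg : Summable (gg (K := K)) := by
  classical
  unfold gg
  apply Summable.add
  · have := summable_sz_rpow (K := K) (r := -((finrank ℚ K : ℝ) + 1)) (by linarith)
    refine this.congr fun α => ?_
    rw [Real.rpow_neg (sz_nonneg _)]
    norm_cast
  · exact summable_of_ne_finset_zero (s := {0}) fun b hb => by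
      rw [if_neg (by simpa using hb)]

lemma summable_FF {s : ℝ} (hs : 1 < s) : Summable fun α : 𝓞 K => FF s (α : K) := by
  obtain ⟨c, hc0, hc⟩ := exists_comparable' (K := K)
  set n : ℕ := finrank ℚ K with hn
  have hn0 : (0 : ℝ) < n := finrank_pos_real
  have h := (summable_sz_rpow (K := K) (r := -((n : ℝ) * s)) (by nlinarith)).mul_left
    (c ^ (-((n : ℝ) * s)))
  refine Summable.of_nonneg_of_le (fun α => FF_nonneg _ _) (fun α => ?_) h
  have hS := sz_nonneg (α : K)
  by_cases hα : (α : K) = 0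
  · have h0 : FF s (α : K) = 0 := by rw [hα, FF_zero (by linarith)]
    rw [h0]
    positivity
  by_cases h1 : ptent (lam (α : K)) = 0
  · unfold FF
    rw [h1, zero_mul]
    positivity
  have h2 := hc _ hα h1
  have hSp := sz_pos hα
  have h3 := ns_ge_of_places (by positivity) h2
  unfold FF
  calc _ ≤ 1 * (ns (α : K)) ^ (-s) := by
        gcongr
        · exact Real.rpow_nonneg (mixedEmbedding.norm_nonneg _) _
        · exact ptent_le_one _
    _ = (ns (α : K)) ^ (-s) := one_mul _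
    _ ≤ ((c * sz (α : K)) ^ n) ^ (-s) :=
        Real.rpow_le_rpow_of_nonpos (by positivity) h3 (by linarith)
    _ = (c * sz (α : K)) ^ (-((n : ℝ) * s)) := by
        rw [← Real.rpow_natCast, ← Real.rpow_mul (by positivity)]
        congr 1; ring
    _ = _ := by rw [Real.mul_rpow hc0.le hS]

end

end Vale.P036.TW
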