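import Mathlib
import Vale.Agent.P036.TW.T7c

/-! # T7d: sums over units, comparison of lattice sums -/

open scoped BigOperators

namespace Vale.P036.TW

open NumberField NumberField.InfinitePlace NumberField.mixedEmbedding NumberField.Units
  NumberField.Units.dirichletUnitTheorem Module

noncomputable section

variable {K : Type*} [Field K] [NumberField K]

variable (K) in
/-- Dirichlet's unit theorem as a bijection -/
def unitEquiv : (torsion K × (Fin (rank K) → ℤ)) ≃ (𝓞 K)ˣ :=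
  Equiv.ofBijective (fun p => (p.1 : (𝓞 K)ˣ) * ∏ i, (fundSystem K i) ^ (p.2 i)) (by
    constructor
    · intro p q hpq
      obtain ⟨r, -, hr⟩ := exist_unique_eq_mul_prod K
        ((p.1 : (𝓞 K)ˣ) * ∏ i, (fundSystem K i) ^ (p.2 i))
      rw [hr p rfl, hr q hpq]
    · intro u
      obtain ⟨r, hr, -⟩ := exist_unique_eq_mul_prod K u
      exact ⟨r, hr.symm⟩)

lemma unitEquiv_apply (p : torsion K × (Fin (rank K) → ℤ)) :
    unitEquiv K p = (p.1 : (𝓞 K)ˣ) * ∏ i, (fundSystem K i) ^ (p.2 i) := rfl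

/-- the weights sum to the number of roots of unity over an orbit of units -/
lemma hasSum_units {a : K} (ha : a ≠ 0) :
    HasSum (fun u : (𝓞 K)ˣ => ptent (lam ((u : K) * a))) (Nat.card (torsion K)) := by
  rw [← (unitEquiv K).hasSum_iff]
  have e : (fun u : (𝓞 K)ˣ => ptent (lam ((u : K) * a))) ∘ unitEquiv K =
      fun p : torsion K × (Fin (rank K) → ℤ) => ∏ i, tent (lam a i + p.2 i) := by
    funext p
    rw [Function.comp_apply, unitEquiv_apply]
    unfold ptent
    refine Finset.prod_congr rfl fun i _ => ?_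
    rw [lam_unit_mul p.1 p.2 ha i]
  rw [e]
  have h1 := hasSum_tent (lam a)
  have hsum : Summable fun p : torsion K × (Fin (rank K) → ℤ) =>
      ∏ i, tent (lam a i + p.2 i) := by
    rw [summable_prod_of_nonneg]
    · exact ⟨fun _ => h1.summable, Summable.of_finite⟩
    · intro p
      exact Finset.prod_nonneg fun _ _ => tent_nonneg _
  have h2 := hsum.tsum_prod' (fun _ => h1.summable)
  simp only [h1.tsum_eq] at h2
  have hft := Fintype.ofFinite (torsion K)
  have h3 : ∑' _ : torsion K, (1 : ℝ) = Nat.card (torsion K) := by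
    rw [tsum_fintype, Finset.sum_const, nsmul_eq_mul, mul_one, Finset.card_univ,
      Nat.card_eq_fintype_card]
  rw [← h3, ← h2]
  exact hsum.hasSum

/-- decomposition of the ring of integers along an ideal -/
def cosetEquiv (J : Ideal (𝓞 K)) : ((𝓞 K ⧸ J) × J) ≃ 𝓞 K :=
  Equiv.ofBijective (fun p => (p.2 : 𝓞 K) + Quotient.out p.1) (by
    constructor
    · rintro ⟨q, x⟩ ⟨q', x'⟩ h
      simp only at h
      have h1 : q = q' := by
        have := congrArg (Ideal.Quotient.mk J) h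
        rw [map_add, map_add, Ideal.Quotient.eq_zero_iff_mem.mpr x.2,
          Ideal.Quotient.eq_zero_iff_mem.mpr x'.2, zero_add, zero_add,
          Ideal.Quotient.mk_out, Ideal.Quotient.mk_out] at this
        exact this
      subst h1
      have h2 : (x : 𝓞 K) = x' := add_right_cancel h
      rw [Subtype.ext h2]
    · intro a
      refine ⟨(Ideal.Quotient.mk J a, ⟨a - Quotient.out (Ideal.Quotient.mk J a), ?_⟩), ?_⟩
      · rw [← Ideal.Quotient.eq_zero_iff_mem, map_sub, Ideal.Quotient.mk_out, sub_self]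
      · simp)

omit [NumberField K] in
lemma cosetEquiv_apply (J : Ideal (𝓞 K)) (p : (𝓞 K ⧸ J) × J) :
    cosetEquiv J p = (p.2 : 𝓞 K) + Quotient.out p.1 := rfl

/-- comparison of the lattice sums over `𝓞 K` and over the ideal `J` -/
lemma compare_sums {J : Ideal (𝓞 K)} (hJ : J ≠ ⊥) : ∃ C : ℝ, 0 ≤ C ∧ ∀ s : ℝ, 1 < s → s ≤ 2 →
    |∑' α : 𝓞 K, FF s (α : K) - (Ideal.absNorm J : ℝ) * ∑' γ : J, FF s ((γ : 𝓞 K) : K)| ≤ C := by
  classical
  have hfin : Finite (𝓞 K ⧸ J) := Ring.HasFiniteQuotients.finiteQuotient hJ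
  have := Fintype.ofFinite (𝓞 K ⧸ J)
  choose C hC0 hC using fun q : 𝓞 K ⧸ J => diff_bound (K := K) (Quotient.out q)
  have hgJ : Summable fun γ : J => gg (γ : 𝓞 K) := summable_gg.comp_injective Subtype.val_injective
  refine ⟨∑ q : 𝓞 K ⧸ J, C q * ∑' γ : J, gg (γ : 𝓞 K), ?_, ?_⟩
  · exact Finset.sum_nonneg fun q _ => mul_nonneg (hC0 q) (tsum_nonneg fun _ => gg_nonneg _)
  intro s hs1 hs2
  have hF := summable_FF (K := K) hs1
  have hFe : Summable fun p : (𝓞 K ⧸ J) × J =>
      FF s (((p.2 : 𝓞 K) + Quotient.out p.1 : 𝓞 K) : K) := by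
    have := (cosetEquiv J).summable_iff.mpr hF
    exact this
  have hFJ : Summable fun γ : J => FF s ((γ : 𝓞 K) : K) := hF.comp_injective Subtype.val_injective
  have hFq : ∀ q : 𝓞 K ⧸ J, Summable fun γ : J =>
      FF s (((γ : 𝓞 K) + Quotient.out q : 𝓞 K) : K) := fun q => hFe.prod_factor q
  have h1 : ∑' α : 𝓞 K, FF s (α : K) =
      ∑ q : 𝓞 K ⧸ J, ∑' γ : J, FF s (((γ : 𝓞 K) + Quotient.out q : 𝓞 K) : K) := by
    rw [← (cosetEquiv J).tsum_eq]
    simp only [cosetEquiv_apply]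
    rw [hFe.tsum_prod, tsum_fintype]
  have h2 : (Ideal.absNorm J : ℝ) * ∑' γ : J, FF s ((γ : 𝓞 K) : K) =
      ∑ q : 𝓞 K ⧸ J, ∑' γ : J, FF s ((γ : 𝓞 K) : K) := by
    rw [Finset.sum_const, nsmul_eq_mul, Finset.card_univ, ← Nat.card_eq_fintype_card,
      Ideal.absNorm_apply, Submodule.cardQuot_apply]
  rw [h1, h2, ← Finset.sum_sub_distrib]
  refine (Finset.abs_sum_le_sum_abs _ _).trans (Finset.sum_le_sum fun q _ => ?_)
  rw [← (hFq q).tsum_sub hFJ, ← tsum_mul_left]
  have hbd : ∀ γ : J, |FF s (((γ : 𝓞 K) + Quotient.out q : 𝓞 K) : K) - FF s ((γ : 𝓞 K) : K)|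
      ≤ C q * gg (γ : 𝓞 K) := fun γ => hC q γ s hs1.le hs2
  exact tsum_of_norm_bounded (hgJ.mul_left (C q)).hasSum (fun γ => by
    rw [Real.norm_eq_abs]; exact hbd γ)

end

end Vale.P036.TW
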