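import Mathlib
import Vale.Agent.P036.TW.T7d

/-! # T7e: partial zeta functions of ideal classes -/

open scoped BigOperators nonZeroDivisors

namespace Vale.P036.TW

open NumberField NumberField.InfinitePlace NumberField.mixedEmbedding NumberField.Units
  NumberField.Units.dirichletUnitTheorem Module Filter Topology

noncomputable section

variable {K : Type*} [Field K] [NumberField K]

variable (K) in
/-- partial zeta function of the ideal class `C` -/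
def classZeta (C : ClassGroup (𝓞 K)) (s : ℝ) : ℝ :=
  ∑' I : {I : (Ideal (𝓞 K))⁰ // ClassGroup.mk0 I = C},
    (Ideal.absNorm (I.1 : Ideal (𝓞 K)) : ℝ) ^ (-s)

lemma ns_eq_absNorm (α : 𝓞 K) : ns (α : K) = Ideal.absNorm (Ideal.span {α}) := by
  rw [ns_eq, Ideal.absNorm_span_singleton, ← Algebra.coe_norm_int]
  simp [Nat.cast_natAbs]

lemma ns_unit_mul (u : (𝓞 K)ˣ) (a : K) : ns ((u : K) * a) = ns a := by
  rw [ns_mul]
  have : ns (u : K) = 1 := by unfold ns; exact norm_unit u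
  rw [this, one_mul]

lemma hasSum_unit_orbit {α₀ : 𝓞 K} (hα₀ : α₀ ≠ 0) (s : ℝ) :
    HasSum (fun u : (𝓞 K)ˣ => FF s ((u : K) * (α₀ : K)))
      ((Nat.card (torsion K) : ℝ) * (Ideal.absNorm (Ideal.span {α₀}) : ℝ) ^ (-s)) := by
  have h0 : (α₀ : K) ≠ 0 := by
    rw [RingOfIntegers.coe_eq_algebraMap]; simpa using hα₀
  have h := (hasSum_units h0).mul_right ((ns (α₀ : K)) ^ (-s))
  rw [← ns_eq_absNorm]
  refine h.congr_fun ?_ |> id
  intro u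
  simp [FF, ns_unit_mul]

/-- the fiber over a principal ideal contained in `J` -/
lemma tsum_fiber (J : Ideal (𝓞 K)) {α₀ : 𝓞 K} (hα₀ : α₀ ≠ 0) (hmem : α₀ ∈ J) (s : ℝ) :
    ∑' γ : (fun γ : J => Ideal.span {(γ : 𝓞 K)}) ⁻¹' {Ideal.span {α₀}},
      FF s (((γ : J) : 𝓞 K) : K) =
      (Nat.card (torsion K) : ℝ) * (Ideal.absNorm (Ideal.span {α₀}) : ℝ) ^ (-s) := by
  have hm : ∀ u : (𝓞 K)ˣ, (u : 𝓞 K) * α₀ ∈ J := fun u => J.mul_mem_left _ hmem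
  have hsp : ∀ u : (𝓞 K)ˣ, Ideal.span {(u : 𝓞 K) * α₀} = Ideal.span {α₀} := fun u => by
    rw [Ideal.span_singleton_mul_left_unit u.isUnit]
  let e : (𝓞 K)ˣ ≃ ((fun γ : J => Ideal.span {(γ : 𝓞 K)}) ⁻¹' {Ideal.span {α₀}}) :=
    Equiv.ofBijective (fun u => ⟨⟨(u : 𝓞 K) * α₀, hm u⟩, hsp u⟩) (by
      constructor
      · intro u v huv
        have h1 : (u : 𝓞 K) * α₀ = (v : 𝓞 K) * α₀ := congrArg (fun x => ((x : J) : 𝓞 K))
          (congrArg Subtype.val huv)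
        exact Units.ext (mul_right_cancel₀ hα₀ h1)
      · rintro ⟨⟨γ, hγ⟩, hγ'⟩
        have h1 : Ideal.span {γ} = Ideal.span {α₀} := hγ'
        rw [Ideal.span_singleton_eq_span_singleton] at h1
        obtain ⟨u, hu⟩ := h1.symm
        refine ⟨u, ?_⟩
        apply Subtype.ext
        apply Subtype.ext
        change (u : 𝓞 K) * α₀ = γ
        rw [mul_comm]; exact hu)
  rw [← e.tsum_eq, ← (hasSum_unit_orbit hα₀ s).tsum_eq]
  refine tsum_congr fun u => ?_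
  change FF s (((u : 𝓞 K) * α₀ : 𝓞 K) : K) = _
  simp

lemma exists_gen (I J : (Ideal (𝓞 K))⁰) (h : ClassGroup.mk0 I = (ClassGroup.mk0 J)⁻¹) :
    ∃ α₀ : 𝓞 K, α₀ ≠ 0 ∧ α₀ ∈ (J : Ideal (𝓞 K)) ∧
      (I : Ideal (𝓞 K)) * (J : Ideal (𝓞 K)) = Ideal.span {α₀} := by
  have h1 : ClassGroup.mk0 (I * J) = 1 := by
    rw [map_mul, h, inv_mul_cancel]
  have h2 : Submodule.IsPrincipal ((I * J : (Ideal (𝓞 K))⁰) : Ideal (𝓞 K)) :=
    (ClassGroup.mk0_eq_one_iff (I * J).2).mp h1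
  obtain ⟨α₀, hα₀⟩ := h2.principal
  have hα₀' : (I : Ideal (𝓞 K)) * (J : Ideal (𝓞 K)) = Ideal.span {α₀} := hα₀
  have hne : (I : Ideal (𝓞 K)) * (J : Ideal (𝓞 K)) ≠ 0 :=
    mul_ne_zero (nonZeroDivisors.coe_ne_zero I) (nonZeroDivisors.coe_ne_zero J)
  refine ⟨α₀, ?_, ?_, hα₀'⟩
  · rintro rfl
    apply hne
    rw [hα₀']
    simp
  · have h3 : α₀ ∈ (I : Ideal (𝓞 K)) * (J : Ideal (𝓞 K)) := by
      rw [hα₀']; exact Ideal.mem_span_singleton_self α₀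
    have h4 : (I : Ideal (𝓞 K)) * (J : Ideal (𝓞 K)) ≤ (J : Ideal (𝓞 K)) := Ideal.mul_le_right
    exact h4 h3

lemma exists_cofactor (J : (Ideal (𝓞 K))⁰) {γ : 𝓞 K} (hγ : γ ∈ (J : Ideal (𝓞 K)))
    (h0 : γ ≠ 0) : ∃ I : (Ideal (𝓞 K))⁰, ClassGroup.mk0 I = (ClassGroup.mk0 J)⁻¹ ∧
      (I : Ideal (𝓞 K)) * (J : Ideal (𝓞 K)) = Ideal.span {γ} := by
  have h2 : (J : Ideal (𝓞 K)) ∣ Ideal.span {γ} := by
    rw [Ideal.dvd_span_singleton]; exact hγ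
  obtain ⟨I, hI⟩ := h2
  have hI0 : I ≠ 0 := by
    rintro rfl
    rw [mul_zero] at hI
    exact h0 (by simpa using hI)
  have hImem : I ∈ (Ideal (𝓞 K))⁰ := mem_nonZeroDivisors_of_ne_zero hI0
  have h3 : I * (J : Ideal (𝓞 K)) = Ideal.span {γ} := by rw [hI, mul_comm]
  refine ⟨⟨I, hImem⟩, ?_, h3⟩
  rw [eq_inv_iff_mul_eq_one, ← map_mul]
  rw [ClassGroup.mk0_eq_one_iff (⟨I, hImem⟩ * J : (Ideal (𝓞 K))⁰).2]
  exact ⟨γ, h3⟩

/-- unfolding of the lattice sum over an ideal -/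
lemma hasSum_unfold (J : (Ideal (𝓞 K))⁰) {s : ℝ} (hs : 1 < s) :
    HasSum (fun I : {I : (Ideal (𝓞 K))⁰ // ClassGroup.mk0 I = (ClassGroup.mk0 J)⁻¹} =>
      (Nat.card (torsion K) : ℝ) *
        (Ideal.absNorm ((I.1 : Ideal (𝓞 K)) * (J : Ideal (𝓞 K))) : ℝ) ^ (-s))
      (∑' γ : (J : Ideal (𝓞 K)), FF s ((γ : 𝓞 K) : K)) := by
  have hJ0 : (J : Ideal (𝓞 K)) ≠ 0 := nonZeroDivisors.coe_ne_zero J
  have hFJ : Summable fun γ : (J : Ideal (𝓞 K)) => FF s ((γ : 𝓞 K) : K) :=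
    (summable_FF (K := K) hs).comp_injective Subtype.val_injective
  have h := hFJ.hasSum.tsum_fiberwise (fun γ : (J : Ideal (𝓞 K)) => Ideal.span {(γ : 𝓞 K)})
  have hι : Function.Injective (fun I : {I : (Ideal (𝓞 K))⁰ // ClassGroup.mk0 I =
      (ClassGroup.mk0 J)⁻¹} => (I.1 : Ideal (𝓞 K)) * (J : Ideal (𝓞 K))) := by
    intro I I' hII'
    exact Subtype.ext (Subtype.ext (mul_right_cancel₀ hJ0 hII'))
  rw [← hι.hasSum_iff] at h
  · refine h.congr_fun ?_ |> id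
    intro I
    obtain ⟨α₀, h0, hmem, hα₀⟩ := exists_gen I.1 J I.2
    rw [Function.comp_apply, hα₀]
    exact (tsum_fiber (J : Ideal (𝓞 K)) h0 hmem s).symm
  · intro I' hI'
    have h0 : ∀ γ : (fun γ : (J : Ideal (𝓞 K)) => Ideal.span {(γ : 𝓞 K)}) ⁻¹' {I'},
        FF s (((γ : (J : Ideal (𝓞 K))) : 𝓞 K) : K) = 0 := by
      rintro ⟨⟨γ, hγ⟩, hγ'⟩
      by_cases h0 : γ = 0
      · subst h0
        exact FF_zero (by linarith)
      · exfalso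
        obtain ⟨I, hI1, hI2⟩ := exists_cofactor J hγ h0
        exact hI' ⟨⟨I, hI1⟩, hI2.trans hγ'⟩
    rw [tsum_congr h0, tsum_zero]

end

end Vale.P036.TW
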