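import Mathlib
import Vale.Agent.P036.TW.T7e

/-! # T7f: all partial zeta functions agree up to a bounded function near `s = 1` -/

open scoped BigOperators nonZeroDivisors

namespace Vale.P036.TW

open NumberField NumberField.InfinitePlace NumberField.mixedEmbedding NumberField.Units
  NumberField.Units.dirichletUnitTheorem Module Filter Topology

noncomputable section

variable {K : Type*} [Field K] [NumberField K]

lemma torsion_card_pos : (0 : ℝ) < (Nat.card (torsion K) : ℝ) := by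
  exact_mod_cast Nat.card_pos

lemma absNorm_pos (I : (Ideal (𝓞 K))⁰) : (0 : ℝ) < (Ideal.absNorm (I : Ideal (𝓞 K)) : ℝ) := by
  have : Ideal.absNorm (I : Ideal (𝓞 K)) ≠ 0 :=
    Ideal.absNorm_ne_zero_of_nonZeroDivisors I
  exact_mod_cast Nat.pos_of_ne_zero this

lemma one_le_absNorm (I : (Ideal (𝓞 K))⁰) : (1 : ℝ) ≤ (Ideal.absNorm (I : Ideal (𝓞 K)) : ℝ) := by
  have : Ideal.absNorm (I : Ideal (𝓞 K)) ≠ 0 :=
    Ideal.absNorm_ne_zero_of_nonZeroDivisors I
  exact_mod_cast Nat.pos_of_ne_zero this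

lemma unfold_rewrite (J : (Ideal (𝓞 K))⁰) (s : ℝ)
    (I : {I : (Ideal (𝓞 K))⁰ // ClassGroup.mk0 I = (ClassGroup.mk0 J)⁻¹}) :
    (Nat.card (torsion K) : ℝ) *
        (Ideal.absNorm ((I.1 : Ideal (𝓞 K)) * (J : Ideal (𝓞 K))) : ℝ) ^ (-s) =
    ((Nat.card (torsion K) : ℝ) * (Ideal.absNorm (J : Ideal (𝓞 K)) : ℝ) ^ (-s)) *
      (Ideal.absNorm (I.1 : Ideal (𝓞 K)) : ℝ) ^ (-s) := by
  rw [map_mul, Nat.cast_mul, Real.mul_rpow (Nat.cast_nonneg _) (Nat.cast_nonneg _)]
  ring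

lemma classZeta_summable_aux (J : (Ideal (𝓞 K))⁰) {s : ℝ} (hs : 1 < s) :
    Summable fun I : {I : (Ideal (𝓞 K))⁰ // ClassGroup.mk0 I = (ClassGroup.mk0 J)⁻¹} =>
      (Ideal.absNorm (I.1 : Ideal (𝓞 K)) : ℝ) ^ (-s) := by
  have h := (hasSum_unfold J hs).summable
  simp only [unfold_rewrite] at h
  have hne : (Nat.card (torsion K) : ℝ) * (Ideal.absNorm (J : Ideal (𝓞 K)) : ℝ) ^ (-s) ≠ 0 :=
    mul_ne_zero torsion_card_pos.ne' (Real.rpow_pos_of_pos (absNorm_pos J) _).ne'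
  exact (summable_mul_left_iff hne).mp h

lemma classZeta_summable (C : ClassGroup (𝓞 K)) {s : ℝ} (hs : 1 < s) :
    Summable fun I : {I : (Ideal (𝓞 K))⁰ // ClassGroup.mk0 I = C} =>
      (Ideal.absNorm (I.1 : Ideal (𝓞 K)) : ℝ) ^ (-s) := by
  obtain ⟨J, hJ⟩ := ClassGroup.mk0_surjective C⁻¹
  have h := classZeta_summable_aux J hs
  rw [hJ, inv_inv] at h
  exact h

lemma tsum_J_eq (J : (Ideal (𝓞 K))⁰) {s : ℝ} (hs : 1 < s) :
    ∑' γ : (J : Ideal (𝓞 K)), FF s ((γ : 𝓞 K) : K) =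
      (Nat.card (torsion K) : ℝ) * (Ideal.absNorm (J : Ideal (𝓞 K)) : ℝ) ^ (-s) *
        classZeta K (ClassGroup.mk0 J)⁻¹ s := by
  rw [← (hasSum_unfold J hs).tsum_eq]
  simp only [unfold_rewrite]
  rw [tsum_mul_left]
  rfl

lemma tsum_top_eq {s : ℝ} (hs : 1 < s) :
    ∑' α : 𝓞 K, FF s (α : K) = (Nat.card (torsion K) : ℝ) * classZeta K 1 s := by
  have h := tsum_J_eq (K := K) 1 hs
  rw [map_one, inv_one] at h
  have h1 : Ideal.absNorm ((1 : (Ideal (𝓞 K))⁰) : Ideal (𝓞 K)) = 1 := by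
    rw [OneMemClass.coe_one, map_one]
  rw [h1, Nat.cast_one, Real.one_rpow, mul_one] at h
  rw [← h]
  let e : ((1 : (Ideal (𝓞 K))⁰) : Ideal (𝓞 K)) ≃ 𝓞 K :=
    Equiv.ofBijective (fun γ => (γ : 𝓞 K)) (by
      constructor
      · exact Subtype.val_injective
      · intro a
        refine ⟨⟨a, ?_⟩, rfl⟩
        rw [OneMemClass.coe_one, Ideal.one_eq_top]
        trivial)
  rw [← e.tsum_eq]
  rfl

variable (K) in
/-- the sum over all nonzero ideals -/
def zsum (s : ℝ) : ℝ := ∑' I : (Ideal (𝓞 K))⁰, (Ideal.absNorm (I : Ideal (𝓞 K)) : ℝ) ^ (-s)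

variable (K) in
lemma summable_ideals {s : ℝ} (hs : 1 < s) :
    Summable fun I : (Ideal (𝓞 K))⁰ => (Ideal.absNorm (I : Ideal (𝓞 K)) : ℝ) ^ (-s) := by
  rw [← (Equiv.sigmaFiberEquiv (fun I : (Ideal (𝓞 K))⁰ => ClassGroup.mk0 I)).summable_iff]
  rw [summable_sigma_of_nonneg (fun _ => by
    exact Real.rpow_nonneg (Nat.cast_nonneg _) _)]
  exact ⟨fun C => classZeta_summable C hs, Summable.of_finite⟩

lemma classZeta_nonneg (C : ClassGroup (𝓞 K)) (s : ℝ) : 0 ≤ classZeta K C s :=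
  tsum_nonneg fun _ => Real.rpow_nonneg (Nat.cast_nonneg _) _

lemma classZeta_le (C : ClassGroup (𝓞 K)) {s : ℝ} (hs : 1 < s) :
    classZeta K C s ≤ zsum K s := by
  unfold classZeta zsum
  exact (summable_ideals K hs).tsum_subtype_le _ {I | ClassGroup.mk0 I = C}
    (fun _ => Real.rpow_nonneg (Nat.cast_nonneg _) _)

lemma card_fiber (n : ℕ) (hn : n ≠ 0) :
    Nat.card ((fun I : (Ideal (𝓞 K))⁰ => Ideal.absNorm (I : Ideal (𝓞 K))) ⁻¹' {n}) =
      Nat.card {I : Ideal (𝓞 K) // Ideal.absNorm I = n} := by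
  refine Nat.card_congr (Equiv.ofBijective (fun I => ⟨(I.1 : Ideal (𝓞 K)), I.2⟩) ?_)
  constructor
  · intro I I' h
    have h' : ((I.1 : (Ideal (𝓞 K))⁰) : Ideal (𝓞 K)) = (I'.1 : (Ideal (𝓞 K))⁰) :=
      Subtype.mk.inj h
    exact Subtype.ext (Subtype.ext h')
  · rintro ⟨I, hI⟩
    have hI0 : I ≠ 0 := by
      rintro rfl
      rw [map_zero] at hI
      exact hn hI.symm
    exact ⟨⟨⟨I, mem_nonZeroDivisors_of_ne_zero hI0⟩, hI⟩, rfl⟩

lemma tsum_fiber_norm (s : ℝ) (n : ℕ) :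
    ∑' I : (fun I : (Ideal (𝓞 K))⁰ => Ideal.absNorm (I : Ideal (𝓞 K))) ⁻¹' {n},
      (Ideal.absNorm ((I : (Ideal (𝓞 K))⁰) : Ideal (𝓞 K)) : ℝ) ^ (-s) =
    if n = 0 then 0 else
      (Nat.card {I : Ideal (𝓞 K) // Ideal.absNorm I = n} : ℝ) * (n : ℝ) ^ (-s) := by
  split_ifs with hn
  · subst hn
    have : IsEmpty ((fun I : (Ideal (𝓞 K))⁰ => Ideal.absNorm (I : Ideal (𝓞 K))) ⁻¹' {0}) := by
      constructor
      rintro ⟨I, hI⟩
      exact Ideal.absNorm_ne_zero_of_nonZeroDivisors I hI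
    exact tsum_empty
  · have h1 : ∀ I : (fun I : (Ideal (𝓞 K))⁰ => Ideal.absNorm (I : Ideal (𝓞 K))) ⁻¹' {n},
      (Ideal.absNorm ((I : (Ideal (𝓞 K))⁰) : Ideal (𝓞 K)) : ℝ) ^ (-s) = (n : ℝ) ^ (-s) := by
      rintro ⟨I, hI⟩
      have : Ideal.absNorm (I : Ideal (𝓞 K)) = n := hI
      change (Ideal.absNorm (I : Ideal (𝓞 K)) : ℝ) ^ (-s) = _
      rw [this]
    rw [tsum_congr h1, tsum_const, card_fiber n hn, nsmul_eq_mul]

lemma zsum_eq {s : ℝ} (hs : 1 < s) : ((zsum K s : ℝ) : ℂ) = dedekindZeta K s := by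
  have h := (summable_ideals K hs).hasSum.tsum_fiberwise
    (fun I : (Ideal (𝓞 K))⁰ => Ideal.absNorm (I : Ideal (𝓞 K)))
  have h2 := h.tsum_eq
  simp only [tsum_fiber_norm] at h2
  unfold zsum
  rw [← h2, Complex.ofReal_tsum]
  unfold dedekindZeta LSeries
  refine tsum_congr fun n => ?_
  rw [LSeries.term_def]
  split_ifs with hn
  · simp
  · rw [Complex.ofReal_mul, Complex.ofReal_natCast, Complex.ofReal_cpow (Nat.cast_nonneg _),
      Complex.ofReal_neg, Complex.cpow_neg, Complex.ofReal_natCast, div_eq_mul_inv]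

lemma tendsto_zsum : Tendsto (fun s : ℝ => (s - 1) * zsum K s) (𝓝[>] 1)
    (𝓝 (dedekindZeta_residue K)) := by
  have h := tendsto_sub_one_mul_dedekindZeta_nhdsGT K
  have h2 := (Complex.continuous_re.tendsto _).comp h
  rw [Complex.ofReal_re] at h2
  refine h2.congr' ?_
  filter_upwards [self_mem_nhdsWithin] with s hs
  rw [Function.comp_apply, ← zsum_eq hs]
  rw [← Complex.ofReal_one, ← Complex.ofReal_sub, ← Complex.ofReal_mul, Complex.ofReal_re]

lemma exists_zsum_bound : ∃ B : ℝ, 0 ≤ B ∧ ∀ᶠ s in 𝓝[>] (1 : ℝ), (s - 1) * zsum K s ≤ B := by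
  refine ⟨dedekindZeta_residue K + 1, by linarith [dedekindZeta_residue_pos K], ?_⟩
  have h := tendsto_zsum (K := K)
  have := h.eventually (eventually_lt_nhds (b := dedekindZeta_residue K + 1) (by linarith))
  exact this.mono fun s hs => hs.le

lemma classZeta_sub_one_bounded (C : ClassGroup (𝓞 K)) :
    ∃ B : ℝ, ∀ᶠ s in 𝓝[>] (1 : ℝ), |classZeta K 1 s - classZeta K C s| ≤ B := by
  obtain ⟨J, hJ⟩ := ClassGroup.mk0_surjective C⁻¹
  have hJ' : (ClassGroup.mk0 J)⁻¹ = C := by rw [hJ, inv_inv]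
  obtain ⟨C₁, hC₁0, hC₁⟩ := compare_sums (K := K) (J := (J : Ideal (𝓞 K)))
    (nonZeroDivisors.coe_ne_zero J)
  obtain ⟨B, hB0, hB⟩ := exists_zsum_bound (K := K)
  have hw := torsion_card_pos (K := K)
  set w : ℝ := (Nat.card (torsion K) : ℝ) with hwdef
  set N : ℝ := (Ideal.absNorm (J : Ideal (𝓞 K)) : ℝ) with hN
  have hN1 : 1 ≤ N := one_le_absNorm J
  have hN0 : 0 < N := by linarith
  refine ⟨C₁ / w + Real.log N * B, ?_⟩
  filter_upwards [hB, self_mem_nhdsWithin, Ioc_mem_nhdsGT (show (1:ℝ) < 2 by norm_num)]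
    with s hs1 hs2 hs3
  have hs : 1 < s := hs2
  have h1 := hC₁ s hs hs3.2
  rw [tsum_top_eq hs, tsum_J_eq J hs, hJ'] at h1
  have hCpos := classZeta_nonneg C s
  have hCle := classZeta_le C hs
  have hNs : N * N ^ (-s) = Real.exp (-((s - 1) * Real.log N)) := by
    rw [Real.rpow_def_of_pos hN0]
    nth_rewrite 1 [← Real.exp_log hN0]
    rw [← Real.exp_add]
    congr 1; ring
  have h2 : |classZeta K 1 s - N * N ^ (-s) * classZeta K C s| ≤ C₁ / w := by
    rw [le_div_iff₀ hw]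
    calc _ = |(classZeta K 1 s - N * N ^ (-s) * classZeta K C s) * w| := by
          rw [abs_mul, abs_of_pos hw]
      _ ≤ C₁ := by
          refine le_trans (le_of_eq ?_) h1
          congr 1; ring
  have hlog : 0 ≤ Real.log N := Real.log_nonneg hN1
  have h3 : |N * N ^ (-s) * classZeta K C s - classZeta K C s| ≤ Real.log N * B := by
    have e : N * N ^ (-s) * classZeta K C s - classZeta K C s =
      (N * N ^ (-s) - 1) * classZeta K C s := by ring
    rw [e, abs_mul, abs_of_nonneg hCpos, hNs]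
    have hx : 0 ≤ (s - 1) * Real.log N := mul_nonneg (by linarith) hlog
    have h4 : |Real.exp (-((s - 1) * Real.log N)) - 1| ≤ (s - 1) * Real.log N := by
      rw [abs_of_nonpos (by
        have := Real.exp_le_one_iff.mpr (by linarith : -((s - 1) * Real.log N) ≤ 0)
        linarith)]
      have := Real.add_one_le_exp (-((s - 1) * Real.log N))
      linarith
    calc _ ≤ ((s - 1) * Real.log N) * classZeta K C s := by gcongr
      _ ≤ ((s - 1) * Real.log N) * zsum K s := by gcongr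
      _ = Real.log N * ((s - 1) * zsum K s) := by ring
      _ ≤ Real.log N * B := by gcongr
  calc |classZeta K 1 s - classZeta K C s|
      = |(classZeta K 1 s - N * N ^ (-s) * classZeta K C s) +
        (N * N ^ (-s) * classZeta K C s - classZeta K C s)| := by congr 1; ring
    _ ≤ _ := (abs_add_le _ _).trans (add_le_add h2 h3)

/-- **T7.** The partial zeta functions of two ideal classes differ by a bounded function
near `s = 1`. -/
theorem classZeta_sub_bounded (C C' : ClassGroup (𝓞 K)) :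
    ∃ B : ℝ, ∀ᶠ s in 𝓝[>] (1 : ℝ), |classZeta K C s - classZeta K C' s| ≤ B := by
  obtain ⟨B, hB⟩ := classZeta_sub_one_bounded C
  obtain ⟨B', hB'⟩ := classZeta_sub_one_bounded C'
  refine ⟨B + B', ?_⟩
  filter_upwards [hB, hB'] with s h h'
  have e : classZeta K C s - classZeta K C' s =
    -(classZeta K 1 s - classZeta K C s) + (classZeta K 1 s - classZeta K C' s) := by ring
  rw [e]
  refine (abs_add_le _ _).trans ?_
  rw [abs_neg]
  exact add_le_add h h'

end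

end Vale.P036.TW
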