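import Mathlib
import Vale.Agent.P036.TW.Defs
import Vale.Agent.P036.TW.Spec

/-!
# P036, towers: block T8b (invariants modulo 2; unramifiedness at 2)
-/

namespace Vale.Agent.P036.TW

open NumberField IsDedekindDomain
open scoped Pointwise nonZeroDivisors

namespace T8b

section General

variable {R : Type*} [CommRing R] {G : Type*} [Group G] [Fintype G] [MulSemiringAction G R]

/-- independence of characters: the trace is nonzero modulo each prime without inertia. -/
theorem exists_trace_notMem (P : Ideal R) [P.IsPrime]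
    (hP : ∀ g h : G, (∀ x : R, g • x - h • x ∈ P) → g = h) :
    ∃ x : R, ∑ g : G, g • x ∉ P := by
  by_contra hcon
  push Not at hcon
  let f : G → (R →* R ⧸ P) := fun g =>
    ((Ideal.Quotient.mk P).comp (MulSemiringAction.toRingHom G R g) : R →+* R ⧸ P)
  have hf : Function.Injective f := by
    intro g h hgh
    apply hP
    intro x
    have := DFunLike.congr_fun hgh x
    simpa [f, Ideal.Quotient.eq] using this
  have hli := (linearIndependent_monoidHom R (R ⧸ P)).comp f hf
  rw [Fintype.linearIndependent_iff] at hli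
  have h1 := hli (fun _ => 1) (by
    funext x
    have := hcon x
    rw [← Ideal.Quotient.eq_zero_iff_mem, map_sum] at this
    simpa [f] using this) 1
  exact one_ne_zero h1

/-- the trace onto the invariants is onto. -/
theorem exists_trace_eq_one
    (hP : ∀ P : Ideal R, P.IsMaximal → ∀ g h : G, (∀ x : R, g • x - h • x ∈ P) → g = h) :
    ∃ x : R, ∑ g : G, g • x = 1 := by
  let A := FixedPoints.subring R G
  have : Algebra.IsInvariant A R G := ⟨fun b hb => ⟨⟨b, hb⟩, rfl⟩⟩
  have : Algebra.IsIntegral A R := Algebra.IsInvariant.isIntegral A R G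
  have hinv : ∀ x : R, ∑ g : G, g • x ∈ A := by
    intro x h
    rw [Finset.smul_sum]
    simp_rw [smul_smul]
    exact Fintype.sum_equiv (Equiv.mulLeft h) _ _ (fun g => rfl)
  let I : Ideal A :=
    { carrier := {a | ∃ x : R, (∑ g : G, g • x) = (a : R)}
      add_mem' := by
        rintro a b ⟨x, hx⟩ ⟨y, hy⟩
        refine ⟨x + y, ?_⟩
        simp only [smul_add, Finset.sum_add_distrib, hx, hy]
        rfl
      zero_mem' := ⟨0, by simp⟩
      smul_mem' := by
        rintro c a ⟨x, hx⟩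
        refine ⟨(c : R) * x, ?_⟩
        have : ∀ g : G, g • ((c : R) * x) = (c : R) * g • x := by
          intro g
          rw [smul_mul']
          congr 1
          exact c.2 g
        simp only [this, ← Finset.mul_sum, hx]
        rfl }
  by_cases hI : I = ⊤
  · have : (1 : A) ∈ I := by rw [hI]; trivial
    obtain ⟨x, hx⟩ := this
    exact ⟨x, hx⟩
  · exfalso
    obtain ⟨m, hm, hIm⟩ := Ideal.exists_le_maximal I hI
    obtain ⟨Q, hQ, hQm⟩ := Ideal.exists_ideal_over_maximal_of_isIntegral (S := R) m (by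
      have : RingHom.ker (algebraMap A R) = ⊥ := by
        rw [← RingHom.injective_iff_ker_eq_bot]
        exact Subtype.val_injective
      rw [this]
      exact bot_le)
    obtain ⟨x, hx⟩ := exists_trace_notMem Q (hP Q hQ)
    apply hx
    have h1 : (⟨∑ g : G, g • x, hinv x⟩ : A) ∈ m := hIm ⟨x, rfl⟩
    rw [← hQm] at h1
    exact h1

end General

end T8b

/-- trivial inertia at all maximal ideals gives distinct residue maps -/
theorem T8b.eq_of_sub_mem {L : Type} [Field L] [NumberField L] (g h : L ≃ₐ[ℚ] L)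
    (P : Ideal (𝓞 L)) [hP : P.IsMaximal]
    (hin : ∀ P' : Ideal (𝓞 L), P'.IsMaximal → (∀ x : 𝓞 L, h • x ∈ P → x ∈ P') →
      (∀ x : 𝓞 L, (h⁻¹ * g) • x - x ∈ P') → h⁻¹ * g = 1)
    (hgh : ∀ x : 𝓞 L, g • x - h • x ∈ P) : g = h := by
  have h1 := hin (P.comap (MulSemiringAction.toRingEquiv (L ≃ₐ[ℚ] L) (𝓞 L) h))
    (Ideal.comap_isMaximal_of_equiv _) (fun x hx => hx) (by
      intro x
      have : h • ((h⁻¹ * g) • x - x) ∈ P := by
        rw [smul_sub, smul_smul, mul_inv_cancel_left]
        exact hgh x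
      exact this)
  rw [inv_mul_eq_one] at h1
  exact h1.symm

open T8b in
theorem T8bStmt_holds : T8bStmt := by
  intro L _ _ _ δ hin z hz
  classical
  have : Finite (GK δ) := inferInstance
  have : Fintype (GK δ) := Fintype.ofFinite _
  obtain ⟨y, hy⟩ := exists_trace_eq_one (R := 𝓞 L) (G := GK δ) (by
    intro P hP g h hgh
    apply Subtype.ext
    refine T8b.eq_of_sub_mem (g : L ≃ₐ[ℚ] L) (h : L ≃ₐ[ℚ] L) P ?_ hgh
    intro P' hP' _ hx
    exact hin P' hP' _ (GK δ |>.mul_mem ((GK δ).inv_mem h.2) g.2) hx)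
  refine ⟨∑ g : GK δ, g • (y * z), ?_, ?_⟩
  · intro h hh
    rw [Finset.smul_sum]
    exact Fintype.sum_equiv (Equiv.mulLeft (⟨h, hh⟩ : GK δ)) _ _ (fun g => by
      rw [Equiv.coe_mulLeft, mul_smul]
      rfl)
  · have h1 : z - ∑ g : GK δ, g • (y * z) = ∑ g : GK δ, (g • y) * (z - g • z) := by
      have : z = ∑ g : GK δ, (g • y) * z := by
        rw [← Finset.sum_mul, hy, one_mul]
      conv_lhs => rw [this]
      rw [← Finset.sum_sub_distrib]
      refine Finset.sum_congr rfl fun g _ => ?_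
      rw [smul_mul']
      have : ∑ g : GK δ, (g • y) * z = z := this.symm
      rw [this]
      ring
    rw [h1]
    refine Finset.dvd_sum fun g _ => Dvd.dvd.mul_left ?_ _
    rw [← dvd_neg, neg_sub]
    exact hz g g.2

/-- trivial inertia at the primes over `2` gives that `𝓞 L / 2` is reduced -/
theorem T8b.two_dvd_of_sq {L : Type} [Field L] [NumberField L] [IsGalois ℚ L]
    (hin : ∀ P : Ideal (𝓞 L), P.IsMaximal → (2 : 𝓞 L) ∈ P → ∀ g : L ≃ₐ[ℚ] L,
      (∀ x : 𝓞 L, g • x - x ∈ P) → g = 1) (z : 𝓞 L) (hz : (2 : 𝓞 L) ∣ z ^ 2) :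
    (2 : 𝓞 L) ∣ z := by
  classical
  have hmap : Ideal.map (algebraMap ℤ (𝓞 L)) (Ideal.span {(2 : ℤ)}) = Ideal.span {(2 : 𝓞 L)} := by
    rw [Ideal.map_span, Set.image_singleton]
    simp
  have hne : Ideal.span {(2 : 𝓞 L)} ≠ ⊥ := by
    rw [Ne, Ideal.span_singleton_eq_bot]
    exact two_ne_zero
  have hsq : Squarefree (Ideal.span {(2 : 𝓞 L)}) := by
    rw [UniqueFactorizationMonoid.squarefree_iff_nodup_normalizedFactors hne,
      Multiset.nodup_iff_count_le_one]
    intro Q
    by_cases hQ : Q ∈ UniqueFactorizationMonoid.normalizedFactors (Ideal.span {(2 : 𝓞 L)})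
    · have hQp := UniqueFactorizationMonoid.prime_of_normalized_factor Q hQ
      have hQP : Q.IsPrime := Ideal.isPrime_of_prime hQp
      have hQm : Q.IsMaximal := hQP.isMaximal hQp.ne_zero
      have h2Q : (2 : 𝓞 L) ∈ Q := by
        have := UniqueFactorizationMonoid.dvd_of_mem_normalizedFactors hQ
        rw [Ideal.dvd_iff_le, Ideal.span_singleton_le_iff_mem] at this
        exact this
      have hp2 : Prime (2 : ℤ) := Int.prime_two
      have hpm : (Ideal.span {(2 : ℤ)}).IsMaximal :=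
        ((Ideal.span_singleton_prime two_ne_zero).2 hp2).isMaximal (by
          rw [Ne, Ideal.span_singleton_eq_bot]; exact two_ne_zero)
      have hover : Q.LiesOver (Ideal.span {(2 : ℤ)}) := by
        constructor
        refine hpm.eq_of_le ?_ ?_
        · intro h
          rw [Ideal.under_def, Ideal.comap_eq_top_iff] at h
          exact hQP.ne_top h
        · rw [Ideal.span_singleton_le_iff_mem]
          show algebraMap ℤ (𝓞 L) 2 ∈ Q
          simpa using h2Q
      have hpp : (Ideal.span {(2 : ℤ)}).IsPrime := hpm.isPrime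
      have h1 := Ideal.card_inertia_eq_ramificationIdxIn (G := L ≃ₐ[ℚ] L) (Ideal.span {(2 : ℤ)}) Q
      rw [Ideal.ramificationIdxIn_eq_ramificationIdx (Ideal.span {(2 : ℤ)}) Q (L ≃ₐ[ℚ] L),
        Ideal.IsDedekindDomain.ramificationIdx_eq_normalizedFactors_count (Ideal.span {(2 : ℤ)}) Q
          (by rw [hmap]; exact hne), hmap] at h1
      have h2 : Nat.card (Ideal.inertia (L ≃ₐ[ℚ] L) Q) = 1 := by
        rw [Nat.card_eq_one_iff_unique]
        refine ⟨⟨fun a b => ?_⟩, ⟨1⟩⟩
        apply Subtype.ext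
        rw [hin Q hQm h2Q a a.2, hin Q hQm h2Q b b.2]
      rw [h2] at h1
      convert h1.ge
    · rw [Multiset.count_eq_zero_of_notMem hQ]
      exact zero_le_one
  rw [← Ideal.mem_span_singleton, ← Ideal.dvd_span_singleton]
  refine (hsq.dvd_pow_iff_dvd (n := 2) two_ne_zero).1 ?_
  rw [Ideal.span_singleton_pow, Ideal.dvd_span_singleton, Ideal.mem_span_singleton]
  exact hz
/-- for `D ≡ 1 mod 4` and `L / ℚ(√D)` unramified, `2` is unramified in `L / ℚ` -/
theorem T8b.inertia_two {D : ℤ} {L : Type} [Field L] [NumberField L] (hD : 4 ∣ D - 1)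
    (δ : L) (hδ : δ ^ 2 = (D : L)) (hin : InertiaTrivial L (GK δ)) (P : Ideal (𝓞 L))
    (hP : P.IsMaximal) (h2 : (2 : 𝓞 L) ∈ P) (g : L ≃ₐ[ℚ] L) (hg : ∀ x : 𝓞 L, g • x - x ∈ P) :
    g = 1 := by
  obtain ⟨m, hm⟩ := hD
  have hDm : (D : L) = 4 * (m : L) + 1 := by
    have : D = 4 * m + 1 := by linarith
    rw [this]; push_cast; ring
  have hint : IsIntegral ℤ ((1 + δ) / 2) := by
    refine ⟨Polynomial.X ^ 2 - Polynomial.X - Polynomial.C m, ?_, ?_⟩
    · have : (Polynomial.X ^ 2 - Polynomial.X - Polynomial.C m : Polynomial ℤ)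
        = Polynomial.X ^ 2 - (Polynomial.X + Polynomial.C m) := by ring
      rw [this]
      apply Polynomial.monic_X_pow_sub
      rw [Polynomial.degree_X_add_C m]
      exact_mod_cast one_lt_two
    · simp only [Polynomial.eval₂_sub, Polynomial.eval₂_pow, Polynomial.eval₂_X,
        Polynomial.eval₂_C]
      have h3 : δ ^ 2 = 4 * (m : L) + 1 := by rw [hδ, hDm]
      have h4 : (algebraMap ℤ L) m = (m : L) := by simp
      rw [h4]
      have : ((1 + δ) / 2) ^ 2 - (1 + δ) / 2 - (m : L) = (δ ^ 2 - (4 * (m : L) + 1)) / 4 := by ring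
      rw [this, h3, sub_self, zero_div]
  have hδint : IsIntegral ℤ δ := by
    refine IsIntegral.of_pow (n := 2) two_pos ?_
    rw [hδ]
    exact isIntegral_algebraMap (R := ℤ) (x := D)
  let θ : 𝓞 L := ⟨(1 + δ) / 2, hint⟩
  let d : 𝓞 L := ⟨δ, hδint⟩
  have hd : d ^ 2 = ((D : ℤ) : 𝓞 L) := by
    apply RingOfIntegers.ext
    have h9 : ((d ^ 2 : 𝓞 L) : L) = δ ^ 2 := rfl
    rw [h9, hδ]
    exact (map_intCast (algebraMap (𝓞 L) L) D).symm
  have hg2 : (g δ) ^ 2 = δ ^ 2 := by
    rw [← map_pow, hδ, map_intCast]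
  rcases sq_eq_sq_iff_eq_or_eq_neg.1 hg2 with h | h
  · exact hin P hP g h hg
  · exfalso
    have h5 : g • θ - θ = - d := by
      apply RingOfIntegers.ext
      have : ((g • θ : 𝓞 L) : L) = g ((1 + δ) / 2) := rfl
      show ((g • θ : 𝓞 L) : L) - (1 + δ) / 2 = - δ
      rw [this, map_div₀, map_add, map_one, h, map_ofNat]
      ring
    have h6 : d ∈ P := by
      have := hg θ
      rw [h5] at this
      exact (neg_mem_iff).1 this
    have h7 : ((D : ℤ) : 𝓞 L) ∈ P := by
      rw [← hd]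
      exact P.pow_mem_of_mem h6 2 two_pos
    have h8 : (1 : 𝓞 L) = ((D : ℤ) : 𝓞 L) - 2 * (2 * ((m : ℤ) : 𝓞 L)) := by
      have : D = 4 * m + 1 := by linarith
      rw [this]; push_cast; ring
    apply hP.ne_top
    rw [Ideal.eq_top_iff_one, h8]
    exact P.sub_mem h7 (P.mul_mem_right _ h2)

theorem T8cStmt_holds : T8cStmt := by
  intro D P0 L _ _ hD hadm z hz
  obtain ⟨δ, hδ⟩ := hadm.root
  have := hadm.gal
  exact T8b.two_dvd_of_sq (fun P hP h2 g hg =>
    T8b.inertia_two hD δ hδ (hadm.unr δ hδ) P hP h2 g hg) z hz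

end Vale.Agent.P036.TW
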