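import Mathlib

/-!
TOWERS, block T9 (abstract part).

`T9.exists_class`: from the embedding theorem (C) to the classes `a` in `A / (A^G A^2)`, and
injectivity.  `T9.card_le`: the counting scheme.
-/

namespace Vale.Agent.P036.TW.T9

/-- Equivariant homomorphisms from the relation group `ker π` to a group `E` (with trivial
action of the big group). -/
abbrev EquivHom {G E Φ : Type*} [Group G] [CommGroup E] [Group Φ] (π : Φ →* G) : Type _ :=
  {φ : π.ker →* E // ∀ (f : Φ) (r s : π.ker), (s : Φ) = f * r * f⁻¹ → φ s = φ r}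

theorem exists_class {G A E Φ : Type*} [Group G] [CommGroup A] [MulDistribMulAction G A]
    [CommGroup E] [Group Φ]
    (ε : E →* A) (hεinj : Function.Injective ε) (hε2 : ∀ x : A, x ^ 2 = 1 → x ∈ ε.range)
    (hε1 : ∀ e : E, (ε e) ^ 2 = 1) (hεG : ∀ (g : G) (e : E), g • ε e = ε e)
    (π : Φ →* G) (hπ : Function.Surjective π)
    (h90 : ∀ c : G → A, (∀ g h, c (g * h) = c g * g • c h) → ∃ a, ∀ g, c g = g • a / a)
    (hC : ∀ φ : EquivHom (E := E) π, ∃ u : Φ → A, (∀ f g, u (f * g) = u f * π f • u g) ∧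
      ∀ r : π.ker, u r = ε (φ.1 r))
    (hmin : ∀ χ : Φ →* E, ∀ r : π.ker, χ r = 1) :
    ∃ α : EquivHom (E := E) π → A,
      (∀ φ (g : G), ∃ b : A, g • α φ = α φ * b ^ 2) ∧
      ∀ φ ψ (k y : A), (∀ g : G, g • k = k) → α φ = α ψ * k * y ^ 2 → φ = ψ := by
  choose u hu hur using hC
  have hsq : ∀ φ (f : Φ) (r : π.ker), u φ (f * r) ^ 2 = u φ f ^ 2 := by
    intro φ f r
    rw [hu, hur, mul_pow, hεG, hε1, mul_one]
  have hdef : ∀ φ (f f' : Φ), π f = π f' → u φ f ^ 2 = u φ f' ^ 2 := by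
    intro φ f f' h
    have hr : f'⁻¹ * f ∈ π.ker := by
      rw [MonoidHom.mem_ker, map_mul, map_inv, h, inv_mul_cancel]
    have := hsq φ f' ⟨f'⁻¹ * f, hr⟩
    simpa using this
  have hc : ∀ φ, ∃ a : A, ∀ f : Φ, u φ f ^ 2 = π f • a / a := by
    intro φ
    obtain ⟨a, ha⟩ := h90 (fun g => u φ (Function.surjInv hπ g) ^ 2) (by
      intro g h
      have h1 : u φ (Function.surjInv hπ (g * h)) ^ 2
          = u φ (Function.surjInv hπ g * Function.surjInv hπ h) ^ 2 := by
        apply hdef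
        simp [Function.surjInv_eq hπ]
      rw [h1, hu, Function.surjInv_eq hπ, mul_pow, smul_pow'])
    refine ⟨a, fun f => ?_⟩
    rw [← ha (π f)]
    apply hdef
    simp [Function.surjInv_eq hπ]
  choose α hα using hc
  refine ⟨α, ?_, ?_⟩
  · intro φ g
    obtain ⟨f, rfl⟩ := hπ g
    exact ⟨u φ f, by rw [hα φ f]; simp⟩
  · intro φ ψ k y hk h
    have key : ∀ f : Φ, (u φ f / (u ψ f * (π f • y / y))) ^ 2 = 1 := by
      intro f
      rw [div_pow, mul_pow, hα, hα, div_pow, h]
      rw [smul_mul', smul_mul', hk, smul_pow', div_eq_one]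
      rw [div_mul_div_comm, div_eq_div_iff_mul_eq_mul]
      generalize π f • α ψ = P
      generalize π f • y = Y
      generalize α ψ = a
      calc P * k * Y ^ 2 * (a * y ^ 2) = P * k * (Y ^ 2 * (a * y ^ 2)) := mul_assoc _ _ _
        _ = P * (k * (Y ^ 2 * (a * y ^ 2))) := mul_assoc _ _ _
        _ = P * (Y ^ 2 * (k * (a * y ^ 2))) := by rw [mul_left_comm k]
        _ = P * Y ^ 2 * (a * k * y ^ 2) := by
          rw [mul_assoc P, mul_left_comm k, mul_assoc a]
    have hex : ∀ f : Φ, ∃ e : E, ε e = u φ f / (u ψ f * (π f • y / y)) := by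
      intro f
      exact hε2 _ (key f)
    choose χ hχ using hex
    have hχmul : ∀ f g, χ (f * g) = χ f * χ g := by
      intro f g
      apply hεinj
      rw [map_mul, ← hεG (π f) (χ g), hχ, hχ, hχ, hu, hu, smul_div', smul_mul', smul_div',
        map_mul, mul_smul]
      simp only [div_eq_mul_inv, mul_inv]
      have : (π f • y) * (π f • y)⁻¹ = 1 := mul_inv_cancel _
      calc _ = u φ f * π f • u φ g * ((u ψ f)⁻¹ * (π f • u ψ g)⁻¹ *
            ((π f • π g • y)⁻¹ * y⁻¹⁻¹)) := rfl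
        _ = u φ f * π f • u φ g * ((u ψ f)⁻¹ * (π f • u ψ g)⁻¹ *
            ((π f • π g • y)⁻¹ * y⁻¹⁻¹)) * ((π f • y) * (π f • y)⁻¹) := by rw [this, mul_one]
        _ = _ := by
          simp only [inv_inv, mul_assoc, mul_comm, mul_left_comm]
    let χ' : Φ →* E := MonoidHom.mk' χ hχmul
    apply Subtype.ext
    ext r
    have h1 := hmin χ' r
    have h2 := hχ r
    have h3 : χ (r : Φ) = 1 := h1
    have hr1 : π (r : Φ) = 1 := r.2
    rw [h3, map_one, hur, hur, hr1, one_smul, div_self', mul_one, eq_comm, div_eq_one] at h2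
    exact hεinj h2

/-- The counting scheme. -/
theorem exists_inj {A X C F : Type*} [CommGroup A] [Nonempty (C × F)] (α : X → A)
    (cl : A → C) (loc : A → F) (Kf B : A → Prop)
    (hKdiv : ∀ k k', Kf k → Kf k' → Kf (k / k'))
    (h1 : ∀ x x' : X, cl (α x) = cl (α x') → ∃ k b, Kf k ∧ B b ∧ α x = α x' * k * b)
    (h2 : ∀ b b', B b → B b' → loc b = loc b' → ∃ y, b = b' * y ^ 2)
    (hinj : ∀ (x x' : X) (k y : A), Kf k → α x = α x' * k * y ^ 2 → x = x') :
    ∃ i : X → C × F, Function.Injective i := by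
  classical
  rcases isEmpty_or_nonempty X with hX | hX
  · exact ⟨fun _ => Classical.arbitrary _, Function.injective_of_subsingleton _⟩
  · let rep : C → X := fun c => Function.invFun (fun x => cl (α x)) c
    have hrep : ∀ x, cl (α (rep (cl (α x)))) = cl (α x) := fun x =>
      Function.invFun_eq (f := fun x => cl (α x)) ⟨x, rfl⟩
    have hsec : ∀ x : X, ∃ k b, Kf k ∧ B b ∧ α x = α (rep (cl (α x))) * k * b :=
      fun x => h1 _ _ (hrep x).symm
    choose k b hk hb hkb using hsec
    have hinj' : Function.Injective (fun x : X => (cl (α x), loc (b x))) := by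
      intro x x' hxx
      obtain ⟨h3, h4⟩ := Prod.mk.inj hxx
      obtain ⟨y, hy⟩ := h2 _ _ (hb x) (hb x') h4
      have e1 := hkb x
      have e2 := hkb x'
      rw [← h3] at e2
      refine hinj x x' (k x / k x') y (hKdiv _ _ (hk x) (hk x')) ?_
      rw [e1, e2, hy]
      generalize α (rep (cl (α x))) = a
      simp only [div_eq_mul_inv]
      have : k x' * (k x')⁻¹ = 1 := mul_inv_cancel _
      calc a * k x * (b x' * y ^ 2) = a * k x * (b x' * y ^ 2) * (k x' * (k x')⁻¹) := by
            rw [this, mul_one]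
        _ = _ := by simp only [mul_assoc, mul_comm, mul_left_comm]
    exact ⟨_, hinj'⟩

end Vale.Agent.P036.TW.T9
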