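import Vale.Agent.P036.TW.T9Desc

/-!
TOWERS, block T9 (the class-group invariant of an element of `Lˣ` which is invariant modulo
squares).
-/

namespace Vale.Agent.P036.TW.T9

open IsDedekindDomain NumberField
open scoped nonZeroDivisors WithZero Pointwise

section

variable {L : Type} [Field L] [NumberField L] {Γ : Type} [Group Γ] [MulSemiringAction Γ L]

theorem ordI_smul (g : Γ) (P Q : Pl L) (h : Q.asIdeal = g • P.asIdeal) (x : 𝓞 L) :
    ordI Q (Ideal.span {g • x}) = ordI P (Ideal.span {x}) := by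
  have h1 : Ideal.span {g • x} = g • Ideal.span {x} := by
    rw [Ideal.pointwise_smul_def, Ideal.map_span, Set.image_singleton]
    rfl
  rw [ordI, ordI, h, h1]
  exact multiplicity_map_eq (MulDistribMulAction.toMulEquiv (Ideal (𝓞 L)) g)

theorem val_smul (g : Γ) (P Q : Pl L) (h : Q.asIdeal = g • P.asIdeal) (a b : Lˣ)
    (hab : (b : L) = g • (a : L)) : Q.valuationOfNeZero b = P.valuationOfNeZero a := by
  obtain ⟨x, y, hy, hxy⟩ := IsFractionRing.div_surjective (A := 𝓞 L) (a : L)
  have hy0 : y ≠ 0 := nonZeroDivisors.ne_zero hy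
  have hx0 : x ≠ 0 := by
    rintro rfl
    rw [map_zero, zero_div] at hxy
    exact a.ne_zero hxy.symm
  have hgx : g • x ≠ 0 := by
    intro h0; exact hx0 (by simpa using congrArg (g⁻¹ • ·) h0)
  have hgy : g • y ≠ 0 := by
    intro h0; exact hy0 (by simpa using congrArg (g⁻¹ • ·) h0)
  apply Multiplicative.toAdd.injective
  rw [toAdd_val P a x y hx0 hy0 hxy.symm, toAdd_val Q b (g • x) (g • y) hgx hgy,
    ordI_smul g P Q h, ordI_smul g P Q h]
  rw [hab, ← hxy, smul_div₀']
  rfl

end

section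

variable {L : Type} [Field L] [NumberField L] [IsGalois ℚ L] (H : Subgroup (L ≃ₐ[ℚ] L))

/-- The fixed field of `H`. -/
abbrev Fix : IntermediateField ℚ L := FixedPoints.intermediateField H

instance isGaloisGroup_fix : IsGaloisGroup H (Fix H) L :=
  IsGaloisGroup.subgroup (L ≃ₐ[ℚ] L) ℚ L H

instance isGaloisGroup_fix' : IsGaloisGroup H (𝓞 (Fix H)) (𝓞 L) :=
  instIsGaloisGroupRingOfIntegersOfNumberField (Fix H) L H

/-- Invariant modulo squares. -/
def InvSq (a : Lˣ) : Prop := ∀ g : H, ∃ z : Lˣ, g • a = a * z ^ 2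

variable {H}

theorem evenAt_of_under_eq {a : Lˣ} (ha : InvSq H a) (P Q : Pl L)
    (h : under (Fix H) P = under (Fix H) Q) (hP : EvenAt P a) : EvenAt Q a := by
  have hP' : P.asIdeal.LiesOver (under (Fix H) P).asIdeal := inferInstance
  have hQ' : Q.asIdeal.LiesOver (under (Fix H) P).asIdeal := by rw [h]; infer_instance
  obtain ⟨g, hg⟩ := Ideal.exists_smul_eq_of_isGaloisGroup (under (Fix H) P).asIdeal
    P.asIdeal Q.asIdeal H
  obtain ⟨z, hz⟩ := ha g
  have h1 : Q.valuationOfNeZero (g • a) = P.valuationOfNeZero a :=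
    val_smul g P Q hg.symm a (g • a) rfl
  have h2 : EvenAt Q (g • a) := by
    obtain ⟨m, hm⟩ := hP
    exact ⟨m, by rw [h1, hm]⟩
  rw [hz] at h2
  exact (evenAt_mul_sq Q a z).1 h2

variable (H) in
open Classical in
/-- The finite set of primes of `K` under the primes where `a` has odd order. -/
noncomputable def oddSet (a : Lˣ) : Finset (Pl (Fix H)) :=
  (finite_not_even a).toFinset.image (under (Fix H))

theorem mem_oddSet {a : Lˣ} (ha : InvSq H a) (P : Pl L) :
    under (Fix H) P ∈ oddSet H a ↔ ¬ EvenAt P a := by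
  classical
  rw [oddSet, Finset.mem_image]
  constructor
  · rintro ⟨Q, hQ, hQP⟩ hP
    rw [Set.Finite.mem_toFinset] at hQ
    exact hQ (evenAt_of_under_eq ha P Q hQP.symm hP)
  · intro hP
    exact ⟨P, by rw [Set.Finite.mem_toFinset]; exact hP, rfl⟩

/-- The class group part of the count. -/
theorem class_part (hin : InertiaTrivial L H) {a a' : Lˣ} (ha : InvSq H a) (ha' : InvSq H a')
    (h : clS (oddSet H a) = clS (oddSet H a')) :
    ∃ k b : Lˣ, (∀ g : H, g • k = k) ∧ (∀ P : Pl L, EvenAt P b) ∧ a = a' * k * b := by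
  obtain ⟨k, hk⟩ := clS_eq _ _ h
  have hin' : ∀ P : Ideal (𝓞 L), P.IsMaximal → ∀ g : H, (∀ x : 𝓞 L, g • x - x ∈ P) → g = 1 := by
    intro P hP g hg
    exact Subtype.ext (hin P hP g g.2 hg)
  let k' : Lˣ := Units.map (algebraMap (Fix H) L).toMonoidHom k
  refine ⟨k', a / (a' * k'), ?_, ?_, ?_⟩
  · intro g
    apply Units.ext
    exact (k : Fix H).2 g
  · intro P
    have h1 := hk (under (Fix H) P)
    rw [mem_oddSet ha, mem_oddSet ha'] at h1
    have h2 : EvenAt P k' ↔ EvenAt (under (Fix H) P) k := by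
      unfold EvenAt
      rw [val_map H hin' P k]
    rw [← h2] at h1
    rw [evenAt_iff] at h1 ⊢
    rw [evenAt_iff, evenAt_iff] at h1
    rw [map_div, map_mul, toAdd_div, toAdd_mul]
    rw [Int.even_iff] at *
    rw [Int.even_iff, Int.even_iff] at h1
    omega
  · rw [mul_div_cancel]

end

end Vale.Agent.P036.TW.T9
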