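import Mathlib
import Vale.Agent.P036.TW.Defs

/-!
# P036, towers: interface of block T9b (local counts)
-/

namespace Vale.Agent.P036.TW

open NumberField IsDedekindDomain
open scoped Pointwise nonZeroDivisors

/-- Block T9b (local counts and maximality). -/
def T9bStmt : Prop :=
  ∀ (P0 T : Finset ℕ), Data P0 T → ∀ (L : Type) [Field L] [NumberField L],
    IsMaxAdm (disc T) P0 L → ∀ δ : L, δ ^ 2 = (disc T : L) →
    ∃ loc : Lˣ → Fin (4 ^ (P0.card + 1)), ∀ b b' : Lˣ,
      (∀ g : GK δ, ∃ z : Lˣ, g • b = b * z ^ 2) →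
      (∀ g : GK δ, ∃ z : Lˣ, g • b' = b' * z ^ 2) →
      (∀ P : Pl L, Even (ord P (b : L))) → (∀ P : Pl L, Even (ord P (b' : L))) →
      loc b = loc b' → ∃ y : Lˣ, b = b' * y ^ 2

end Vale.Agent.P036.TW
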