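import Vale.Agent.P036.TW.Spec
import Vale.Agent.P036.TW.T9Defs
import Vale.Agent.P036.TW.T9Abs
import Vale.Agent.P036.TW.T9Cl

/-!
TOWERS, block T9: the bound for the number of relations, from the embedding theorem, the local
counts (T9b) and the genus bound (T10b).
-/

namespace Vale.Agent.P036.TW.T9

open IsDedekindDomain NumberField
open scoped nonZeroDivisors WithZero Pointwise

section

variable {L : Type} [Field L] [NumberField L]

/-- The sign homomorphism. -/
noncomputable def sgn (L : Type) [Field L] : Multiplicative (ZMod 2) →* Lˣ :=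
  MonoidHom.mk' (fun e => if Multiplicative.toAdd e = 0 then 1 else -1) (by
    intro a b
    obtain ⟨a, rfl⟩ := Multiplicative.ofAdd.surjective a
    obtain ⟨b, rfl⟩ := Multiplicative.ofAdd.surjective b
    rw [← ofAdd_add]
    simp only [toAdd_ofAdd]
    have h0 : ∀ a : ZMod 2, a = 0 ∨ a = 1 := by decide
    have h1 : ¬ ((1 : ZMod 2) = 0) := by decide
    have h2 : (1 : ZMod 2) + 1 = 0 := by decide
    rcases h0 a with rfl | rfl <;> rcases h0 b with rfl | rfl
    · simp
    · simp
    · simp
    · rw [if_neg h1, h2]; simp)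

omit [NumberField L] in
theorem sgn_apply (e : Multiplicative (ZMod 2)) :
    sgn L e = if Multiplicative.toAdd e = 0 then 1 else -1 := rfl

omit [NumberField L] in
theorem sgn_cases (e : Multiplicative (ZMod 2)) : (e = 1 ∧ sgn L e = 1) ∨ sgn L e = -1 := by
  rw [sgn_apply]
  split_ifs with h
  · exact Or.inl ⟨Multiplicative.toAdd.injective h, rfl⟩
  · exact Or.inr rfl

theorem sgn_inj : Function.Injective (sgn L) := by
  rw [injective_iff_map_eq_one]
  intro e he
  rcases sgn_cases (L := L) e with h | h
  · exact h.1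
  · rw [h] at he
    have h1 : (-1 : L) = 1 := by
      have := congrArg (fun u : Lˣ => (u : L)) he
      simpa using this
    exfalso
    have h2 : (2 : L) = 0 := by linear_combination -h1
    exact two_ne_zero h2

omit [NumberField L] in
theorem sgn_range (x : Lˣ) (hx : x ^ 2 = 1) : x ∈ (sgn L).range := by
  have h1 : (x : L) ^ 2 = 1 := by
    have := congrArg (fun u : Lˣ => (u : L)) hx
    simpa using this
  have h2 : (x : L) = 1 ∨ (x : L) = -1 := by
    have h3 : ((x : L) - 1) * ((x : L) + 1) = 0 := by linear_combination h1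
    rcases mul_eq_zero.1 h3 with h | h
    · exact Or.inl (by linear_combination h)
    · exact Or.inr (by linear_combination h)
  rcases h2 with h | h
  · refine ⟨1, ?_⟩
    rw [map_one]; exact Units.ext h.symm
  · refine ⟨Multiplicative.ofAdd 1, ?_⟩
    rw [sgn_apply, toAdd_ofAdd, if_neg (by decide)]
    exact Units.ext (by simpa using h.symm)

theorem sgn_sq (e : Multiplicative (ZMod 2)) : sgn L e ^ 2 = 1 := by
  rcases sgn_cases (L := L) e with h | h
  · rw [h.2, one_pow]
  · rw [h]; simp

end

section

variable {L : Type} [Field L] [NumberField L] [IsGalois ℚ L] (H : Subgroup (L ≃ₐ[ℚ] L))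

/-- Hilbert 90 for a subgroup of the Galois group. -/
theorem hilbert90 (c : H → Lˣ) (hc : ∀ g h, c (g * h) = c g * g • c h) :
    ∃ a : Lˣ, ∀ g, c g = g • a / a := by
  let e : H ≃* (L ≃ₐ[Fix H] L) := IsGaloisGroup.mulEquivAlgEquiv H (Fix H) L
  have he : ∀ (g : L ≃ₐ[Fix H] L) (x : L), e.symm g • x = g x := by
    intro g x
    conv_rhs => rw [← e.apply_symm_apply g]
    rfl
  obtain ⟨x, hx⟩ := groupCohomology.isMulCoboundary₁_of_isMulCocycle₁_of_aut_to_units
    (K := Fix H) (L := L) (fun g => c (e.symm g)) (by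
      intro g h
      simp only [map_mul]
      rw [hc, mul_comm]
      congr 1
      apply Units.ext
      exact he g _)
  refine ⟨x, fun g => ?_⟩
  have h1 := hx (e g)
  simp only [MulEquiv.symm_apply_apply] at h1
  rw [← h1]
  congr 1

theorem card_orbit {D : ℤ} (hD : D < 0) {δ : L} (hδ : δ ^ 2 = (D : L)) :
    (GK δ).index = 2 := by
  have hδ0 : δ ≠ 0 := by
    rintro rfl
    have h1 : ((D : ℤ) : L) = 0 := by rw [← hδ]; simp
    have h2 : D = 0 := by exact_mod_cast h1
    omega
  have hne : δ ≠ -δ := by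
    intro h
    have h1 : (2 : L) * δ = 0 := by linear_combination h
    rcases mul_eq_zero.1 h1 with h2 | h2
    · exact two_ne_zero h2
    · exact hδ0 h2
  rw [MulAction.index_stabilizer]
  have horb : MulAction.orbit (L ≃ₐ[ℚ] L) δ = {δ, -δ} := by
    apply Set.Subset.antisymm
    · rintro _ ⟨g, rfl⟩
      have h1 : (g • δ) ^ 2 = δ ^ 2 := by
        rw [← smul_pow', hδ]
        simp
      have h3 : (g • δ - δ) * (g • δ + δ) = 0 := by linear_combination h1
      rcases mul_eq_zero.1 h3 with h | h
      · left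
        show g • δ = δ
        linear_combination h
      · right
        show g • δ = -δ
        linear_combination h
    · have hex : ∃ g : L ≃ₐ[ℚ] L, g • δ ≠ δ := by
        by_contra hcon
        push Not at hcon
        have h1 : δ ∈ (⊥ : IntermediateField ℚ L) :=
          (InfiniteGalois.mem_bot_iff_fixed δ).mpr hcon
        rw [IntermediateField.mem_bot] at h1
        obtain ⟨q, hq⟩ := h1
        rw [← hq] at hδ
        have h2 : q ^ 2 = (D : ℚ) := by
          apply (algebraMap ℚ L).injective
          rw [map_pow, hδ]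
          simp
        have h3 : (D : ℚ) < 0 := by exact_mod_cast hD
        nlinarith [sq_nonneg q]
      obtain ⟨g, hg⟩ := hex
      rintro x (rfl | hx)
      · exact MulAction.mem_orbit_self x
      · rw [Set.mem_singleton_iff] at hx
        subst hx
        refine ⟨g, ?_⟩
        have h1 : (g • δ) ^ 2 = δ ^ 2 := by
          rw [← smul_pow', hδ]
          simp
        have h3 : (g • δ - δ) * (g • δ + δ) = 0 := by linear_combination h1
        rcases mul_eq_zero.1 h3 with h | h
        · exact absurd (by linear_combination h) hg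
        · show g • δ = -δ
          linear_combination h
  rw [horb, Set.ncard_pair hne]

theorem finrank_fix {D : ℤ} (hD : D < 0) {δ : L} (hδ : δ ^ 2 = (D : L)) :
    Module.finrank ℚ (Fix (GK δ)) = 2 := by
  have h1 := IsGaloisGroup.card_eq_finrank (GK δ) (Fix (GK δ)) L
  have h2 := IsGaloisGroup.card_eq_finrank (L ≃ₐ[ℚ] L) ℚ L
  have h3 := Module.finrank_mul_finrank ℚ (Fix (GK δ)) L
  have h4 := (GK δ).card_mul_index
  rw [card_orbit hD hδ] at h4
  rw [← h1, ← h2, ← h4, mul_comm] at h3
  have h5 : 0 < Nat.card (GK δ) := Nat.card_pos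
  exact Nat.eq_of_mul_eq_mul_left h5 h3

end

theorem disc_neg {P0 T : Finset ℕ} (h : Data P0 T) : disc T < 0 := by
  rw [disc]
  have : 0 < ∏ p ∈ T, (p : ℤ) := by
    apply Finset.prod_pos
    intro p hp
    exact_mod_cast (h.prime p hp).pos
  omega

theorem T9_of (hE : EmbStmt) (h9b : T9bStmt) (h10b : T10bStmt) : T9Stmt := by
  intro P0 T hDT L _ _ hmax δ hδ Φ _ π hπ hmin
  have hadm := hmax.1
  have := hadm.gal
  have hD : disc T < 0 := disc_neg hDT
  have h2G : IsPGroup 2 (GK δ) := hadm.two.to_subgroup _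
  have hin := hadm.unr δ hδ
  obtain ⟨loc, hloc⟩ := h9b P0 T hDT L hmax δ hδ
  obtain ⟨α, hα1, hα2⟩ := exists_class (E := Multiplicative (ZMod 2)) (A := Lˣ) (G := GK δ)
    (sgn L) sgn_inj sgn_range sgn_sq
    (by
      intro g e
      rcases sgn_cases (L := L) e with h | h
      · rw [h.2, smul_one]
      · rw [h]
        apply Units.ext
        show (g : L ≃ₐ[ℚ] L) (-1 : L) = -1
        simp) π hπ (hilbert90 (GK δ))
    (by
      intro φ
      refine hE L (disc T) δ hδ hD h2G hin Φ π hπ ((sgn L).comp φ.1) ?_ ?_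
      · intro f r s hs
        simp only [MonoidHom.comp_apply]
        rw [φ.2 f r s hs]
        rcases sgn_cases (L := L) (φ.1 r) with h | h
        · rw [h.2, smul_one]
        · rw [h]
          apply Units.ext
          show (-1 : L) = ((π f : GK δ) : L ≃ₐ[ℚ] L) (-1 : L)
          simp
      · intro r P
        have h1 : (sgn L (φ.1 r)) ^ 2 = 1 := sgn_sq _
        have h2 := congrArg P.valuationOfNeZero h1
        rw [map_pow, map_one] at h2
        have h3 := congrArg Multiplicative.toAdd h2
        rw [toAdd_pow, toAdd_one] at h3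
        rw [MonoidHom.comp_apply, ord_eq]
        simpa using h3)
    (fun χ r => hmin χ r r.2)
  have hroot : ∃ δ' : Fix (GK δ), δ' ^ 2 = (disc T : Fix (GK δ)) := by
    refine ⟨⟨δ, fun g => g.2⟩, ?_⟩
    apply Subtype.ext
    show δ ^ 2 = ((disc T : Fix (GK δ)) : L)
    rw [hδ]
    simp
  have hC := h10b P0 T hDT (Fix (GK δ)) (by
    rw [← finrank_fix hD hδ]) hroot
  obtain ⟨i, hi⟩ := exists_inj (C := ClassGroup (𝓞 (Fix (GK δ))) ⧸
      (powMonoidHom 2 : ClassGroup (𝓞 (Fix (GK δ))) →* ClassGroup (𝓞 (Fix (GK δ)))).range)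
    (F := Fin (4 ^ (P0.card + 1))) α (fun a => clS (oddSet (GK δ) a)) loc
    (fun k => ∀ g : GK δ, g • k = k)
    (fun b => InvSq (GK δ) b ∧ ∀ P : Pl L, EvenAt P b)
    (by
      intro k k' hk hk' g
      rw [smul_div', hk, hk'])
    (by
      intro x x' hx
      obtain ⟨k, b, hk, hb, hkb⟩ := class_part hin (hα1 x) (hα1 x') hx
      refine ⟨k, b, hk, ⟨?_, hb⟩, hkb⟩
      intro g
      obtain ⟨z, hz⟩ := hα1 x g
      obtain ⟨z', hz'⟩ := hα1 x' g
      have hb' : b = α x / (α x' * k) := by rw [hkb]; simp
      refine ⟨z / z', ?_⟩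
      rw [hb', smul_div', smul_mul', hz, hz', hk g, div_pow]
      simp only [div_eq_mul_inv, mul_inv]
      simp only [mul_assoc, mul_comm, mul_left_comm])
    (by
      intro b b' hb hb' h
      exact hloc b b' hb.1 hb'.1 (fun P => (even_ord_iff P b).2 (hb.2 P))
        (fun P => (even_ord_iff P b').2 (hb'.2 P)) h)
    (by
      intro x x' k y hk h
      exact hα2 x x' k y hk h)
  have : Finite (ClassGroup (𝓞 (Fix (GK δ)))) := inferInstance
  constructor
  · exact Finite.of_injective i hi
  · have h1 := Nat.card_le_card_of_injective i hi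
    rw [Nat.card_prod, Nat.card_eq_fintype_card (α := Fin _), Fintype.card_fin] at h1
    refine h1.trans ?_
    calc _ ≤ 2 ^ T.card * 4 ^ (P0.card + 1) := Nat.mul_le_mul_right _ hC
      _ = 2 ^ (T.card + 2 + 2 * P0.card) := by
        have : (4 : ℕ) = 2 ^ 2 := by norm_num
        rw [this, ← pow_mul, ← pow_add]
        congr 1
        ring

end Vale.Agent.P036.TW.T9
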