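import Mathlib

/-!
TOWERS, block T9 (class group part): ideals which are products of distinct primes, compared
modulo squares in the class group.
-/

namespace Vale.Agent.P036.TW.T9

open IsDedekindDomain NumberField
open scoped nonZeroDivisors WithZero

section Ded

variable {R : Type*} [CommRing R] [IsDedekindDomain R]

/-- The product of the primes in a finite set. -/
noncomputable def JS (S : Finset (HeightOneSpectrum R)) : Ideal R := ∏ p ∈ S, p.asIdeal

theorem JS_ne (S : Finset (HeightOneSpectrum R)) : JS S ≠ ⊥ := by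
  rw [JS, ← Ideal.zero_eq_bot, Finset.prod_ne_zero_iff]
  exact fun p _ => p.ne_bot

/-- The order at `p` of an ideal. -/
noncomputable def ordI (p : HeightOneSpectrum R) (I : Ideal R) : ℕ := multiplicity p.asIdeal I

theorem fin_ord (p : HeightOneSpectrum R) {I : Ideal R} (hI : I ≠ ⊥) :
    FiniteMultiplicity p.asIdeal I :=
  FiniteMultiplicity.of_prime_left p.prime hI

theorem ordI_mul (p : HeightOneSpectrum R) {I J : Ideal R} (hI : I ≠ ⊥) (hJ : J ≠ ⊥) :
    ordI p (I * J) = ordI p I + ordI p J := by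
  rw [ordI, multiplicity_mul p.prime (fin_ord p (mul_ne_zero hI hJ))]
  rfl

theorem ordI_self (p q : HeightOneSpectrum R) [Decidable (p = q)] :
    ordI p q.asIdeal = if p = q then 1 else 0 := by
  split_ifs with h
  · subst h
    have h1 := multiplicity_pow_self p.prime.ne_zero p.prime.not_isUnit 1
    rwa [pow_one] at h1
  · rw [ordI, multiplicity_eq_zero]
    intro hd
    apply h
    have h1 : q.asIdeal ≤ p.asIdeal := Ideal.le_of_dvd hd
    have h2 := q.isMaximal.eq_of_le p.isPrime.ne_top h1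
    exact HeightOneSpectrum.ext h2.symm

open Classical in
theorem ordI_JS (p : HeightOneSpectrum R) (S : Finset (HeightOneSpectrum R)) :
    ordI p (JS S) = if p ∈ S then 1 else 0 := by
  induction S using Finset.induction_on with
  | empty =>
    simp only [Finset.notMem_empty, if_false, JS, Finset.prod_empty]
    rw [ordI, multiplicity_eq_zero]
    intro hd
    exact p.prime.not_isUnit (isUnit_of_dvd_one hd)
  | insert q S hq ih =>
    have h0 : JS (insert q S) = q.asIdeal * JS S := by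
      rw [JS, Finset.prod_insert hq]; rfl
    rw [h0, ordI_mul p q.ne_bot (JS_ne S), ordI_self, ih]
    by_cases h1 : p = q
    · subst h1
      simp [hq]
    · simp [h1]

theorem ordI_sq (p : HeightOneSpectrum R) {I : Ideal R} (hI : I ≠ ⊥) :
    ordI p (I ^ 2) = 2 * ordI p I := by
  rw [sq, ordI_mul p hI hI, two_mul]

end Ded

section NF

variable {K : Type*} [Field K] [NumberField K]

/-- The valuation of an element is a square in the value group. -/
def EvenAt {K : Type*} [Field K] [NumberField K] (p : HeightOneSpectrum (𝓞 K)) (a : Kˣ) : Prop :=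
  ∃ m : Multiplicative ℤ, p.valuationOfNeZero a = m ^ 2

theorem evenAt_mul_sq (p : HeightOneSpectrum (𝓞 K)) (a b : Kˣ) :
    EvenAt p (a * b ^ 2) ↔ EvenAt p a := by
  constructor
  · rintro ⟨m, hm⟩
    refine ⟨m / p.valuationOfNeZero b, ?_⟩
    rw [map_mul, map_pow] at hm
    rw [div_pow, eq_div_iff_mul_eq', ← hm, mul_comm]
  · rintro ⟨m, hm⟩
    exact ⟨m * p.valuationOfNeZero b, by rw [map_mul, map_pow, hm, mul_pow]⟩

theorem even_iff (m : Multiplicative ℤ) : (∃ n : Multiplicative ℤ, m = n ^ 2) ↔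
    Even (Multiplicative.toAdd m) := by
  constructor
  · rintro ⟨n, rfl⟩
    exact ⟨Multiplicative.toAdd n, by rw [toAdd_pow, two_nsmul]⟩
  · rintro ⟨n, hn⟩
    refine ⟨Multiplicative.ofAdd n, ?_⟩
    apply Multiplicative.toAdd.injective
    rw [hn, toAdd_pow, toAdd_ofAdd, two_nsmul]

theorem evenAt_iff (p : HeightOneSpectrum (𝓞 K)) (a : Kˣ) :
    EvenAt p a ↔ Even (Multiplicative.toAdd (p.valuationOfNeZero a)) := even_iff _

theorem toAdd_val (p : HeightOneSpectrum (𝓞 K)) (a : Kˣ) (x y : 𝓞 K) (hx : x ≠ 0) (hy : y ≠ 0)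
    (h : (a : K) = algebraMap (𝓞 K) K x / algebraMap (𝓞 K) K y) :
    Multiplicative.toAdd (p.valuationOfNeZero a) =
      (ordI p (Ideal.span {y}) : ℤ) - ordI p (Ideal.span {x}) := by
  have h1 : ((p.valuationOfNeZero a : Multiplicative ℤ) : ℤᵐ⁰) =
      WithZero.exp ((ordI p (Ideal.span {y}) : ℤ) - ordI p (Ideal.span {x})) := by
    rw [HeightOneSpectrum.valuationOfNeZero_eq, h, map_div₀, HeightOneSpectrum.valuation_of_algebraMap,
      HeightOneSpectrum.valuation_of_algebraMap,
      HeightOneSpectrum.intValuation_eq_exp_neg_multiplicity p hx,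
      HeightOneSpectrum.intValuation_eq_exp_neg_multiplicity p hy, ← WithZero.exp_sub]
    congr 1
    simp only [ordI]
    ring
  have h2 : (p.valuationOfNeZero a : Multiplicative ℤ) =
      Multiplicative.ofAdd ((ordI p (Ideal.span {y}) : ℤ) - ordI p (Ideal.span {x})) := by
    exact WithZero.coe_inj.mp h1
  rw [h2, toAdd_ofAdd]

/-- The class of `J_S` modulo squares of classes. -/
noncomputable def clS (S : Finset (HeightOneSpectrum (𝓞 K))) :
    ClassGroup (𝓞 K) ⧸ (powMonoidHom 2 : ClassGroup (𝓞 K) →* ClassGroup (𝓞 K)).range :=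
  QuotientGroup.mk (ClassGroup.mk0 ⟨JS S, mem_nonZeroDivisors_of_ne_zero (JS_ne S)⟩)

theorem clS_eq (S S' : Finset (HeightOneSpectrum (𝓞 K))) (h : clS S = clS S') :
    ∃ k : Kˣ, ∀ p : HeightOneSpectrum (𝓞 K), EvenAt p k ↔ (p ∈ S ↔ p ∈ S') := by
  classical
  rw [clS, clS, QuotientGroup.eq] at h
  obtain ⟨c, hc⟩ := h
  obtain ⟨I, rfl⟩ := ClassGroup.mk0_surjective c
  rw [powMonoidHom_apply, eq_inv_mul_iff_mul_eq, ← map_pow, ← map_mul,
    ClassGroup.mk0_eq_mk0_iff] at hc
  obtain ⟨x, y, hx, hy, hxy⟩ := hc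
  have hx' : algebraMap (𝓞 K) K x ≠ 0 := by simpa using hx
  have hy' : algebraMap (𝓞 K) K y ≠ 0 := by simpa using hy
  refine ⟨Units.mk0 (algebraMap (𝓞 K) K x / algebraMap (𝓞 K) K y) (div_ne_zero hx' hy'), ?_⟩
  intro p
  rw [evenAt_iff, toAdd_val p _ x y hx hy rfl]
  have hI : (I : Ideal (𝓞 K)) ≠ ⊥ := nonZeroDivisors.coe_ne_zero I
  have hsx : Ideal.span {x} ≠ ⊥ := by simpa using hx
  have hsy : Ideal.span {y} ≠ ⊥ := by simpa using hy
  have h1 := congrArg (ordI p) hxy
  have h2 : ordI p (Ideal.span {x}) + (ordI p (JS S) + 2 * ordI p (I : Ideal (𝓞 K)))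
      = ordI p (Ideal.span {y}) + ordI p (JS S') := by
    rw [← ordI_sq p hI, ← ordI_mul p (JS_ne S) (pow_ne_zero 2 hI), ← ordI_mul p hsx
      (mul_ne_zero (JS_ne S) (pow_ne_zero 2 hI)), ← ordI_mul p hsy (JS_ne S')]
    exact h1
  rw [ordI_JS, ordI_JS] at h2
  rw [Int.even_iff]
  by_cases h3 : p ∈ S <;> by_cases h4 : p ∈ S' <;> simp only [h3, h4, if_true, if_false] at h2 ⊢ <;>
    simp only [iff_true, iff_false, true_iff, false_iff, not_true, not_false_iff] <;> omega

end NF

end Vale.Agent.P036.TW.T9
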