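import Vale.Agent.P036.TW.Defs
import Vale.Agent.P036.TW.T9Class

/-!
TOWERS, block T9 (descent of parities of divisors from `L` to `K`).
-/

namespace Vale.Agent.P036.TW.T9

open IsDedekindDomain NumberField
open scoped nonZeroDivisors WithZero Pointwise

section Ord

variable {L : Type} [Field L] [NumberField L]

theorem count_eq_ordI (P : Pl L) {r : 𝓞 L} (hr : r ≠ 0) :
    (Associates.mk P.asIdeal).count (Associates.mk (Ideal.span {r})).factors
      = ordI P (Ideal.span {r}) := by
  have h1 := HeightOneSpectrum.intValuation_if_neg P hr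
  have h2 := HeightOneSpectrum.intValuation_eq_exp_neg_multiplicity P hr
  rw [h1] at h2
  have h3 := WithZero.exp_injective h2
  simpa [ordI] using h3

theorem ord_div (P : Pl L) (x y : 𝓞 L) (hx : x ≠ 0) (hy : y ≠ 0) :
    ord P (algebraMap (𝓞 L) L x / algebraMap (𝓞 L) L y) =
      (ordI P (Ideal.span {x}) : ℤ) - ordI P (Ideal.span {y}) := by
  have hx' : algebraMap (𝓞 L) L x ≠ 0 := by simpa using hx
  have hy' : algebraMap (𝓞 L) L y ≠ 0 := by simpa using hy
  have h1 : ∀ r : 𝓞 L, r ≠ 0 → FractionalIdeal.count L P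
      (FractionalIdeal.spanSingleton (𝓞 L)⁰ (algebraMap (𝓞 L) L r)) =
        (ordI P (Ideal.span {r}) : ℤ) := by
    intro r hr
    rw [← FractionalIdeal.coeIdeal_span_singleton, FractionalIdeal.count_coe, count_eq_ordI P hr]
    simpa using hr
  rw [ord, div_eq_mul_inv, ← FractionalIdeal.spanSingleton_mul_spanSingleton,
    FractionalIdeal.count_mul, ← FractionalIdeal.spanSingleton_inv, FractionalIdeal.count_inv,
    h1 x hx, h1 y hy]
  · ring
  · simpa [FractionalIdeal.spanSingleton_ne_zero_iff] using hx'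
  · simpa [FractionalIdeal.spanSingleton_ne_zero_iff] using hy'

theorem ord_eq (P : Pl L) (a : Lˣ) :
    ord P (a : L) = - Multiplicative.toAdd (P.valuationOfNeZero a) := by
  obtain ⟨x, y, hy, hxy⟩ := IsFractionRing.div_surjective (A := 𝓞 L) (a : L)
  have hy0 : y ≠ 0 := nonZeroDivisors.ne_zero hy
  have hx0 : x ≠ 0 := by
    rintro rfl
    rw [map_zero, zero_div] at hxy
    exact a.ne_zero hxy.symm
  rw [← hxy, ord_div P x y hx0 hy0, toAdd_val P a x y hx0 hy0 hxy.symm]
  ring

theorem even_ord_iff (P : Pl L) (a : Lˣ) : Even (ord P (a : L)) ↔ EvenAt P a := by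
  rw [ord_eq, even_neg, evenAt_iff]

end Ord

section Descent

variable {K L : Type} [Field K] [NumberField K] [Field L] [NumberField L] [Algebra K L]

theorem finite_not_even (a : Lˣ) : {P : Pl L | ¬ EvenAt P a}.Finite := by
  obtain ⟨x, y, hy, hxy⟩ := IsFractionRing.div_surjective (A := 𝓞 L) (a : L)
  have hy0 : y ≠ 0 := nonZeroDivisors.ne_zero hy
  have hx0 : x ≠ 0 := by
    rintro rfl
    rw [map_zero, zero_div] at hxy
    exact a.ne_zero hxy.symm
  have h1 := Ideal.finite_factors (I := Ideal.span {x} * Ideal.span {y})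
    (by simp [hx0, hy0])
  refine h1.subset ?_
  intro P hP
  by_contra hd
  apply hP
  have hdx : ¬ P.asIdeal ∣ Ideal.span {x} := fun h => hd (Dvd.dvd.mul_right h _)
  have hdy : ¬ P.asIdeal ∣ Ideal.span {y} := fun h => hd (Dvd.dvd.mul_left h _)
  rw [evenAt_iff, toAdd_val P a x y hx0 hy0 hxy.symm]
  have e1 : ordI P (Ideal.span {x}) = 0 := multiplicity_eq_zero.2 hdx
  have e2 : ordI P (Ideal.span {y}) = 0 := multiplicity_eq_zero.2 hdy
  rw [e1, e2]
  simp

/-- The prime of `K` under a prime of `L`. -/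
noncomputable def under (K : Type) [Field K] [NumberField K] [Algebra K L] (P : Pl L) : Pl K where
  asIdeal := P.asIdeal.under (𝓞 K)
  isPrime := inferInstance
  ne_bot := by
    intro h
    apply P.ne_bot
    exact Ideal.eq_bot_of_comap_eq_bot h

instance (P : Pl L) : P.asIdeal.LiesOver (under K P).asIdeal := ⟨rfl⟩

variable (G : Type) [Group G] [Finite G] [MulSemiringAction G L] [IsGaloisGroup G K L]

theorem ramificationIdx_eq_one
    (hin : ∀ P : Ideal (𝓞 L), P.IsMaximal → ∀ g : G, (∀ x : 𝓞 L, g • x - x ∈ P) → g = 1)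
    (P : Pl L) : (under K P).asIdeal.ramificationIdx' P.asIdeal = 1 := by
  have hp : (under K P).asIdeal ≠ ⊥ := (under K P).ne_bot
  rw [Ideal.ramificationIdx'_eq_ramificationIdx _ _ hp,
    ← Ideal.ramificationIdxIn_eq_ramificationIdx (under K P).asIdeal P.asIdeal G]
  haveI : Finite (𝓞 K ⧸ (under K P).asIdeal) :=
    Ideal.finiteQuotientOfFreeOfNeBot _ hp
  haveI : (under K P).asIdeal.IsMaximal := (under K P).isMaximal
  rw [← Ideal.card_inertia_eq_ramificationIdxIn (G := G) (under K P).asIdeal P.asIdeal]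
  rw [Nat.card_eq_one_iff_unique]
  refine ⟨⟨fun g h => ?_⟩, inferInstance⟩
  have key : ∀ g : ↥(Ideal.inertia G P.asIdeal), (g : G) = 1 := by
    intro g
    exact hin P.asIdeal P.isMaximal g g.2
  exact Subtype.ext ((key g).trans (key h).symm)

theorem val_map
    (hin : ∀ P : Ideal (𝓞 L), P.IsMaximal → ∀ g : G, (∀ x : 𝓞 L, g • x - x ∈ P) → g = 1)
    (P : Pl L) (k : Kˣ) :
    P.valuationOfNeZero (Units.map (algebraMap K L).toMonoidHom k) =
      (under K P).valuationOfNeZero k := by
  rw [← WithZero.coe_inj, HeightOneSpectrum.valuationOfNeZero_eq,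
    HeightOneSpectrum.valuationOfNeZero_eq]
  have h := HeightOneSpectrum.valuation_liesOver L (under K P) P (k : K)
  rw [ramificationIdx_eq_one G hin P, pow_one] at h
  exact h.symm

end Descent

end Vale.Agent.P036.TW.T9
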