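import Mathlib
import Vale.Agent.P036.TW.Spec

/-!
# P036, towers: the form needed by the number field construction (`P0 = ∅`)
-/

namespace Vale.Agent.P036.TW

open NumberField IsDedekindDomain
open scoped Pointwise nonZeroDivisors

/-- **Tower theorem**, simple form: number fields of arbitrarily large degree with bounded root
discriminant and a real place. -/
def TowerZeroStmt : Prop :=
  ∃ R : ℕ, ∀ N : ℕ, ∃ (F : Type) (_ : Field F) (_ : NumberField F),
    N ≤ Module.finrank ℚ F ∧ (discr F).natAbs ≤ R ^ Module.finrank ℚ F ∧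
      ∃ w : InfinitePlace F, w.IsReal

theorem towerZero_of_tower (h : TowerStmt) : TowerZeroStmt := by
  obtain ⟨B, hB⟩ := h ∅ (by simp)
  refine ⟨B, fun N => ?_⟩
  obtain ⟨F, i1, i2, h1, ⟨f⟩, h3, -⟩ := hB N
  refine ⟨F, i1, i2, h1, ?_, ?_⟩
  · refine le_trans ?_ h3
    have : 0 < (discr F).natAbs := Int.natAbs_pos.2 (discr_ne_zero F)
    nlinarith
  · let φ : F →+* ℂ := Complex.ofRealHom.comp f
    refine ⟨InfinitePlace.mk φ, ?_⟩
    refine ⟨φ, ?_, rfl⟩
    rw [ComplexEmbedding.isReal_iff]
    ext x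
    simp [φ, ComplexEmbedding.conjugate]

end Vale.Agent.P036.TW
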